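import Vale.Agent.P287Z.L.Basic

/-!
Row A1a, second part: general facts on generated families and reflexive hulls.
-/

namespace Vale.Agent.P287Z.L

open MvPolynomial Module Filter Matrix Vale.Agent.P287 Vale.Agent.P287.Theta

namespace A1a

variable {V : Type} [AddCommGroup V] [Module ℂ V] [Module K V] [IsScalarTower ℂ K V]
variable {W : Type} [AddCommGroup W] [Module ℂ W] [Module K W] [IsScalarTower ℂ K W]
variable {Y : Type} [AddCommGroup Y] [Module ℂ Y] [Module K Y] [IsScalarTower ℂ K Y]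
variable {ι κ : Type} [Fintype ι] [Fintype κ]

theorem mem_sp {u : ι → V} {e : ι → ℤ} {k : ℤ} {v : V} :
    v ∈ Sp u e k ↔ ∃ c : ι → K, (∀ i, c i ∈ AA (k - e i)) ∧ ∑ i, c i • u i = v :=
  ⟨fun ⟨c, h1, h2⟩ => ⟨c, fun i => h1 i (Set.mem_univ i), h2⟩,
    fun ⟨c, h1, h2⟩ => ⟨c, fun i _ => h1 i, h2⟩⟩

theorem fam_sp (u : ι → V) (e : ι → ℤ) : Fam (Sp u e) := by
  intro d k a ha v hv
  obtain ⟨c, h1, rfl⟩ := mem_sp.1 hv
  refine mem_sp.2 ⟨fun i => a * c i, fun i => AA_cast (AA_mul ha (h1 i)) (by ring), ?_⟩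
  rw [Finset.smul_sum]
  exact Finset.sum_congr rfl fun i _ => mul_smul _ _ _

theorem gen_mem (u : ι → V) (e : ι → ℤ) (i : ι) : u i ∈ Sp u e (e i) := by
  classical
  refine mem_sp.2 ⟨Pi.single i 1, fun j => ?_, by simp [Pi.single_apply]⟩
  by_cases h : j = i
  · subst h
    rw [Pi.single_eq_same, sub_self]
    exact AA_one
  · rw [Pi.single_eq_of_ne h]
    exact zero_mem _

theorem fg_sp (u : ι → V) (e : ι → ℤ) : FG (Sp u e) := by
  let σ := (Fintype.equivFin ι).symm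
  refine ⟨_, u ∘ σ, e ∘ σ, fun k => Submodule.ext fun v => ?_⟩
  rw [mem_sp, mem_sp]
  refine ⟨fun ⟨c, h1, h2⟩ => ⟨c ∘ σ, fun i => h1 _, ?_⟩,
    fun ⟨c, h1, h2⟩ => ⟨c ∘ σ.symm, fun i => ?_, ?_⟩⟩
  · rw [← h2]
    exact Equiv.sum_comp σ fun i => c i • u i
  · have := h1 (σ.symm i)
    rwa [Function.comp_apply, Equiv.apply_symm_apply] at this
  · rw [← h2, ← Equiv.sum_comp σ]
    exact Finset.sum_congr rfl fun i _ => by
      simp only [Function.comp_apply, Equiv.symm_apply_apply]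

theorem sp_map {u : ι → V} {e : ι → ℤ} {N : ℤ → Submodule ℂ W} (hN : Fam N) (T : V →ₗ[K] W)
    (d : ℤ) (h : ∀ i, T (u i) ∈ N (d + e i)) {k : ℤ} {v : V} (hv : v ∈ Sp u e k) :
    T v ∈ N (d + k) := by
  obtain ⟨c, h1, rfl⟩ := mem_sp.1 hv
  rw [map_sum]
  refine Submodule.sum_mem _ fun i _ => ?_
  have := hN _ _ _ (h1 i) _ (h i)
  rwa [← map_smul, show k - e i + (d + e i) = d + k by ring] at this

theorem bil_sp {u : ι → V} {e : ι → ℤ} {u' : κ → W} {e' : κ → ℤ} {N : ℤ → Submodule ℂ Y}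
    (hN : Fam N) (ω : V →ₗ[K] W →ₗ[K] Y) (r : ℤ)
    (h : ∀ s t, ω (u s) (u' t) ∈ N (e s + e' t + r)) {i j : ℤ} {v : V} {w : W}
    (hv : v ∈ Sp u e i) (hw : w ∈ Sp u' e' j) : ω v w ∈ N (i + j + r) := by
  have h1 : ∀ t, ω v (u' t) ∈ N (i + r + e' t) := fun t => by
    have := sp_map hN (ω.flip (u' t)) (e' t + r) (fun s => by
      rw [show e' t + r + e s = e s + e' t + r by ring]
      exact h s t) hv
    rwa [show e' t + r + i = i + r + e' t by ring] at this
  have := sp_map hN (ω v) (i + r) h1 hw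
  rwa [show i + r + j = i + j + r by ring] at this

theorem le_hull {L : ℤ → Submodule ℂ V} {k : ℤ} {v : V} (hv : v ∈ L k) : v ∈ hull L k :=
  Submodule.subset_span fun g hg => ⟨0, 1, ug_one hg.1, by rwa [one_smul, zero_add]⟩

theorem hull_map {L : ℤ → Submodule ℂ V} {N : ℤ → Submodule ℂ W} (hN : Refl N) (T : V →ₗ[K] W)
    (d : ℤ) (h : ∀ k, ∀ v ∈ L k, T v ∈ N (d + k)) {k : ℤ} {v : V} (hv : v ∈ hull L k) :
    T v ∈ N (d + k) := by
  have : hull L k ≤ (N (d + k)).comap (T.restrictScalars ℂ) := by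
    refine Submodule.span_le.2 fun w hw => hN _ _ fun g hg => ?_
    obtain ⟨d', y, h1, h2⟩ := hw g hg
    refine ⟨d', y, h1, ?_⟩
    have := h _ _ h2
    rwa [map_smul, show d + (d' + k) = d' + (d + k) by ring] at this
  exact this hv

theorem fam_aa : Fam AA := fun _ _ _ ha _ hv => AA_mul ha hv

theorem refl_aa : Refl AA := by
  intro k v hv
  have key : ∀ b : P3, b ≠ 0 → ∀ d, Hg d b → ev b * v ∈ AA (d + k) → v ∈ AA k := by
    intro b
    induction b using UniqueFactorizationMonoid.induction_on_prime with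
    | h₁ => exact fun h => absurd rfl h
    | h₂ b hb =>
      intro h0 d hd h
      obtain ⟨c, hc⟩ := hb.exists_left_inv
      have h1 : Hg (0 - d) c := hd.quot h0 (by rw [mul_comm, hc]; exact hg_one)
      have := AA_mul h1.mem h
      rwa [← mul_assoc, ← map_mul, hc, map_one, one_mul,
        show 0 - d + (d + k) = k by ring] at this
    | h₃ b g hb hg ih =>
      intro h0 d hd h
      obtain ⟨n, hn⟩ := hd.of_mul h0
      obtain ⟨d', y, ⟨c, c1, rfl, c3⟩, a', a1, a2⟩ := hv g ⟨hg, n, hn⟩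
      obtain ⟨a, a3, a4⟩ := h
      have a2 : ev a' = ev c * v := a2
      have a4 : ev a = ev (g * b) * v := a4
      have e : c * a = g * b * a' := (Hg.mul c1 a3).inj (Hg.cast (hd.mul a1) (by ring)) (by
        rw [map_mul, map_mul _ _ a', a2, a4]; ring)
      obtain ⟨a'', rfl⟩ : g ∣ a :=
        (hg.dvd_or_dvd (e ▸ (dvd_mul_right g b).mul_right a')).resolve_left c3
      refine ih hb (d - n) (hn.quot hg.ne_zero hd) ⟨a'', (hn.quot hg.ne_zero a3).cast (by ring), ?_⟩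
      rw [map_mul, map_mul, mul_assoc] at a4
      exact mul_left_cancel₀ (hn.ev_ne hg.ne_zero) a4
  obtain ⟨d, y, ⟨b, b1, rfl, b3⟩, h⟩ := hv _ (hprime_X 0)
  exact key b (fun h0 => b3 (h0 ▸ dvd_zero _)) d b1 h

theorem refl_sp {u : ι → V} (hu : LinearIndependent K u) (e : ι → ℤ) : Refl (Sp u e) := by
  intro k v hv
  obtain ⟨d, y, h1, h2⟩ := hv _ (hprime_X 0)
  obtain ⟨c, -, h3⟩ := mem_sp.1 h2
  have h4 : ∑ i, (y⁻¹ * c i) • u i = v := by
    simp only [mul_smul]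
    rw [← Finset.smul_sum, h3, inv_smul_smul₀ h1.ne]
  refine mem_sp.2 ⟨_, fun i => refl_aa _ _ fun g hg => ?_, h4⟩
  obtain ⟨d', y', h5, h6⟩ := hv g hg
  obtain ⟨c', h7, h8⟩ := mem_sp.1 h6
  refine ⟨d', y', h5, ?_⟩
  have h9 : ∑ i, (c' i - y' * (y⁻¹ * c i)) • u i = 0 := by
    simp only [sub_smul, Finset.sum_sub_distrib, mul_smul y']
    rw [← Finset.smul_sum, h4, h8, sub_self]
  have := h7 i
  rwa [sub_eq_zero.1 (Fintype.linearIndependent_iff.1 hu _ h9 i), add_sub_assoc] at this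

theorem full_of {L : ℤ → Submodule ℂ V} (hL : Fam L) {u : ι → V} {e : ι → ℤ}
    (hu : ∀ i, u i ∈ L (e i)) (hs : Submodule.span K (Set.range u) = ⊤) : Full L := by
  intro v
  obtain ⟨c, rfl⟩ := (Submodule.mem_span_range_iff_exists_fun K).1
    (hs ▸ Submodule.mem_top : v ∈ Submodule.span K (Set.range u))
  obtain ⟨d, y, h0, -, h1⟩ := exists_frac_fun c
  obtain ⟨m, hm⟩ := Finite.exists_le e
  refine ⟨d + m, y, h0, ?_⟩
  rw [Finset.smul_sum]
  refine Submodule.sum_mem _ fun i _ => ?_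
  have := hL _ _ _ (AA_mono (show d ≤ d + m - e i by have := hm i; omega) (h1 i)) _ (hu i)
  rwa [mul_smul, sub_add_cancel] at this

theorem full_one {L : ℤ → Submodule ℂ K} {k : ℤ} {z : K} (hz : z ∈ L k) (h0 : z ≠ 0) :
    Full L := by
  intro v
  by_cases hv : v = 0
  · exact ⟨k, 1, one_ne_zero, by rw [hv, smul_zero]; exact zero_mem _⟩
  · exact ⟨k, z / v, div_ne_zero h0 hv, by rwa [smul_eq_mul, div_mul_cancel₀ _ hv]⟩

theorem no_common {M : Matrix (Fin 4) (Fin 4) P3} (hM : Prime M.det) {g : P3} (hg : Prime g) :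
    ∃ i j, ¬ g ∣ M i j := by
  by_contra h
  push Not at h
  choose N hN using h
  have e : M = g • Matrix.of N := by
    ext1 i j
    exact hN i j
  rw [e, Matrix.det_smul, Fintype.card_fin, pow_succ', mul_assoc] at hM
  rcases hM.irreducible.isUnit_or_isUnit rfl with h | h
  · exact hg.not_isUnit h
  · rw [pow_succ', mul_assoc] at h
    exact hg.not_isUnit (isUnit_of_mul_isUnit_left h)

end A1a

end Vale.Agent.P287Z.L
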