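import Vale.Agent.P287Z.L.Sk

/-!
Row A1a, first part: the polarised sandwich preserves the standard lattice.
-/

namespace Vale.Agent.P287Z.L

open MvPolynomial Module Filter Matrix Vale.Agent.P287 Vale.Agent.P287.Theta

namespace A1a

section det

variable {R : Type} [CommRing R]

theorem det4 (x : Fin 4 → R) :
    (Matrix.of ![x, Pi.single 1 1, Pi.single 2 1, Pi.single 3 1]).det = x 0 ∧
    (Matrix.of ![x, Pi.single 2 1, Pi.single 0 1, Pi.single 3 1]).det = x 1 ∧
    (Matrix.of ![x, Pi.single 0 1, Pi.single 1 1, Pi.single 3 1]).det = x 2 ∧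
    (Matrix.of ![x, Pi.single 1 1, Pi.single 0 1, Pi.single 2 1]).det = x 3 := by
  refine ⟨?_, ?_, ?_, ?_⟩ <;>
    simp [Matrix.det_succ_row_zero, Fin.sum_univ_succ, Fin.succAbove, Pi.single_apply]
  ring

end det

variable {G : Matrix (Fin 4) (Fin 4) K}

/-- the vectors in the Clifford algebra -/
noncomputable abbrev io (G : Matrix (Fin 4) (Fin 4) K) :
    (Fin 4 → K) →ₗ[K] CliffordAlgebra (qf4 G) := CliffordAlgebra.ι (qf4 G)

/-- the reversal -/
noncomputable abbrev rv (G : Matrix (Fin 4) (Fin 4) K) :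
    CliffordAlgebra (qf4 G) →ₗ[K] CliffordAlgebra (qf4 G) := CliffordAlgebra.reverse

theorem inc_inj : Function.Injective (inc G) := Subtype.val_injective

theorem inc_mm (u v : Fin 4 → K) : inc G (mm G u v) = io G u * io G v := rfl

theorem inc_tau (a : BB G) : inc G (tau G a) = rv G (inc G a) := rfl

theorem inc_even (a : BB G) : inc G a ∈ CliffordAlgebra.evenOdd (qf4 G) 0 :=
  Subtype.property (a : ↥(CliffordAlgebra.even (qf4 G)))

theorem coord (hA : Alg G) (x : Fin 4 → K) :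
    lam G (mm G x (e4 1) * mm G (e4 2) (e4 3)) = x 0 ∧
    lam G (mm G x (e4 2) * mm G (e4 0) (e4 3)) = x 1 ∧
    lam G (mm G x (e4 0) * mm G (e4 1) (e4 3)) = x 2 ∧
    lam G (mm G x (e4 1) * mm G (e4 0) (e4 2)) = x 3 := by
  rw [hA.lam_four, hA.lam_four, hA.lam_four, hA.lam_four]
  exact det4 x

theorem io_inj (hA : Alg G) : LinearMap.ker (io G) = ⊥ := by
  refine LinearMap.ker_eq_bot'.mpr fun x hx => ?_
  have h : ∀ v, mm G x v = 0 := fun v => inc_inj (by rw [inc_mm, hx, zero_mul, map_zero])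
  obtain ⟨h0, h1, h2, h3⟩ := coord hA x
  rw [h, zero_mul, map_zero] at h0 h1 h2 h3
  funext i
  fin_cases i
  exacts [h0.symm, h1.symm, h2.symm, h3.symm]

/-- the polarised sandwich in the Clifford algebra -/
noncomputable def ps (G : Matrix (Fin 4) (Fin 4) K) (u : Fin 4 → K) :
    BB G →ₗ[K] BB G →ₗ[K] CliffordAlgebra (qf4 G) :=
  LinearMap.mk₂ K (fun a b => rv G (inc G a) * io G u * inc G b + rv G (inc G b) * io G u * inc G a)
    (fun a a' b => by simp only [map_add, add_mul, mul_add]; abel)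
    (fun c a b => by simp only [map_smul, smul_mul_assoc, mul_smul_comm, smul_add])
    (fun a b b' => by simp only [map_add, add_mul, mul_add]; abel)
    (fun c a b => by simp only [map_smul, smul_mul_assoc, mul_smul_comm, smul_add])

theorem ps_apply (u : Fin 4 → K) (a b : BB G) : ps G u a b =
    rv G (inc G a) * io G u * inc G b + rv G (inc G b) * io G u * inc G a := rfl

theorem ex_sw (hA : Alg G) (hS : Snd G) : ∃ S : Fin 4 → BB G →ₗ[K] BB G →ₗ[K] Fin 4 → K,
    ∀ m a b, io G (S m a b) = ps G (e4 m) a b := by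
  obtain ⟨r, hr⟩ := (io G).exists_leftInverse_of_injective (io_inj hA)
  refine ⟨fun m => (ps G (e4 m)).compr₂ r, fun m a b => ?_⟩
  have ho : ∀ a b : BB G, rv G (inc G a) * io G (e4 m) * inc G b ∈
      CliffordAlgebra.evenOdd (qf4 G) 1 := fun a b => by
    have := SetLike.mul_mem_graded (SetLike.mul_mem_graded
      ((CliffordAlgebra.reverse_mem_evenOdd_iff (qf4 G)).2 (inc_even a))
      (CliffordAlgebra.ι_mem_evenOdd_one (qf4 G) (e4 m))) (inc_even b)
    rwa [zero_add, add_zero] at this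
  obtain ⟨u, hu⟩ := hS.odd (ps G (e4 m) a b) (add_mem (ho a b) (ho b a)) (by
    simp only [ps_apply, map_add, CliffordAlgebra.reverse.map_mul, CliffordAlgebra.reverse_reverse,
      CliffordAlgebra.reverse_ι, mul_assoc]
    exact add_comm _ _)
  rw [LinearMap.compr₂_apply, hu]
  exact congrArg _ (LinearMap.congr_fun hr u)

/-- conjugation of the polarised sandwich -/
theorem ps_mul (u : Fin 4 → K) (a b b' : BB G) :
    ps G u (b * a) (b' * a) = rv G (inc G a) * ps G u b b' * inc G a := by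
  simp only [ps_apply, map_mul, CliffordAlgebra.reverse.map_mul, mul_add, add_mul, mul_assoc]

theorem mid (hT : Tab G 1 e4 wz 1) {j : ℤ} {b : BB G} (hb : b ∈ Ord G 1 e4 wz 1 j) (m n : Fin 4) :
    ∃ z ∈ Ord G 1 e4 wz 1 (j + (wz m + wz n + 1)), io G (e4 m) * inc G b * io G (e4 n) = inc G z := by
  have hm : ∀ i j, mm G (e4 i) (e4 j) ∈ Ord G 1 e4 wz 1 (wz i + wz j + 1) := fun i j => by
    have := hT.mem i j
    rwa [inv_one, one_smul] at this
  let S : ℤ → Submodule ℂ (BB G) := fun k =>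
    { carrier := {b | ∀ m n, ∃ z ∈ Ord G 1 e4 wz 1 (k + (wz m + wz n + 1)),
        io G (e4 m) * inc G b * io G (e4 n) = inc G z}
      add_mem' := fun ha hb m n => by
        obtain ⟨z, h1, h2⟩ := ha m n
        obtain ⟨z', h3, h4⟩ := hb m n
        exact ⟨z + z', add_mem h1 h3, by rw [map_add, map_add, mul_add, add_mul, h2, h4]⟩
      zero_mem' := fun m n => ⟨0, zero_mem _, by simp only [map_zero, mul_zero, zero_mul]⟩
      smul_mem' := fun c b hb m n => by
        obtain ⟨z, h1, h2⟩ := hb m n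
        refine ⟨c • z, Submodule.smul_mem _ c h1, ?_⟩
        rw [← algebraMap_smul K c b, ← algebraMap_smul K c z, map_smul, map_smul, mul_smul_comm,
          smul_mul_assoc, h2] }
  refine hT.ind S (fun d k a ha v hv m n => ?_) (fun m n => ?_) (fun p q k x hx m n => ?_) j hb m n
  · obtain ⟨z, h1, h2⟩ := hv m n
    refine ⟨a • z, ?_, by rw [map_smul, map_smul, mul_smul_comm, smul_mul_assoc, h2]⟩
    rw [add_assoc]
    exact hT.lat.fam _ _ a ha z h1
  · exact ⟨_, by rw [zero_add]; exact hm m n, by rw [map_one, mul_one, inc_mm]⟩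
  · obtain ⟨z, h1, h2⟩ := hx q n
    refine ⟨mm G (e4 m) (e4 p) * z, ?_, ?_⟩
    · have := hT.mul _ _ _ (hm m p) _ h1
      rwa [show wz m + wz p + 1 + (k + (wz q + wz n + 1)) =
        wz p + wz q + 1 + k + (wz m + wz n + 1) by ring] at this
    · rw [inv_one, one_smul, map_mul, map_mul, inc_mm, inc_mm, ← h2]
      simp only [mul_assoc]

/-- the key lemma -/
theorem key (hA : Alg G) (hT : Tab G 1 e4 wz 1) {i j : ℤ} {b b' : BB G}
    (hb : b ∈ Ord G 1 e4 wz 1 i) (hb' : b' ∈ Ord G 1 e4 wz 1 j) {m : Fin 4} {x : Fin 4 → K}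
    (hx : io G x = ps G (e4 m) b b') (r : Fin 4) : x r ∈ AA (i + j + wz m - wz r) := by
  have hm : ∀ i j, mm G (e4 i) (e4 j) ∈ Ord G 1 e4 wz 1 (wz i + wz j + 1) := fun i j => by
    have := hT.mem i j
    rwa [inv_one, one_smul] at this
  have h1 : ∀ n, mm G x (e4 n) ∈ Ord G 1 e4 wz 1 (i + j + (wz m + wz n + 1)) := fun n => by
    obtain ⟨z, z1, z2⟩ := mid hT hb m n
    obtain ⟨z', z3, z4⟩ := mid hT hb' m n
    have e : mm G x (e4 n) = tau G b * z' + tau G b' * z := inc_inj (by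
      rw [inc_mm, hx, ps_apply, map_add, map_mul, map_mul, inc_tau, inc_tau, ← z2, ← z4]
      simp only [add_mul, mul_assoc])
    rw [e]
    refine add_mem ?_ ?_
    · rw [add_assoc]
      exact hT.mul _ _ _ (hT.tau _ _ hb) _ z3
    · rw [add_comm i j, add_assoc]
      exact hT.mul _ _ _ (hT.tau _ _ hb') _ z1
  have h2 : ∀ n p q, lam G (mm G x (e4 n) * mm G (e4 p) (e4 q)) ∈
      AA (i + j + (wz m + wz n + 1) + (wz p + wz q + 1) - 3) := fun n p q =>
    hT.int _ _ (hT.mul _ _ _ (h1 n) _ (hm p q))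
  obtain ⟨c0, c1, c2, c3⟩ := coord hA x
  have w0 : wz 0 = 0 := rfl
  have w1 : wz 1 = 0 := rfl
  have w2 : wz 2 = 0 := rfl
  have w3 : wz 3 = 1 := rfl
  have k0 := h2 1 2 3
  have k1 := h2 2 0 3
  have k2 := h2 0 1 3
  have k3 := h2 1 0 2
  rw [c0, show i + j + (wz m + wz 1 + 1) + (wz 2 + wz 3 + 1) - 3 = i + j + wz m - wz 0 by omega] at k0
  rw [c1, show i + j + (wz m + wz 2 + 1) + (wz 0 + wz 3 + 1) - 3 = i + j + wz m - wz 1 by omega] at k1
  rw [c2, show i + j + (wz m + wz 0 + 1) + (wz 1 + wz 3 + 1) - 3 = i + j + wz m - wz 2 by omega] at k2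
  rw [c3, show i + j + (wz m + wz 1 + 1) + (wz 0 + wz 2 + 1) - 3 = i + j + wz m - wz 3 by omega] at k3
  fin_cases r
  exacts [k0, k1, k2, k3]

end A1a

end Vale.Agent.P287Z.L
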