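import Vale.Agent.P287Z.L.Sk

/-!
Forms and their values in the function field.
-/

namespace Vale.Agent.P287Z.L

open MvPolynomial Module Filter Matrix Vale.Agent.P287 Vale.Agent.P287.Theta

lemma charZero_K : CharZero K := inferInstance

variable {k j : ℤ} {a b : P3}

lemma weight_one (d : Fin 3 →₀ ℕ) :
    Finsupp.weight (fun _ : Fin 3 => (1 : ℤ)) d = (d.degree : ℤ) := by
  rw [Finsupp.weight_apply, Finsupp.degree_eq_sum, Finsupp.sum_fintype _ _ (by simp)]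
  simp

lemma hg_iff : Hg k a ↔ ∀ d, coeff d a ≠ 0 → (d.degree : ℤ) = k := by
  unfold Hg IsWeightedHomogeneous
  simp only [weight_one]

lemma hg_nat {n : ℕ} : Hg n a ↔ a.IsHomogeneous n := by
  rw [hg_iff]
  unfold IsHomogeneous IsWeightedHomogeneous
  simp only [Finsupp.degree_eq_weight_one, Nat.cast_inj]
  rfl

lemma Hg.eq_zero_of_neg (h : Hg k a) (hk : k < 0) : a = 0 := by
  ext d
  by_contra h0
  have := hg_iff.1 h d (by simpa using h0)
  omega

lemma Hg.nonneg (h : Hg k a) (h0 : a ≠ 0) : 0 ≤ k := by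
  by_contra hk
  exact h0 (h.eq_zero_of_neg (by omega))

lemma Hg.toNat (h : Hg k a) : a.IsHomogeneous k.toNat := by
  by_cases hk : k < 0
  · rw [h.eq_zero_of_neg hk]; exact isHomogeneous_zero _ _ _
  · rw [← hg_nat, Int.toNat_of_nonneg (by omega)]; exact h

lemma hg_zero (k : ℤ) : Hg k 0 := isWeightedHomogeneous_zero _ _ _
lemma hg_one : Hg 0 1 := isWeightedHomogeneous_one _ _
lemma hg_C (c : ℂ) : Hg 0 (C c) := isWeightedHomogeneous_C _ _
lemma hg_X (i : Fin 3) : Hg 1 (X i) := isWeightedHomogeneous_X _ _ _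
lemma Hg.add (ha : Hg k a) (hb : Hg k b) : Hg k (a + b) := IsWeightedHomogeneous.add ha hb
lemma Hg.neg (ha : Hg k a) : Hg k (-a) := IsWeightedHomogeneous.neg ha
lemma Hg.sub (ha : Hg k a) (hb : Hg k b) : Hg k (a - b) := IsWeightedHomogeneous.sub ha hb
lemma Hg.mul (ha : Hg k a) (hb : Hg j b) : Hg (k + j) (a * b) := IsWeightedHomogeneous.mul ha hb
lemma Hg.cast (ha : Hg k a) (h : k = j) : Hg j a := h ▸ ha
lemma Hg.smul (ha : Hg k a) (c : ℂ) : Hg k (c • a) :=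
  (weightedHomogeneousSubmodule ℂ (fun _ : Fin 3 => (1 : ℤ)) k).smul_mem c ha
lemma Hg.C_mul (ha : Hg k a) (c : ℂ) : Hg k (C c * a) := ((hg_C c).mul ha).cast (zero_add _)

lemma Hg.pow (ha : Hg k a) (n : ℕ) : Hg (n * k) (a ^ n) :=
  Hg.cast (IsWeightedHomogeneous.pow ha n) (nsmul_eq_mul _ _)

lemma hg_sum {ι : Type*} (s : Finset ι) {F : ι → P3} (h : ∀ i ∈ s, Hg k (F i)) :
    Hg k (∑ i ∈ s, F i) := IsWeightedHomogeneous.sum s F k h

lemma hg_prod {ι : Type*} (s : Finset ι) {F : ι → P3} {n : ι → ℤ} (h : ∀ i ∈ s, Hg (n i) (F i)) :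
    Hg (∑ i ∈ s, n i) (∏ i ∈ s, F i) := IsWeightedHomogeneous.prod s F n h

lemma Hg.deg_eq (ha : Hg k a) (hb : Hg j a) (h0 : a ≠ 0) : k = j :=
  IsWeightedHomogeneous.inj_right h0 ha hb

/-- determinants of matrices of forms -/
lemma hg_det {ι : Type*} [Fintype ι] [DecidableEq ι] (S : Matrix ι ι P3) (r c : ι → ℤ)
    (h : ∀ i j, Hg (c j - r i) (S i j)) : Hg (∑ i, c i - ∑ i, r i) S.det := by
  rw [Matrix.det_apply]
  refine hg_sum _ fun τ _ => ?_
  have h1 : Hg (∑ i, c i - ∑ i, r i) (∏ i, S (τ i) i) := by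
    refine (hg_prod _ fun i _ => h (τ i) i).cast ?_
    rw [Finset.sum_sub_distrib, Equiv.sum_comp τ r]
  rcases Int.units_eq_one_or (Equiv.Perm.sign τ) with h2 | h2 <;> rw [h2]
  · simpa using h1
  · simpa using h1.neg

/-- entries of the adjugate -/
lemma hg_adj {ι : Type*} [Fintype ι] [DecidableEq ι] (S : Matrix ι ι P3) (r c : ι → ℤ)
    (h : ∀ i j, Hg (c j - r i) (S i j)) (i j : ι) :
    Hg (∑ i, c i - ∑ i, r i + (r j - c i)) (S.adjugate i j) := by
  rw [Matrix.adjugate_apply]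
  have := hg_det (S.updateRow j (Pi.single i 1)) (Function.update r j (c i)) c (by
    intro a b
    by_cases ha : a = j
    · subst ha
      rw [Matrix.updateRow_self, Function.update_self]
      by_cases hb : b = i
      · subst hb; rw [Pi.single_eq_same, sub_self]; exact hg_one
      · rw [Pi.single_eq_of_ne hb]; exact hg_zero _
    · rw [Matrix.updateRow_ne ha, Function.update_of_ne ha]; exact h a b)
  refine this.cast ?_
  rw [Finset.sum_update_of_mem (Finset.mem_univ j), Finset.sdiff_singleton_eq_erase,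
    ← Finset.add_sum_erase _ r (Finset.mem_univ j)]
  ring

/-- the homogeneous part of degree `k` -/
noncomputable abbrev hc (k : ℤ) : P3 →ₗ[ℂ] P3 :=
  weightedHomogeneousComponent (fun _ : Fin 3 => (1 : ℤ)) k

lemma hg_hc (k : ℤ) (a : P3) : Hg k (hc k a) :=
  weightedHomogeneousComponent_isWeightedHomogeneous _ _

lemma Hg.hc_self (ha : Hg k a) : hc k a = a := ha.weightedHomogeneousComponent_same

lemma Hg.hc_ne (ha : Hg k a) (h : j ≠ k) : hc j a = 0 := ha.weightedHomogeneousComponent_ne j h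

lemma Hg.hc_mul (ha : Hg k a) (j : ℤ) (b : P3) : hc j (a * b) = a * hc (j - k) b := by
  classical
  induction b using MvPolynomial.induction_on' with
  | monomial d c =>
    have hm : Hg (d.degree : ℤ) (monomial d c) :=
      isWeightedHomogeneous_monomial _ _ _ (weight_one d)
    by_cases h : j - k = d.degree
    · rw [h, hm.hc_self]
      exact ((ha.mul hm).cast (by omega)).hc_self
    · rw [hm.hc_ne h, mul_zero]
      exact (ha.mul hm).hc_ne (by omega)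
  | add p q hp hq => rw [mul_add, map_add, map_add, hp, hq, mul_add]

lemma Hg.mul_hc (ha : Hg k a) (j : ℤ) (b : P3) : hc j (b * a) = hc (j - k) b * a := by
  rw [mul_comm, ha.hc_mul, mul_comm]

/-- the quotient of two forms is a form -/
lemma Hg.quot (ha : Hg k a) (h0 : a ≠ 0) (hab : Hg j (a * b)) : Hg (j - k) b := by
  have h := ha.hc_mul j b
  rw [hab.hc_self] at h
  rw [mul_left_cancel₀ h0 h]
  exact hg_hc _ _

/-- divisors of forms are forms -/
lemma Hg.of_mul (hab : Hg k (a * b)) (h0 : a * b ≠ 0) : ∃ n, Hg n a := by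
  obtain ⟨m, hm⟩ := homog_of_mul hab.toNat h0
  exact ⟨m, hg_nat.2 hm⟩

lemma Hg.of_dvd (hb : Hg k b) (h0 : b ≠ 0) (h : a ∣ b) : ∃ n, Hg n a := by
  obtain ⟨c, rfl⟩ := h
  exact hb.of_mul h0

lemma Hg.hprime (hb : Hg k b) (h0 : b ≠ 0) (hp : Prime a) (h : a ∣ b) : HPrime a :=
  ⟨hp, hb.of_dvd h0 h⟩

lemma Hg.eq_C (ha : Hg 0 a) : ∃ c, a = C c := by
  refine ⟨coeff 0 a, ?_⟩
  have h : a.IsHomogeneous 0 := hg_nat.1 ha
  exact totalDegree_eq_zero_iff_eq_C.1 ((totalDegree_zero_iff_isHomogeneous _).2 h)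

lemma Hg.eval_smul (ha : Hg k a) (c : ℂ) (p : Fin 3 → ℂ) :
    eval (c • p) a = c ^ k.toNat * eval p a := by
  rw [H925.eval_eq_aeval, H925.eval_eq_aeval]
  exact H925.aeval_scale ha.toNat c p

lemma Hg.eval_zero (ha : Hg k a) (hk : k ≠ 0) : eval (0 : Fin 3 → ℂ) a = 0 := by
  by_cases h : k < 0
  · rw [ha.eq_zero_of_neg h, map_zero]
  · rw [H925.eval_eq_aeval]
    exact aeval_zero_of_homog ha.toNat (by omega)

/-- a form of positive degree is a combination of the variables -/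
lemma Hg.exists_comb (ha : Hg k a) (hk : k ≠ 0) :
    ∃ c : Fin 3 → P3, (∀ i, Hg (k - 1) (c i)) ∧ a = ∑ i, X i * c i := by
  obtain ⟨c, hc'⟩ : ∃ c : Fin 3 → P3, a = ∑ i, X i * c i := by
    have h1 : a ∈ Ideal.span (Set.range (X : Fin 3 → P3)) := by
      rw [← Set.image_univ, mem_ideal_span_X_image]
      intro m hm
      have h2 := hg_iff.1 ha m (mem_support_iff.1 hm)
      by_contra h3
      push Not at h3
      have : m = 0 := Finsupp.ext fun i => h3 i (Set.mem_univ i)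
      subst this
      simp at h2
      omega
    obtain ⟨c, hc'⟩ := (Ideal.mem_span_range_iff_exists_fun).1 h1
    exact ⟨c, by rw [← hc']; exact Finset.sum_congr rfl fun i _ => mul_comm _ _⟩
  refine ⟨fun i => hc (k - 1) (c i), fun i => hg_hc _ _, ?_⟩
  rw [← ha.hc_self]
  conv_lhs => rw [hc']
  rw [map_sum]
  exact Finset.sum_congr rfl fun i _ => (hg_X i).hc_mul _ _

lemma ev_X (i : Fin 3) : ev (X i) = tvec i := aeval_X _ _
lemma tvec_zero : tvec 0 = 1 := rfl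
lemma ev_C (c : ℂ) : ev (C c) = algebraMap ℂ K c := aeval_C _ _

lemma ev_eq_dehom (a : P3) :
    ev a = algebraMap (MvPolynomial (Fin 2) ℂ) K (H925.dehom a) := by
  have : ev = (IsScalarTower.toAlgHom ℂ (MvPolynomial (Fin 2) ℂ) K).comp H925.dehom := by
    apply MvPolynomial.algHom_ext
    intro i
    rw [ev_X, AlgHom.comp_apply, H925.dehom, aeval_X]
    fin_cases i
    · exact (map_one _).symm
    · rfl
    · rfl
  rw [this]; rfl

lemma Hg.eq_zero_of_ev (ha : Hg k a) (h : ev a = 0) : a = 0 := by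
  rw [ev_eq_dehom] at h
  exact H925.dehom_inj ha.toNat
    ((map_eq_zero_iff _ (IsFractionRing.injective (MvPolynomial (Fin 2) ℂ) K)).1 h)

lemma Hg.inj (ha : Hg k a) (hb : Hg k b) (h : ev a = ev b) : a = b :=
  sub_eq_zero.1 ((ha.sub hb).eq_zero_of_ev (by rw [map_sub, h, sub_self]))

lemma Hg.ev_ne (ha : Hg k a) (h : a ≠ 0) : ev a ≠ 0 := fun h0 => h (ha.eq_zero_of_ev h0)

lemma tvec_ne (i : Fin 3) : tvec i ≠ 0 := ev_X i ▸ (hg_X i).ev_ne (X_ne_zero i)

lemma mem_AA {y : K} : y ∈ AA k ↔ ∃ b, Hg k b ∧ ev b = y := Iff.rfl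

lemma Hg.mem (ha : Hg k a) : ev a ∈ AA k := ⟨a, ha, rfl⟩

lemma AA_mul {x y : K} (hx : x ∈ AA k) (hy : y ∈ AA j) : x * y ∈ AA (k + j) := by
  obtain ⟨a, ha, rfl⟩ := hx
  obtain ⟨b, hb, rfl⟩ := hy
  exact ⟨a * b, Hg.mul ha hb, map_mul ev a b⟩

lemma AA_cast {x : K} (hx : x ∈ AA k) (h : k = j) : x ∈ AA j := h ▸ hx
lemma AA_one : (1 : K) ∈ AA 0 := ⟨1, hg_one, map_one ev⟩
lemma AA_const (c : ℂ) : algebraMap ℂ K c ∈ AA 0 := ⟨C c, hg_C c, ev_C c⟩
lemma tvec_mem (i : Fin 3) : tvec i ∈ AA 1 := ⟨X i, hg_X i, ev_X i⟩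

lemma AA_pow {x : K} (hx : x ∈ AA k) (n : ℕ) : x ^ n ∈ AA (n * k) := by
  obtain ⟨a, ha, rfl⟩ := hx
  exact ⟨a ^ n, Hg.pow ha n, map_pow ev a n⟩

lemma one_mem_AA (h : 0 ≤ k) : (1 : K) ∈ AA k := by
  have := AA_pow (tvec_mem 0) k.toNat
  rw [tvec_zero, one_pow] at this
  exact AA_cast this (by omega)

lemma AA_mono (h : k ≤ j) : AA k ≤ AA j := fun x hx => by
  have := AA_mul hx (one_mem_AA (k := j - k) (by omega))
  rw [mul_one] at this
  exact AA_cast this (by ring)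

lemma AA_neg (h : k < 0) : AA k = ⊥ := by
  rw [eq_bot_iff]
  rintro _ ⟨a, ha, rfl⟩
  rw [Hg.eq_zero_of_neg ha h]
  exact map_zero _

lemma AA_nonneg {x : K} (hx : x ∈ AA k) (h0 : x ≠ 0) : 0 ≤ k := by
  by_contra hk
  rw [AA_neg (by omega)] at hx
  exact h0 hx

lemma mem_AA_zero {x : K} : x ∈ AA 0 ↔ ∃ c : ℂ, x = algebraMap ℂ K c := by
  refine ⟨?_, fun ⟨c, hc⟩ => hc ▸ AA_const c⟩
  rintro ⟨a, ha, rfl⟩
  obtain ⟨c, rfl⟩ := Hg.eq_C ha
  exact ⟨c, ev_C c⟩

lemma AA_prod {ι : Type*} (s : Finset ι) {F : ι → K} {n : ι → ℤ} (h : ∀ i ∈ s, F i ∈ AA (n i)) :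
    ∏ i ∈ s, F i ∈ AA (∑ i ∈ s, n i) := by
  classical
  induction s using Finset.induction_on with
  | empty => simpa using AA_one
  | insert i s hi ih =>
    rw [Finset.prod_insert hi, Finset.sum_insert hi]
    exact AA_mul (h i (Finset.mem_insert_self _ _))
      (ih fun j hj => h j (Finset.mem_insert_of_mem hj))

lemma AA_det {ι : Type*} [Fintype ι] [DecidableEq ι] (S : Matrix ι ι K) (r c : ι → ℤ)
    (h : ∀ i j, S i j ∈ AA (c j - r i)) : S.det ∈ AA (∑ i, c i - ∑ i, r i) := by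
  choose T hT hT' using h
  have : S = ev.mapMatrix (Matrix.of T) := by
    ext i j; exact (hT' i j).symm
  rw [this, ← AlgHom.map_det]
  exact (hg_det (Matrix.of T) r c hT).mem

lemma AA_adj {ι : Type*} [Fintype ι] [DecidableEq ι] (S : Matrix ι ι K) (r c : ι → ℤ)
    (h : ∀ i j, S i j ∈ AA (c j - r i)) (i j : ι) :
    S.adjugate i j ∈ AA (∑ i, c i - ∑ i, r i + (r j - c i)) := by
  choose T hT hT' using h
  have : S = ev.mapMatrix (Matrix.of T) := by
    ext i j; exact (hT' i j).symm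
  rw [this, ← AlgHom.map_adjugate]
  exact (hg_adj (Matrix.of T) r c hT i j).mem

/-- an element of positive degree is a combination of the coordinates -/
lemma AA_comb {x : K} (hx : x ∈ AA k) (hk : k ≠ 0) :
    ∃ c : Fin 3 → K, (∀ i, c i ∈ AA (k - 1)) ∧ x = ∑ i, tvec i * c i := by
  obtain ⟨a, ha, rfl⟩ := hx
  obtain ⟨c, hc1, hc2⟩ := Hg.exists_comb ha hk
  refine ⟨fun i => ev (c i), fun i => (hc1 i).mem, ?_⟩
  change ev a = _
  rw [hc2, map_sum]
  exact Finset.sum_congr rfl fun i _ => by rw [map_mul, ev_X]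

lemma exists_mem_AA (q : MvPolynomial (Fin 2) ℂ) :
    ∃ d : ℕ, ∀ e : ℤ, (d : ℤ) ≤ e → algebraMap _ K q ∈ AA e := by
  obtain ⟨d, hd⟩ := H925.exists_homogenisation q
  obtain ⟨P, hP, hP'⟩ := hd d le_rfl
  refine ⟨d, fun e he => AA_mono he ⟨P, hg_nat.2 hP, ?_⟩⟩
  change ev P = _
  rw [ev_eq_dehom, hP']

/-- every rational function is a quotient of two forms of the same degree -/
lemma exists_frac (x : K) : ∃ (d : ℤ) (y : K), y ≠ 0 ∧ y ∈ AA d ∧ y * x ∈ AA d := by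
  obtain ⟨p, q, hq, rfl⟩ := IsFractionRing.div_surjective (A := MvPolynomial (Fin 2) ℂ) x
  obtain ⟨d, hd⟩ := exists_mem_AA p
  obtain ⟨e, he⟩ := exists_mem_AA q
  have hq0 : algebraMap _ K q ≠ 0 := IsFractionRing.to_map_ne_zero_of_mem_nonZeroDivisors hq
  refine ⟨d + e, _, hq0, he _ (by omega), ?_⟩
  rw [mul_div_cancel₀ _ hq0]
  exact hd _ (by omega)

/-- a common denominator -/
lemma exists_frac_fun {ι : Type*} [Fintype ι] (x : ι → K) :
    ∃ (d : ℤ) (y : K), y ≠ 0 ∧ y ∈ AA d ∧ ∀ i, y * x i ∈ AA d := by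
  classical
  choose d y h0 h1 h2 using fun i => exists_frac (x i)
  refine ⟨∑ i, d i, ∏ i, y i, Finset.prod_ne_zero_iff.2 fun i _ => h0 i,
    AA_prod _ fun i _ => h1 i, fun i => ?_⟩
  rw [← Finset.mul_prod_erase _ _ (Finset.mem_univ i), ← Finset.add_sum_erase _ _
    (Finset.mem_univ i), mul_right_comm]
  exact AA_mul (h2 i) (AA_prod _ fun j _ => h1 j)

lemma finrank_hom (n : ℕ) :
    finrank ℂ (homogeneousSubmodule (Fin 3) ℂ n) = (n + 2).choose 2 := by
  have h : {m : Fin 3 →₀ ℕ | m.degree = n}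
      = ((Finset.univ.finsuppAntidiag n : Finset (Fin 3 →₀ ℕ)) : Set _) := by
    ext m
    simp [Finset.mem_finsuppAntidiag, Finsupp.degree_eq_sum]
  rw [homogeneousSubmodule_eq_finsupp_supported]
  refine (AddMonoidAlgebra.supportedEquivFinsupp (S := ℂ) (R := ℂ)
    {m : Fin 3 →₀ ℕ | m.degree = n}).finrank_eq.trans ?_
  have hfin : Finite {m : Fin 3 →₀ ℕ | m.degree = n} := by
    rw [h]; exact Finset.finite_toSet _
  have := Fintype.ofFinite {m : Fin 3 →₀ ℕ | m.degree = n}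
  rw [Module.finrank_finsupp_self, ← Nat.card_eq_fintype_card, h, Nat.card_coe_set_eq,
    Set.ncard_coe_finset, Finset.card_finsuppAntidiag_nat_eq_choose, Finset.card_univ,
    Fintype.card_fin]
  have h1 : 3 + n - 1 = n + 2 := by omega
  rw [h1, Nat.choose_symm_add]

lemma finrank_AA_nat (n : ℕ) : finrank ℂ (AA n) = (n + 2).choose 2 := by
  have h1 : weightedHomogeneousSubmodule ℂ (fun _ : Fin 3 => (1 : ℤ)) (n : ℤ) =
      homogeneousSubmodule (Fin 3) ℂ n := by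
    ext a; exact hg_nat
  rw [← finrank_hom, AA, h1]
  have h2 : Function.Injective (ev.toLinearMap.domRestrict (homogeneousSubmodule (Fin 3) ℂ n)) := by
    intro a b hab
    exact Subtype.ext (Hg.inj (hg_nat.2 a.2) (hg_nat.2 b.2) hab)
  rw [← LinearMap.finrank_range_of_inj h2, LinearMap.range_domRestrict]

lemma finrank_AA (h : -2 ≤ k) : 2 * (finrank ℂ (AA k) : ℤ) = (k + 1) * (k + 2) := by
  by_cases hk : k < 0
  · rw [AA_neg hk, finrank_bot]
    have : k = -1 ∨ k = -2 := by omega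
    rcases this with rfl | rfl <;> norm_num
  · obtain ⟨n, rfl⟩ := Int.eq_ofNat_of_zero_le (by omega : 0 ≤ k)
    rw [finrank_AA_nat, Nat.choose_two_right]
    have h2 : 2 ∣ (n + 2) * (n + 2 - 1) := (Nat.even_mul_pred_self (n + 2)).two_dvd
    have h3 := Nat.mul_div_cancel' h2
    have h4 : n + 2 - 1 = n + 1 := by omega
    rw [h4] at h3 ⊢
    have h5 : (2 : ℤ) * (((n + 2) * (n + 1) / 2 : ℕ) : ℤ) = (((n + 2) * (n + 1) : ℕ) : ℤ) := by
      exact_mod_cast h3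
    rw [h5]; push_cast; ring

/-- Euler characteristic of a line bundle -/
lemma finrank_AA_add (k : ℤ) :
    2 * ((finrank ℂ (AA k) : ℤ) + finrank ℂ (AA (-3 - k))) = (k + 1) * (k + 2) := by
  by_cases hk : -2 ≤ k
  · rw [AA_neg (k := -3 - k) (by omega), finrank_bot, Nat.cast_zero, add_zero, finrank_AA hk]
  · rw [AA_neg (k := k) (by omega), finrank_bot, Nat.cast_zero, zero_add,
      finrank_AA (k := -3 - k) (by omega)]
    ring

instance finite_AA (k : ℤ) : FiniteDimensional ℂ (AA k) := by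
  by_cases hk : k < 0
  · rw [AA_neg hk]; infer_instance
  · obtain ⟨n, rfl⟩ := Int.eq_ofNat_of_zero_le (by omega : 0 ≤ k)
    apply Module.finite_of_finrank_pos
    rw [finrank_AA_nat]
    exact Nat.choose_pos (by omega)

/-! Units -/

variable {p : Fin 3 → ℂ} {g : P3} {x y : K}

lemma U1.mem (h : U1 p k x) : x ∈ AA k := let ⟨b, h1, h2, _⟩ := h; ⟨b, h1, h2⟩
lemma Ug.mem (h : Ug g k x) : x ∈ AA k := let ⟨b, h1, h2, _⟩ := h; ⟨b, h1, h2⟩

lemma U1.ne (h : U1 p k x) : x ≠ 0 := by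
  obtain ⟨b, h1, rfl, h3⟩ := h
  exact h1.ev_ne fun h0 => h3 (by rw [h0, map_zero])

lemma Ug.ne (h : Ug g k x) : x ≠ 0 := by
  obtain ⟨b, h1, rfl, h3⟩ := h
  exact h1.ev_ne fun h0 => h3 (h0 ▸ dvd_zero g)

lemma U1.cast (h : U1 p k x) (e : k = j) : U1 p j x := e ▸ h
lemma Ug.cast (h : Ug g k x) (e : k = j) : Ug g j x := e ▸ h

lemma U1.mul (hx : U1 p k x) (hy : U1 p j y) : U1 p (k + j) (x * y) := by
  obtain ⟨a, a1, rfl, a3⟩ := hx
  obtain ⟨b, b1, rfl, b3⟩ := hy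
  exact ⟨a * b, a1.mul b1, map_mul _ _ _, by rw [map_mul]; exact mul_ne_zero a3 b3⟩

lemma Ug.mul (hg : Prime g) (hx : Ug g k x) (hy : Ug g j y) : Ug g (k + j) (x * y) := by
  obtain ⟨a, a1, rfl, a3⟩ := hx
  obtain ⟨b, b1, rfl, b3⟩ := hy
  exact ⟨a * b, a1.mul b1, map_mul _ _ _, fun h => (hg.dvd_or_dvd h).elim a3 b3⟩

lemma u1_one (p : Fin 3 → ℂ) : U1 p 0 1 := ⟨1, hg_one, map_one _, by simp⟩
lemma ug_one (hg : Prime g) : Ug g 0 1 := ⟨1, hg_one, map_one _, hg.not_dvd_one⟩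

lemma u1_const (p : Fin 3 → ℂ) {c : ℂ} (hc : c ≠ 0) : U1 p 0 (algebraMap ℂ K c) :=
  ⟨C c, hg_C c, ev_C c, by simpa using hc⟩

lemma U1.pow (hx : U1 p k x) (n : ℕ) : U1 p (n * k) (x ^ n) := by
  obtain ⟨a, a1, rfl, a3⟩ := hx
  exact ⟨a ^ n, a1.pow n, map_pow _ _ _, by rw [map_pow]; exact pow_ne_zero n a3⟩

lemma Ug.pow (hg : Prime g) (hx : Ug g k x) (n : ℕ) : Ug g (n * k) (x ^ n) := by
  obtain ⟨a, a1, rfl, a3⟩ := hx
  exact ⟨a ^ n, a1.pow n, map_pow _ _ _, fun h => a3 (hg.dvd_of_dvd_pow h)⟩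

lemma u1_prod {ι : Type*} (s : Finset ι) {F : ι → K} {n : ι → ℤ}
    (h : ∀ i ∈ s, U1 p (n i) (F i)) : U1 p (∑ i ∈ s, n i) (∏ i ∈ s, F i) := by
  classical
  induction s using Finset.induction_on with
  | empty => simpa using u1_one p
  | insert i s hi ih =>
    rw [Finset.prod_insert hi, Finset.sum_insert hi]
    exact (h i (Finset.mem_insert_self _ _)).mul
      (ih fun j hj => h j (Finset.mem_insert_of_mem hj))

lemma ug_prod (hg : Prime g) {ι : Type*} (s : Finset ι) {F : ι → K} {n : ι → ℤ}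
    (h : ∀ i ∈ s, Ug g (n i) (F i)) : Ug g (∑ i ∈ s, n i) (∏ i ∈ s, F i) := by
  classical
  induction s using Finset.induction_on with
  | empty => simpa using ug_one hg
  | insert i s hi ih =>
    rw [Finset.prod_insert hi, Finset.sum_insert hi]
    exact (h i (Finset.mem_insert_self _ _)).mul hg
      (ih fun j hj => h j (Finset.mem_insert_of_mem hj))

/-- a factor of a unit is a unit -/
lemma U1.of_mul (hx : x ∈ AA k) (hy : y ∈ AA j) (h : U1 p (k + j) (x * y)) : U1 p k x := by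
  obtain ⟨a, a1, rfl⟩ := hx
  obtain ⟨b, b1, rfl⟩ := hy
  obtain ⟨c, c1, c2, c3⟩ := h
  have : c = a * b := c1.inj (Hg.mul a1 b1) (c2.trans (map_mul ev a b).symm)
  rw [this, map_mul] at c3
  exact ⟨a, a1, rfl, left_ne_zero_of_mul c3⟩

lemma U1.ug (h : U1 p k x) (hp : eval p g = 0) : Ug g k x := by
  obtain ⟨b, h1, h2, h3⟩ := h
  refine ⟨b, h1, h2, ?_⟩
  rintro ⟨c, rfl⟩
  exact h3 (by rw [map_mul, hp, zero_mul])

lemma HPrime.pos (h : HPrime g) : ∃ n : ℤ, 0 < n ∧ Hg n g := by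
  obtain ⟨hp, n, hn⟩ := h
  refine ⟨n, ?_, hn⟩
  rcases (hn.nonneg hp.ne_zero).lt_or_eq with h1 | h1
  · exact h1
  · subst h1
    exact absurd (isUnit_of_homog_zero (hg_nat.1 hn) hp.ne_zero) hp.not_isUnit

/-- two forms of non-zero degree have a common zero -/
lemma exists_point_two (ha : Hg k a) (hb : Hg j b) (hk : k ≠ 0) (hj : j ≠ 0) :
    ∃ p : Fin 3 → ℂ, p ≠ 0 ∧ eval p a = 0 ∧ eval p b = 0 := by
  obtain ⟨z, hz, hz'⟩ := exists_common_zero (n := 3) (r := 2) (by norm_num) ![a, b] (by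
    intro i
    fin_cases i
    · exact (H925.eval_eq_aeval _ _).symm.trans (ha.eval_zero hk)
    · exact (H925.eval_eq_aeval _ _).symm.trans (hb.eval_zero hj))
  exact ⟨z, hz, (H925.eval_eq_aeval _ _).trans (hz' 0), (H925.eval_eq_aeval _ _).trans (hz' 1)⟩

lemma exists_point (h : HPrime g) : ∃ p : Fin 3 → ℂ, p ≠ 0 ∧ eval p g = 0 := by
  obtain ⟨n, h0, hn⟩ := h.pos
  obtain ⟨p, h1, h2, -⟩ := exists_point_two hn hn h0.ne' h0.ne'
  exact ⟨p, h1, h2⟩

lemma hprime_X (i : Fin 3) : HPrime (X i) := ⟨MvPolynomial.X_prime, 1, hg_X i⟩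

lemma exists_coord (hp : p ≠ 0) : ∃ i, U1 p 1 (tvec i) := by
  obtain ⟨i, hi⟩ := Function.ne_iff.1 hp
  exact ⟨i, X i, hg_X i, ev_X i, by simpa using hi⟩

/-- a prime divides at most one of the first two variables -/
lemma exists_ug_coord (hg : Prime g) : ∃ i, Ug g 1 (tvec i) := by
  by_cases h : g ∣ X 0
  · refine ⟨1, X 1, hg_X 1, ev_X 1, fun h1 => ?_⟩
    have h2 := (hg.associated_of_dvd (hprime_X 0).1 h).symm.dvd.trans h1
    exact H925.X_not_dvd_X (by decide) h2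
  · exact ⟨0, X 0, hg_X 0, ev_X 0, h⟩

/-- a linear form that does not vanish at finitely many given points -/
lemma exists_lin (Z : Finset (Fin 3 → ℂ)) (hZ : ∀ z ∈ Z, z ≠ 0) :
    ∃ l : P3, Hg 1 l ∧ ∀ z ∈ Z, eval z l ≠ 0 := by
  classical
  have h1 : ∏ z ∈ Z, (∑ i, C (z i) * X i : P3) ≠ 0 := by
    refine Finset.prod_ne_zero_iff.2 fun z hz h0 => hZ z hz ?_
    funext i
    have := congrArg (eval (Pi.single i 1)) h0
    simpa [Pi.single_apply] using this
  obtain ⟨c, hc⟩ : ∃ c : Fin 3 → ℂ, eval c (∏ z ∈ Z, (∑ i, C (z i) * X i : P3)) ≠ 0 := by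
    by_contra h
    push Not at h
    exact h1 (MvPolynomial.funext fun c => by rw [h c, map_zero])
  refine ⟨∑ i, C (c i) * X i, hg_sum _ fun i _ => (hg_X i).C_mul _, fun z hz => ?_⟩
  rw [map_prod] at hc
  have := Finset.prod_ne_zero_iff.1 hc z hz
  simpa [mul_comm] using this

end Vale.Agent.P287Z.L
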