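import Vale.Agent.P287Z.L.ResB
import Vale.Agent.P287Z.L.Basic

/-!
The Hilbert polynomial of a lattice.
-/

namespace Vale.Agent.P287Z.L

open MvPolynomial Module Filter Matrix Vale.Agent.P287 Vale.Agent.P287.Theta

namespace Res

theorem rank_F {n : ℕ} (e : Fin n → ℤ) (k : ℤ) :
    finrank ℂ (Fr e k) = ∑ i, finrank ℂ (AA (k - e i)) := by
  have := A_fin
  let φ : Fr e k ≃ₗ[ℂ] ∀ i, AA (k - e i) :=
    { toFun := fun c i => ⟨c.1 i, mem_F.1 c.2 i⟩
      invFun := fun c => ⟨fun i => c i, mem_F.2 fun i => (c i).2⟩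
      map_add' := fun _ _ => rfl
      map_smul' := fun _ _ => rfl
      left_inv := fun _ => rfl
      right_inv := fun _ => rfl }
  rw [φ.finrank_eq, finrank_pi_fintype]

theorem hp_F {n : ℕ} (e : Fin n → ℤ) : ∃ c x, HP (Fr e) n c x := by
  choose x hx using fun i => Int.even_mul_succ_self (e i - 2)
  obtain ⟨m, hm⟩ := Finite.bddAbove_range e
  refine ⟨-∑ i, e i, ∑ i, x i, (eventually_ge_atTop m).mono fun k hk => ?_⟩
  have h : ∀ i, 2 * (finrank ℂ (AA (k - e i)) : ℤ) = (k ^ 2 + 3 * k) + 2 * (-e i) * k + 2 * x i :=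
    fun i => by
      rw [finrank_AA (by have := hm ⟨i, rfl⟩; omega)]
      linear_combination hx i
  rw [rank_F, Nat.cast_sum, Finset.mul_sum, Finset.sum_congr rfl fun i _ => h i,
    Finset.sum_add_distrib, Finset.sum_add_distrib, ← Finset.sum_mul, ← Finset.mul_sum,
    ← Finset.mul_sum, Finset.sum_neg_distrib, Finset.sum_const, Finset.card_univ, Fintype.card_fin,
    nsmul_eq_mul]

variable {V : Type} [AddCommGroup V] [Module ℂ V] {L : ℤ → Submodule ℂ V}

theorem hp_uniq {R c x R' c' x' : ℤ} (h : HP L R c x) (h' : HP L R' c' x') : c = c' ∧ x = x' := by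
  obtain ⟨m, hm⟩ := eventually_atTop.1 (h.and h')
  have h0 := fun k hk => (hm k hk).1.symm.trans (hm k hk).2
  have h1 := h0 m le_rfl
  have h2 := h0 (m + 1) (by omega)
  have h3 := h0 (m + 2) (by omega)
  have h4 : 2 * R = 2 * R' := by linear_combination h1 - 2 * h2 + h3
  obtain rfl : R = R' := by omega
  have h5 : 2 * c = 2 * c' := by linear_combination h2 - h1
  obtain rfl : c = c' := by omega
  exact ⟨rfl, by omega⟩

theorem hp_c1 {R c x : ℤ} (h : HP L R c x) : HP L R (c1 L) (chi L) := by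
  obtain ⟨R', x', h1⟩ := Classical.epsilon_spec (p := fun c => ∃ R x, HP L R c x) ⟨c, R, x, h⟩
  obtain ⟨R'', c'', h2⟩ := Classical.epsilon_spec (p := fun x => ∃ R c, HP L R c x) ⟨x, R, c, h⟩
  have e1 : c1 L = c := (hp_uniq h h1).1.symm
  have e2 : chi L = x := (hp_uniq h h2).2.symm
  rw [e1, e2]
  exact h

theorem sat [Module K V] (h : Refl L) : Sat L := fun k v hv => h k v fun g hg => by
  have h1 : ∃ i : Fin 3, ¬ g ∣ X i := by
    by_contra h2
    have h3 := fun i => not_not.1 (not_exists.1 h2 i)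
    exact H925.X_not_dvd_X (k := ℂ) (i := 0) (j := 1) (by decide)
      ((hg.1.associated_of_dvd X_prime (h3 0)).symm.dvd.trans (h3 1))
  obtain ⟨i, hi⟩ := h1
  exact ⟨1, tvec i, ⟨X i, hg_X i, ev_X i, hi⟩, add_comm k 1 ▸ hv i⟩

end Res

open Res in
/-- **HPX** -/
theorem hpx (hR : stRES) (hD : stRSD) : stHPX := by
  intro V _ _ _ _ _ L hL
  obtain ⟨n₀, u, e, hg⟩ := hL.fg
  obtain ⟨n₁, S, d, h⟩ := hR V L n₀ u e (sat hL.refl) hg
  obtain ⟨h1, h2⟩ := hD V L n₀ n₁ u e S d h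
  obtain ⟨c, x, h3⟩ := hp_F e
  obtain ⟨c', x', h4⟩ := hp_F d
  refine hp_c1 (c := c - c') (x := x - x') ?_
  filter_upwards [h3, h4] with k a b
  have h5 := congrArg (fun n : ℕ => (n : ℤ)) (h1 k)
  have h6 := congrArg (fun n : ℕ => (n : ℤ)) (h2 hL.full)
  simp only [Nat.cast_add] at h5 h6
  linear_combination a - b + 2 * h5 - (k ^ 2 + 3 * k) * h6

end Vale.Agent.P287Z.L
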