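import Vale.Agent.P287Z.L.Basic2
import Vale.Agent.P287Z.L.Res

/-!
The first Chern class and the Euler form of a lattice of rank one over the order.
-/

namespace Vale.Agent.P287Z.L

open MvPolynomial Module Filter Matrix Vale.Agent.P287 Vale.Agent.P287.Theta

namespace A1b

section
variable {V : Type} [AddCommGroup V] [Module ℂ V] [Module K V] [IsScalarTower ℂ K V]
variable {W : Type} [AddCommGroup W] [Module ℂ W] [Module K W] [IsScalarTower ℂ K W]
variable {L : ℤ → Submodule ℂ V} {L' : ℤ → Submodule ℂ W}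

lemma refl_comap (h : Refl L') (f : V →ₗ[K] W) (c : ℤ) :
    Refl fun k => (L' (k + c)).comap (f.restrictScalars ℂ) := fun k v hv =>
  h (k + c) (f v) fun g hg =>
    let ⟨d, y, h1, h2⟩ := hv g hg
    ⟨d, y, h1, by rw [← f.map_smul, ← add_assoc]; exact h2⟩

omit [IsScalarTower ℂ K V] [IsScalarTower ℂ K W] in
lemma refl_prod (h : Refl L) (h' : Refl L') (c : ℤ) :
    Refl fun k => (L k).prod (L' (k + c)) := fun k v hv =>
  ⟨h k v.1 fun g hg => let ⟨d, y, h1, h2⟩ := hv g hg; ⟨d, y, h1, h2.1⟩,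
    h' (k + c) v.2 fun g hg => let ⟨d, y, h1, h2⟩ := hv g hg; ⟨d, y, h1, add_assoc d k c ▸ h2.2⟩⟩

omit [IsScalarTower ℂ K V] [IsScalarTower ℂ K W] in
lemma fam_prod (h : Fam L) (h' : Fam L') (c : ℤ) :
    Fam fun k => (L k).prod (L' (k + c)) := fun d k a ha v hv =>
  ⟨h d k a ha v.1 hv.1, (add_assoc d k c).symm ▸ h' d (k + c) a ha v.2 hv.2⟩

omit [IsScalarTower ℂ K V] in
lemma hull_min {N : ℤ → Submodule ℂ V} (h : ∀ k, L k ≤ N k) (hN : Refl N) (k : ℤ) :
    hull L k ≤ N k := Submodule.span_le.2 fun v hv => hN k v fun g hg =>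
  let ⟨d, y, h1, h2⟩ := hv g hg
  ⟨d, y, h1, h _ h2⟩

omit [Module K V] [IsScalarTower ℂ K V] [Module K W] [IsScalarTower ℂ K W] in
lemma rk_prod (p : Submodule ℂ V) (q : Submodule ℂ W) [FiniteDimensional ℂ p]
    [FiniteDimensional ℂ q] :
    FiniteDimensional ℂ (p.prod q) ∧ finrank ℂ (p.prod q) = finrank ℂ p + finrank ℂ q := by
  let e : (p × q) ≃ₗ[ℂ] p.prod q :=
    { toFun := fun x => ⟨(x.1, x.2), x.1.2, x.2.2⟩
      invFun := fun x => (⟨x.1.1, x.2.1⟩, ⟨x.1.2, x.2.2⟩)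
      map_add' := fun _ _ => rfl
      map_smul' := fun _ _ => rfl
      left_inv := fun _ => rfl
      right_inv := fun _ => rfl }
  exact ⟨e.finiteDimensional, e.finrank_eq.symm.trans Module.finrank_prod⟩

omit [Module ℂ V] [IsScalarTower ℂ K V] [Module ℂ W] [IsScalarTower ℂ K W] in
lemma bil_sum {ι : Type} [Fintype ι] (ω : V →ₗ[K] V →ₗ[K] W) (c c' : ι → K) (u : ι → V) :
    ω (∑ i, c i • u i) (∑ j, c' j • u j) = ∑ i, ∑ j, (c i * c' j) • ω (u i) (u j) := by
  rw [LinearMap.map_sum₂]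
  refine Finset.sum_congr rfl fun i _ => ?_
  rw [map_sum]
  exact Finset.sum_congr rfl fun j _ => by
    rw [LinearMap.map_smul₂, LinearMap.map_smul, smul_smul]

end

/-- the middle indices -/
def mid : Fin 6 → Fin 8 := ![1, 2, 3, 4, 5, 6]

/-- the first members of the pairs -/
def pa : Fin 6 → Fin 4 := ![0, 0, 1, 0, 1, 2]

/-- the second members of the pairs -/
def pb : Fin 6 → Fin 4 := ![1, 2, 2, 3, 3, 3]

lemma pairs : ∀ i j : Fin 4, i = j ∨ (∃ s, i = pa s ∧ j = pb s) ∨ ∃ s, j = pa s ∧ i = pb s := by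
  decide

lemma fin8 : ∀ t : Fin 8, t = 0 ∨ t = 7 ∨ ∃ s, t = mid s := by decide

lemma mid_inj : Function.Injective mid := by decide

lemma oz_mid : ∀ s, oz (mid s) = wz (pa s) + wz (pb s) + 1 := by decide

variable (G : Matrix (Fin 4) (Fin 4) K)

lemma wd_apply (v w : Fin 4 → K) : wd G v w = (2⁻¹ : K) • (mm G v w - mm G w v) := rfl

lemma wd_self (v : Fin 4 → K) : wd G v v = 0 := by rw [wd_apply, sub_self, smul_zero]

lemma wd_swap (v w : Fin 4 → K) : wd G v w = -wd G w v := by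
  rw [wd_apply, wd_apply, ← smul_neg, neg_sub]

lemma o_mid (s : Fin 6) : ob G 1 e4 (mid s) = wd G (e4 (pa s)) (e4 (pb s)) := by
  refine Eq.trans (b := (1 : K)⁻¹ • wd G (e4 (pa s)) (e4 (pb s))) ?_ (by rw [inv_one, one_smul])
  fin_cases s <;> rfl

/-- the span of the alternating products -/
noncomputable def I6 : (Fin 6 → K) →ₗ[K] BB G :=
  Fintype.linearCombination K fun s => ob G 1 e4 (mid s)

lemma I6_single (s : Fin 6) : I6 G (Pi.single s 1) = wd G (e4 (pa s)) (e4 (pb s)) := by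
  rw [I6, Fintype.linearCombination_apply_single, one_smul, o_mid]

lemma wd_range (v w : Fin 4 → K) : wd G v w ∈ LinearMap.range (I6 G) := by
  have h : ∀ v : Fin 4 → K, v = ∑ i, v i • e4 i := fun v => pi_eq_sum_univ' v
  rw [h v, h w, bil_sum]
  refine Submodule.sum_mem _ fun i _ => Submodule.sum_mem _ fun j _ => Submodule.smul_mem _ _ ?_
  rcases pairs i j with rfl | ⟨s, rfl, rfl⟩ | ⟨s, rfl, rfl⟩
  · rw [wd_self]
    exact Submodule.zero_mem _
  · exact ⟨_, I6_single G s⟩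
  · rw [wd_swap]
    exact Submodule.neg_mem _ ⟨_, I6_single G s⟩

lemma wd_mem (i j : Fin 4) : wd G (e4 i) (e4 j) ∈ Ord G 1 e4 wz 1 (wz i + wz j + 1) := by
  rcases pairs i j with rfl | ⟨s, rfl, rfl⟩ | ⟨s, rfl, rfl⟩
  · rw [wd_self]
    exact Submodule.zero_mem _
  · rw [← o_mid, ← oz_mid]
    exact self_mem_Sp _ _ _
  · rw [wd_swap, ← o_mid, add_comm (wz _), ← oz_mid]
    exact Submodule.neg_mem _ (self_mem_Sp _ _ _)

/-- the coordinates on the algebra -/
noncomputable def Θ (ν : K) : (K × (Fin 6 → K) × K) →ₗ[K] BB G :=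
  (LinearMap.toSpanSingleton K _ 1).coprod
    ((ν⁻¹ • I6 G).coprod (LinearMap.toSpanSingleton K _ (del G)))

lemma Θ_apply (ν : K) (t : K × (Fin 6 → K) × K) :
    Θ G ν t = t.1 • (1 : BB G) + (ν⁻¹ • I6 G t.2.1 + t.2.2 • del G) := rfl

variable {G}

lemma li (h : Alg G) : LinearIndependent K (ob G 1 e4) := h.li 1 e4 one_ne_zero (by
  rw [show Matrix.of e4 = 1 from Matrix.ext fun i j => by
    rw [Matrix.of_apply, e4, Pi.single_apply, Matrix.one_apply]
    exact if_congr eq_comm rfl rfl, Matrix.det_one]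
  exact one_ne_zero)

lemma I6_inj (h : Alg G) : Function.Injective (I6 G) :=
  ((li h).comp mid mid_inj).fintypeLinearCombination_injective

lemma Θ_bij (h : Alg G) {ν : K} (hν : ν ≠ 0) : Function.Bijective (Θ G ν) := by
  have h1 : Function.Surjective (Θ G ν) := by
    rw [← LinearMap.range_eq_top, eq_top_iff,
      ← (li h).span_eq_top_of_card_eq_finrank (by rw [h.rank, Fintype.card_fin]),
      Submodule.span_le, Set.range_subset_iff]
    intro t
    rcases fin8 t with rfl | rfl | ⟨s, rfl⟩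
    · refine ⟨(1, 0, 0), ?_⟩
      rw [Θ_apply, one_smul, map_zero, smul_zero, zero_smul, add_zero, add_zero]
      rfl
    · refine ⟨(0, 0, 1), ?_⟩
      rw [Θ_apply, one_smul, map_zero, smul_zero, zero_smul, zero_add, zero_add]
      rfl
    · exact ⟨(0, ν • Pi.single s 1, 0), by rw [Θ_apply, zero_smul, zero_smul, zero_add, add_zero,
        map_smul, inv_smul_smul₀ hν, I6_single, o_mid]⟩
  refine ⟨(LinearMap.injective_iff_surjective_of_finrank_eq_finrank ?_).2 h1, h1⟩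
  rw [h.rank, Module.finrank_prod, Module.finrank_prod, Module.finrank_fin_fun, finrank_self]

/-- the alternating product in coordinates -/
noncomputable def om (h : Alg G) : (Fin 4 → K) →ₗ[K] (Fin 4 → K) →ₗ[K] (Fin 6 → K) :=
  (wd G).codRestrict₂ (I6 G) (I6_inj h) (wd_range G)

lemma I6_om (h : Alg G) (v w : Fin 4 → K) : I6 G (om h v w) = wd G v w :=
  LinearMap.codRestrict₂_apply _ _ _ _ v w

lemma om_self (h : Alg G) (v : Fin 4 → K) : om h v v = 0 :=
  I6_inj h (by rw [I6_om, wd_self, map_zero])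

lemma om_span (h : Alg G) : Submodule.span K {y | ∃ v w, y = om h v w} = ⊤ := by
  rw [eq_top_iff, ← (Pi.basisFun K (Fin 6)).span_eq]
  refine Submodule.span_mono (Set.range_subset_iff.2 fun s => ⟨e4 (pa s), e4 (pb s), I6_inj h ?_⟩)
  rw [Pi.basisFun_apply, I6_single, I6_om]

/-- conjugation -/
noncomputable def cj (A : (BB G)ˣ) : BB G →ₗ[K] BB G :=
  LinearMap.mulLeft K (A : BB G) ∘ₗ LinearMap.mulRight K ((A⁻¹ : (BB G)ˣ) : BB G)

lemma cj_mul (A : (BB G)ˣ) (r : BB G) : cj A r * A = A * r := by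
  rw [show cj A r = A * (r * ↑A⁻¹) from rfl, mul_assoc, Units.inv_mul_cancel_right]

lemma cj_eq {A : (BB G)ˣ} {r x : BB G} (h : A * r = x * A) : cj A r = x :=
  A.mul_left_inj.1 ((cj_mul A r).trans h)

lemma cj_inj (A : (BB G)ˣ) : Function.Injective (cj A) := fun r r' h =>
  A.mul_right_inj.1 (by rw [← cj_mul, ← cj_mul, h])

variable {C : Cx} {X : OL C} (φ : X.V ≃ₗ[C.B] C.B)

/-- the endomorphisms are the right multiplications -/
noncomputable def rho : C.B →ₗ[K] (X.V →ₗ[C.B] X.V) where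
  toFun r := φ.symm.toLinearMap ∘ₗ LinearMap.toSpanSingleton C.B C.B r ∘ₗ φ.toLinearMap
  map_add' r r' := LinearMap.ext fun v => by
    change φ.symm (φ v * (r + r')) = φ.symm (φ v * r) + φ.symm (φ v * r')
    rw [mul_add, map_add]
  map_smul' c r := LinearMap.ext fun v => by
    change φ.symm (φ v * (c • r)) = c • φ.symm (φ v * r)
    rw [mul_smul_comm]
    exact φ.symm.toLinearMap.map_smul_of_tower c _

lemma rho_apply (r : C.B) (v : X.V) : φ (rho φ r v) = φ v * r := φ.apply_symm_apply _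

lemma rho_bij : Function.Bijective (rho φ) := by
  refine ⟨fun r r' h => ?_, fun ψ => ⟨φ (ψ (φ.symm 1)), LinearMap.ext fun v => φ.injective ?_⟩⟩
  · rw [← one_mul r, ← one_mul r', ← φ.apply_symm_apply 1, ← rho_apply, ← rho_apply, h]
  · rw [rho_apply, ← smul_eq_mul, ← map_smul, ← map_smul, ← map_smul, smul_eq_mul, mul_one,
      φ.symm_apply_apply]

variable {φ} {p : Fin 3 → ℂ} {a : X.V} {h : ℤ}

lemma a_mem (hO : OB X p ![a] ![h]) : a ∈ X.F h := by
  have k : (1 : C.B) • a ∈ X.F (0 + h) := hO.mem (0, 0)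
  rwa [one_smul, zero_add] at k

lemma a_ne (hO : OB X p ![a] ![h]) : φ a ≠ 0 := fun k => hO.li.ne_zero (0, 0) (by
  change (1 : C.B) • a = 0
  rw [one_smul, φ.map_eq_zero_iff.1 k])

lemma a_loc (hC : Ctx C) (hO : OB X p ![a] ![h]) : ∃ d y, U1 p d y ∧ ∀ k, ∀ v ∈ X.F k,
    ∃ x ∈ C.O (d + k - h), x • a = y • v := by
  obtain ⟨d, y, h1, h2⟩ := hO.loc
  refine ⟨d, y, h1, fun k v hv => Sp_le (L := fun m => (C.O (m - h)).map
    ((LinearMap.toSpanSingleton C.B X.V a).restrictScalars ℂ)) ?_ ?_ _ (h2 k v hv)⟩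
  · rintro d k c hc _ ⟨x, hx, rfl⟩
    exact ⟨c • x, (add_sub_assoc d k h).symm ▸ hC.tab.lat.fam d _ c hc x hx, smul_assoc c x a⟩
  · rintro ⟨s, t⟩
    obtain rfl := Subsingleton.elim t 0
    refine ⟨C.o s, ?_, rfl⟩
    change C.o s ∈ C.O (oz s + h - h)
    rw [add_sub_cancel_right]
    exact self_mem_Sp _ _ _

lemma a_nrm (hC : Ctx C) {u : Fin 4 → Fin 4 → K} {n : K} (hs : ∀ i, Sand C.G (φ a) (e4 i) (u i))
    (hn : ∀ i j, u i ⬝ᵥ C.G *ᵥ u j = n * C.G i j) :
    (∀ i j, φ a * wd C.G (u i) (u j) = (n • wd C.G (e4 i) (e4 j)) * φ a) ∧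
      ∃ c : ℂ, c ≠ 0 ∧ LinearMap.det (LinearMap.mulRight K (φ a)) = algebraMap ℂ K c * n ^ 2 := by
  obtain ⟨m, h1, h2⟩ := hC.snd.norm (φ a)
  obtain rfl : m = n := by
    by_contra k
    refine hC.det0 ?_
    rw [show C.G = 0 from Matrix.ext fun i j => ?_, Matrix.det_zero]
    have k1 := (h1 _ _ _ _ (hs i) (hs j)).2
    rw [hn, e4, e4, Matrix.mulVec_single_one, single_one_dotProduct] at k1
    exact (mul_eq_mul_right_iff.1 k1).resolve_left (Ne.symm k)
  refine ⟨fun i j => ?_, h2⟩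
  rw [wd_apply, wd_apply, mul_smul_comm, mul_sub, (h1 _ _ _ _ (hs i) (hs j)).1,
    (h1 _ _ _ _ (hs j) (hs i)).1, ← smul_sub, ← sub_mul, smul_mul_assoc, smul_mul_assoc, smul_comm]

theorem chern (hD : stDET) (hC : Ctx C) {U : ℤ → Submodule ℂ (Fin 4 → K)} {ν : K} {l : ℤ}
    (hL : LocU X φ U ν l) : c1 X.F = 2 * l - 14 := by
  let b := basisOfLinearIndependentOfCardEqFinrank
    ((li hC.alg).comp (Prod.fst : Fin 8 × Fin 1 → Fin 8) fun _ _ k =>
      Prod.ext k (Subsingleton.elim _ _))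
    (by rw [hC.alg.rank, Fintype.card_prod, Fintype.card_fin, Fintype.card_fin])
  obtain ⟨μ, -, h1⟩ := hD X.V X.F _ (b.map (φ.symm.restrictScalars K)) X.lat
  refine sub_eq_zero.1 (unit_of_pts (y := ν ^ 2 / μ) fun p hp => ?_).1
  obtain ⟨a, h, u, y, k1, k2, -, k3, k4⟩ := hL p hp
  obtain ⟨c, k5, k6⟩ := (a_nrm hC k2 k4).2
  have k7 := ((h1 _ _ k1.mem).2 p hp).1 k1
  have k8 : (b.map (φ.symm.restrictScalars K)).det
      (fun s : Fin 8 × Fin 1 => C.o s.1 • ![a] s.2) = algebraMap ℂ K c * (ν * y) ^ 2 := by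
    rw [Basis.det_map, ← k6, ← mul_one (LinearMap.det _), ← b.det_self, ← Basis.det_comp]
    refine congrArg b.det (funext fun ⟨s, t⟩ => ?_)
    obtain rfl := Subsingleton.elim t 0
    rw [Function.comp_apply, Function.comp_apply, coe_basisOfLinearIndependentOfCardEqFinrank]
    exact φ.map_smul (C.o s) a
  refine ⟨_, _, _, (u1_const p k5).mul (k3.mul k3), ?_, mul_comm _ _⟩
  rw [k8, show algebraMap ℂ K c * (ν * y) ^ 2 / μ = algebraMap ℂ K c * (y * y) * (ν ^ 2 / μ) by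
    ring] at k7
  refine k7.cast ?_
  simp [Fintype.sum_prod_type, Fin.sum_univ_eight, od, wz]
  ring

/-- the endomorphisms in coordinates -/
noncomputable def RR (H : ℤ → Submodule ℂ (Fin 6 → K)) (l k : ℤ) :
    Submodule ℂ (K × (Fin 6 → K) × K) :=
  (AA k).prod ((H (k + -l)).prod (AA (k + -l + (l - 3))))

theorem hom_iff (hC : Ctx C) (hH : Refl (HomF X X)) {U : ℤ → Submodule ℂ (Fin 4 → K)} {ν : K}
    {l : ℤ} (hν : ν ≠ 0) (hL : LocU X φ U ν l) (hW : Lat (hull (bil (om hC.alg) U U))) (k : ℤ)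
    (t : K × (Fin 6 → K) × K) :
    t ∈ RR (hull (bil (om hC.alg) U U)) l k ↔ rho φ (Θ C.G ν t) ∈ HomF X X k := by
  have hR : Refl (RR (hull (bil (om hC.alg) U U)) l) :=
    refl_prod refl_AA (refl_prod hW.refl refl_AA (l - 3)) (-l)
  have hF : Fam (RR (hull (bil (om hC.alg) U U)) l) :=
    fam_prod fam_AA (fam_prod hW.fam fam_AA (l - 3)) (-l)
  have hO := hC.tab.lat
  refine ⟨fun ht => hH.locP fun p hp => ?_, fun ht => hR.locP fun p hp => ?_⟩
  all_goals
    obtain ⟨a, h, u, y, k1, k2, k3, k4, k5⟩ := hL p hp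
    obtain ⟨A, hA⟩ := hC.div _ (a_ne (φ := φ) k1)
    obtain ⟨d₀, y₀, k6, k7⟩ := a_loc hC k1
    have k8 : ∀ i j, cj A (ν⁻¹ • I6 C.G (om hC.alg (u i) (u j))) = y • wd C.G (e4 i) (e4 j) :=
      fun i j => by
        rw [I6_om, map_smul, cj_eq (hA.symm ▸ (a_nrm hC k2 k5).1 i j), mul_smul, inv_smul_smul₀ hν]
    have k9 : ∀ t, cj A (Θ C.G ν t) =
        t.1 • (1 : C.B) + (cj A (ν⁻¹ • I6 C.G t.2.1) + t.2.2 • del C.G) := fun t => by
      rw [Θ_apply, map_add, map_add, map_smul, map_smul _ t.2.2,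
        cj_eq ((mul_one _).trans (one_mul _).symm), cj_eq (hC.alg.cen _).symm]
    have k10 : ∀ r, rho φ r a = cj A r • a := fun r => φ.injective (by
      rw [rho_apply, map_smul, smul_eq_mul, ← hA, cj_mul])
  · obtain ⟨d₁, y₁, m1, m2⟩ := k3.loc
    have m3 := hull_min (L := bil (om hC.alg) U U) (fun m => Submodule.span_le.2 ?_)
      (refl_comap hO.refl ((y₁ * y₁) • (cj A ∘ₗ (ν⁻¹ • I6 C.G))) (l + (d₁ + d₁))) _ ht.2.1
    · have m4 : cj A ((y₁ * y₁) • Θ C.G ν t) ∈ C.O (d₁ + d₁ + k) := by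
        rw [map_smul, k9, smul_add, smul_add]
        refine add_mem (hO.fam _ _ _ (m1.mul m1).mem _ ?_) (add_mem ?_
          (hO.fam _ _ _ (m1.mul m1).mem _ ?_))
        · exact add_zero k ▸ hO.fam _ _ _ ht.1 _ (self_mem_Sp _ _ (0 : Fin 8))
        · exact (show k + -l + (l + (d₁ + d₁)) = d₁ + d₁ + k by ring) ▸ m3
        · exact (show k + -l + (l - 3) + 3 = k by ring) ▸
            hO.fam _ _ _ ht.2.2 _ (self_mem_Sp _ _ (7 : Fin 8))
      refine ⟨_, _, k6.mul (m1.mul m1), fun j v hv => ?_⟩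
      obtain ⟨x, m5, m6⟩ := k7 j v hv
      rw [mul_smul, ← map_smul (rho φ), LinearMap.smul_apply, ← LinearMap.map_smul_of_tower, ← m6,
        map_smul, k10, smul_smul]
      exact (show d₀ + j - h + (d₁ + d₁ + k) + h = j + (d₀ + (d₁ + d₁) + k) by ring) ▸
        X.stab _ _ _ (hC.tab.mul _ _ _ m5 _ m4) a (a_mem k1)
    · rintro _ ⟨i, j, v, w, rfl, hv, hw, rfl⟩
      obtain ⟨c, m3, m4⟩ := mem_Sp.1 (m2 i v hv)
      obtain ⟨c', m5, m6⟩ := mem_Sp.1 (m2 j w hw)
      change (y₁ * y₁) • (cj A ∘ₗ (ν⁻¹ • I6 C.G)) (om hC.alg v w) ∈ C.O _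
      rw [← map_smul, mul_smul, ← LinearMap.map_smul, ← LinearMap.map_smul₂, ← m4, ← m6, bil_sum,
        map_sum]
      refine sum_mem fun i' _ => ?_
      rw [map_sum]
      refine sum_mem fun j' _ => ?_
      rw [map_smul]
      have m7 := hO.fam _ _ _ (AA_mul (m3 i') (m5 j')) _ (hO.fam _ _ _ k4.mem _ (wd_mem C.G i' j'))
      rw [← k8, show d₁ + i - (wz i' + 2 * h) + (d₁ + j - (wz j' + 2 * h)) +
        (4 * h + l - 1 + (wz i' + wz j' + 1)) = i + j + (l + (d₁ + d₁)) by ring] at m7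
      exact m7
  · obtain ⟨x, m1, m2⟩ := k7 _ _ (ht h a (a_mem k1))
    have m3 : x = y₀ • cj A (Θ C.G ν t) := by
      have m := congrArg φ m2
      rw [k10, ← smul_assoc, map_smul, map_smul, ← hA] at m
      exact A.mul_left_inj.1 m
    have m6 := Sp_le (L := fun m =>
      ((RR (hull (bil (om hC.alg) U U)) l (4 * h + l - 1 + m)).map
        ((cj A ∘ₗ Θ C.G ν).restrictScalars ℂ)).comap
          ((y • LinearMap.id (R := K)).restrictScalars ℂ)) ?_ ?_ _ m1
    · obtain ⟨t', m4, m5⟩ := m6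
      refine ⟨_, _, k4.mul k6, ?_⟩
      rw [← (Θ_bij hC.alg hν).1 (cj_inj A (m5.trans (show _ = cj A (Θ C.G ν ((y * y₀) • t)) by
        rw [map_smul, map_smul, mul_smul, ← m3]; rfl))),
        show 4 * h + l - 1 + d₀ + k = 4 * h + l - 1 + (d₀ + (h + k) - h) by ring]
      exact m4
    · rintro d m c hc z ⟨t', n1, n2⟩
      refine ⟨c • t', (add_left_comm d _ m) ▸ hF _ _ c hc t' n1, ?_⟩
      change (cj A ∘ₗ Θ C.G ν) (c • t') = y • c • z
      rw [map_smul, smul_comm y]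
      exact congrArg (c • ·) n2
    · intro s
      rcases fin8 s with rfl | rfl | ⟨s, rfl⟩
      · refine ⟨(y, 0, 0), ⟨AA_cast k4.mem (add_zero _).symm, zero_mem _, zero_mem _⟩,
          (k9 _).trans ?_⟩
        rw [map_zero, smul_zero, map_zero, zero_smul, add_zero, add_zero]
        rfl
      · refine ⟨(0, 0, y), ⟨zero_mem _, zero_mem _, AA_cast k4.mem
          (show _ = 4 * h + l - 1 + 3 + -l + (l - 3) by ring)⟩, (k9 _).trans ?_⟩
        rw [map_zero, smul_zero, map_zero, zero_smul, zero_add, zero_add]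
        rfl
      · refine ⟨(0, om hC.alg (u (pa s)) (u (pb s)), 0), ⟨zero_mem _, le_hull _ _
          (Submodule.subset_span ⟨_, _, _, _, ?_, k3.mem _, k3.mem _, rfl⟩), zero_mem _⟩,
          (k9 _).trans ?_⟩
        · rw [show od wz 1 (mid s) = _ from oz_mid s]
          ring
        · rw [zero_smul, zero_smul, zero_add, add_zero, k8, ← o_mid]
          rfl

end A1b

open A1b in
theorem a1b (hD : stDET) (hW : stWEDGE) (hQ : stQD) (hX : stHPX) (hH : stHOM) : stA1b := by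
  intro C hC X φ U ν l hν hU hL
  refine ⟨chern hD hC hL, ?_⟩
  have h1 := hX _ U hU.lat
  rw [Module.finrank_fin_fun, (hQ _ _ _ _ hC.hf C.disc hU).2] at h1
  obtain ⟨h2, x, h3, h4⟩ := hW _ (om hC.alg) U _ _ (Module.finrank_fin_fun K) (om_self hC.alg)
    (om_span hC.alg) hU.lat h1
  have h5 : ∀ k, finrank ℂ (HomF X X k) = finrank ℂ (AA k) +
      (finrank ℂ (hull (bil (om hC.alg) U U) (k + -l)) + finrank ℂ (AA (k + -l + (l - 3)))) := by
    intro k
    have := h2.fg.finite (k + -l)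
    obtain ⟨_, k1⟩ := rk_prod (hull (bil (om hC.alg) U U) (k + -l)) (AA (k + -l + (l - 3)))
    have k2 := (rho_bij φ).comp (Θ_bij hC.alg hν)
    rw [← k1, ← (rk_prod _ _).2]
    refine Eq.trans (congrArg (fun S : Submodule ℂ _ => finrank ℂ S) (Submodule.ext fun ψ => ?_))
      (Submodule.equivMapOfInjective ((rho φ ∘ₗ Θ C.G ν).restrictScalars ℂ) k2.1 _).finrank_eq.symm
    obtain ⟨t, rfl⟩ := k2.2 ψ
    exact (hom_iff hC (hH C hC X X).1.refl hν hL h2 k t).symm.trans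
      ⟨fun m => ⟨t, m, rfl⟩, fun ⟨_, m, m'⟩ => k2.1 m' ▸ m⟩
  suffices h6 : HP (HomF X X) 8 (-12) (2 * chi U - l ^ 2 - 3 * l) from
    (Res.hp_uniq (Res.hp_c1 h6) h6).2
  filter_upwards [(tendsto_atTop_add_const_right _ (-l) tendsto_id).eventually h3,
    eventually_ge_atTop 1] with k k1 k2
  have k3 := finrank_AA (k := k) (by omega)
  have k4 := finrank_AA (k := k + -l + (l - 3)) (by omega)
  rw [h5]
  simp only [id] at k1
  push_cast
  linear_combination k1 + k3 + k4 + h4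

end Vale.Agent.P287Z.L
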