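import Vale.Agent.P287Z.L.Basic

/-!
First properties of the even Clifford algebra of a symmetric matrix.
-/

namespace Vale.Agent.P287Z.L

open MvPolynomial Module Matrix CliffordAlgebra Vale.Agent.P287 Vale.Agent.P287.Theta

variable {G : Matrix (Fin 4) (Fin 4) K}

lemma qf4_apply (v : Fin 4 → K) : qf4 G v = v ⬝ᵥ G *ᵥ v := by
  simp only [qf4, Matrix.toQuadraticForm']
  simp [LinearMap.BilinMap.toQuadraticMap_apply, Matrix.toLinearMap₂'_apply']

lemma bf_symm (hG : G.IsSymm) (u v : Fin 4 → K) : u ⬝ᵥ G *ᵥ v = v ⬝ᵥ G *ᵥ u := by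
  rw [Matrix.dotProduct_mulVec, ← Matrix.mulVec_transpose, hG.eq, dotProduct_comm]

lemma polar_qf4 (hG : G.IsSymm) (u v : Fin 4 → K) :
    QuadraticMap.polar (qf4 G) u v = 2 * (u ⬝ᵥ G *ᵥ v) := by
  rw [QuadraticMap.polar, qf4_apply, qf4_apply, qf4_apply, Matrix.mulVec_add, add_dotProduct,
    dotProduct_add, dotProduct_add, bf_symm hG v u]
  ring

lemma inc_inj : Function.Injective (inc G) := Subtype.val_injective

lemma inc_mem (x : BB G) : inc G x ∈ evenOdd (qf4 G) 0 :=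
  Subtype.property (x : ↥(CliffordAlgebra.even (qf4 G)))

lemma exists_inc {x : CliffordAlgebra (qf4 G)} (hx : x ∈ evenOdd (qf4 G) 0) :
    ∃ y, inc G y = x := ⟨(⟨x, hx⟩ : ↥(CliffordAlgebra.even (qf4 G))), rfl⟩

lemma inc_mm (u v : Fin 4 → K) : inc G (mm G u v) = ι (qf4 G) u * ι (qf4 G) v := rfl

lemma inc_tau (x : BB G) : inc G (tau G x) = reverse (Q := qf4 G) (inc G x) := rfl

lemma iota_sq (v : Fin 4 → K) :
    ι (qf4 G) v * ι (qf4 G) v = algebraMap K _ (v ⬝ᵥ G *ᵥ v) := by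
  rw [ι_sq_scalar, qf4_apply]

lemma iota_swap (hG : G.IsSymm) (u v : Fin 4 → K) :
    ι (qf4 G) u * ι (qf4 G) v + ι (qf4 G) v * ι (qf4 G) u =
      algebraMap K _ (2 * (u ⬝ᵥ G *ᵥ v)) := by
  rw [ι_mul_ι_add_swap, polar_qf4 hG]

lemma iota_inj : Function.Injective (ι (qf4 G)) := by
  let _ : Invertible (2 : K) := invertibleOfNonzero two_ne_zero
  intro u v h
  have := congrArg (equivExterior (qf4 G)) h
  rw [equivExterior, changeFormEquiv_apply, changeFormEquiv_apply, changeForm_ι, changeForm_ι]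
    at this
  exact (ExteriorAlgebra.ι_inj K u v).1 this

lemma mm_self (v : Fin 4 → K) : mm G v v = algebraMap K _ (v ⬝ᵥ G *ᵥ v) :=
  inc_inj (by rw [inc_mm, iota_sq, AlgHom.commutes])

lemma mm_swap (hG : G.IsSymm) (u v : Fin 4 → K) :
    mm G u v + mm G v u = algebraMap K _ (2 * (u ⬝ᵥ G *ᵥ v)) :=
  inc_inj (by rw [map_add, inc_mm, inc_mm, iota_swap hG, AlgHom.commutes])

lemma mm_mid (a b c : Fin 4 → K) : mm G a b * mm G b c = (b ⬝ᵥ G *ᵥ b) • mm G a c :=
  inc_inj (by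
    rw [map_mul, map_smul, inc_mm, inc_mm, inc_mm, mul_assoc, ← mul_assoc (ι (qf4 G) b), iota_sq,
      ← Algebra.smul_def, mul_smul_comm])

lemma mm_mid' (hG : G.IsSymm) (a b c d : Fin 4 → K) :
    mm G a b * mm G c d + mm G a c * mm G b d = (2 * (b ⬝ᵥ G *ᵥ c)) • mm G a d :=
  inc_inj (by
    rw [map_add, map_mul, map_mul, map_smul, inc_mm, inc_mm, inc_mm, inc_mm, inc_mm, mul_assoc,
      mul_assoc, ← mul_add, ← mul_assoc, ← mul_assoc, ← add_mul, iota_swap hG, ← Algebra.smul_def,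
      mul_smul_comm])

lemma wd_apply (u v : Fin 4 → K) : wd G u v = (2⁻¹ : K) • (mm G u v - mm G v u) := rfl

lemma wd_self (v : Fin 4 → K) : wd G v v = 0 := by rw [wd_apply, sub_self, smul_zero]

lemma wd_swap (u v : Fin 4 → K) : wd G v u = -wd G u v := by
  rw [wd_apply, wd_apply, ← smul_neg, neg_sub]

lemma mm_eq_wd (hG : G.IsSymm) (u v : Fin 4 → K) :
    mm G u v = wd G u v + algebraMap K _ (u ⬝ᵥ G *ᵥ v) := by
  have h := mm_swap hG u v
  have h2 : mm G v u = algebraMap K _ (2 * (u ⬝ᵥ G *ᵥ v)) - mm G u v := by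
    rw [← h]; abel
  have h3 : ∀ (x y : BB G) (c : K), x = (2⁻¹ : K) • (x - ((2 * c) • y - x)) + c • y := by
    intro x y c
    rw [sub_sub_eq_add_sub, smul_sub, ← two_smul K x, smul_smul, smul_smul, ← mul_assoc,
      inv_mul_cancel₀ two_ne_zero, one_smul, one_mul, sub_add_cancel]
  rw [wd_apply, h2, Algebra.algebraMap_eq_smul_one, Algebra.algebraMap_eq_smul_one]
  exact h3 _ _ _

lemma wd_eq (hG : G.IsSymm) (u v : Fin 4 → K) :
    wd G u v = mm G u v - algebraMap K _ (u ⬝ᵥ G *ᵥ v) := by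
  rw [mm_eq_wd hG, add_sub_cancel_right]

lemma tau_add (x y : BB G) : tau G (x + y) = tau G x + tau G y :=
  inc_inj (by simp only [inc_tau, map_add])

lemma tau_smul (c : K) (x : BB G) : tau G (c • x) = c • tau G x :=
  inc_inj (by simp only [inc_tau, map_smul])

lemma tau_mul (x y : BB G) : tau G (x * y) = tau G y * tau G x :=
  inc_inj (by simp only [inc_tau, map_mul, reverse.map_mul])

lemma tau_one : tau G 1 = 1 := inc_inj (by simp only [inc_tau, map_one, reverse.map_one])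

lemma tau_tau (x : BB G) : tau G (tau G x) = x :=
  inc_inj (by simp only [inc_tau, reverse_reverse])

lemma tau_algebraMap (c : K) : tau G (algebraMap K _ c) = algebraMap K _ c := by
  rw [Algebra.algebraMap_eq_smul_one, tau_smul, tau_one]

lemma tau_mm (u v : Fin 4 → K) : tau G (mm G u v) = mm G v u :=
  inc_inj (by simp only [inc_tau, inc_mm, reverse.map_mul, reverse_ι])

/-- the reversal as a linear map -/
noncomputable def tauL (G : Matrix (Fin 4) (Fin 4) K) : BB G →ₗ[K] BB G where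
  toFun := tau G
  map_add' := tau_add
  map_smul' := tau_smul

lemma tauL_apply (x : BB G) : tauL G x = tau G x := rfl

lemma tau_zero : tau G 0 = 0 := (tauL G).map_zero
lemma tau_neg (x : BB G) : tau G (-x) = -tau G x := (tauL G).map_neg x
lemma tau_sub (x y : BB G) : tau G (x - y) = tau G x - tau G y := (tauL G).map_sub x y

lemma tau_wd (u v : Fin 4 → K) : tau G (wd G u v) = -wd G u v := by
  rw [wd_apply, tau_smul, tau_sub, tau_mm, tau_mm, ← smul_neg, neg_sub]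

lemma lam_apply (x : BB G) : lam G x =
    (8 * G.det)⁻¹ * LinearMap.trace K (BB G) (LinearMap.mulLeft K (del G * x)) := rfl

lemma e4_dot (i j : Fin 4) : e4 i ⬝ᵥ G *ᵥ e4 j = G i j := by
  simp [e4]

lemma of_e4 : Matrix.of e4 = 1 := by
  ext i j
  simp [e4, Matrix.one_apply, Pi.single_apply, eq_comm]

lemma sum_e4 (v : Fin 4 → K) : ∑ i, v i • e4 i = v := (pi_eq_sum_univ' v).symm

lemma Sand.unique {a : BB G} {u v w : Fin 4 → K} (h : Sand G a u v) (h' : Sand G a u w) : v = w :=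
  iota_inj (h.trans h'.symm)

lemma sum_wz : ∑ i, wz i = 1 := by simp [wz, Fin.sum_univ_four]

lemma sum_oz : ∑ i, oz i = 12 := by simp [od, wz, Fin.sum_univ_eight]

lemma oz_eq : oz = ![0, 1, 1, 1, 2, 2, 2, 3] := by
  funext i; fin_cases i <;> simp [od, wz]

lemma wz_eq (i : Fin 4) : wz i = (H925.wt i : ℤ) := by
  fin_cases i <;> rfl

lemma mem_HomF {C : Cx} {X Y : OL C} {k : ℤ} {φ : X.V →ₗ[C.B] Y.V} :
    φ ∈ HomF X Y k ↔ ∀ j, ∀ v ∈ X.F j, φ v ∈ Y.F (j + k) := Iff.rfl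

end Vale.Agent.P287Z.L
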