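import Vale.Agent.P287Z.L.Defs
import Vale.Agent.P287.H100.EvenDim

/-!
The statements of the steps of the lattice part.
-/

namespace Vale.Agent.P287Z.L

open MvPolynomial Module Filter Matrix Vale.Agent.P287 Vale.Agent.P287.Theta

instance (G : Matrix (Fin 4) (Fin 4) K) : FiniteDimensional K (BB G) :=
  haveI : CharZero K := charZero_of_injective_algebraMap (algebraMap ℂ K).injective
  H100.finite_even two_ne_zero (qf4 G)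

/-! General lattices -/

def stNOETH : Prop := ∀ (V : Type) [AddCommGroup V] [Module ℂ V] [Module K V]
  [IsScalarTower ℂ K V] (L N : ℤ → Submodule ℂ V), FG L → Fam N → (∀ k, N k ≤ L k) → FG N

def stMG : Prop := ∀ (V : Type) [AddCommGroup V] [Module ℂ V] [Module K V]
  [IsScalarTower ℂ K V] (L : ℤ → Submodule ℂ V), FG L →
    ∃ (n : ℕ) (u : Fin n → V) (e : Fin n → ℤ), Gen L u e ∧ Min u e

def stHULL : Prop := ∀ (V : Type) [AddCommGroup V] [Module ℂ V] [Module K V]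
  [IsScalarTower ℂ K V] [FiniteDimensional K V] (L : ℤ → Submodule ℂ V),
    FG L → Full L → Lat (hull L)

def stRES : Prop := ∀ (V : Type) [AddCommGroup V] [Module ℂ V] [Module K V]
  [IsScalarTower ℂ K V] (L : ℤ → Submodule ℂ V) (n₀ : ℕ) (u : Fin n₀ → V) (e : Fin n₀ → ℤ),
    Sat L → Gen L u e → ∃ (n₁ : ℕ) (S : Matrix (Fin n₀) (Fin n₁) P3) (d : Fin n₁ → ℤ),
      Rs L u e S d

def stSPLIT : Prop := ∀ (V : Type) [AddCommGroup V] [Module ℂ V] [Module K V]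
  [IsScalarTower ℂ K V] (L : ℤ → Submodule ℂ V) (n₀ n₁ : ℕ) (u : Fin n₀ → V) (e : Fin n₀ → ℤ)
  (S : Matrix (Fin n₀) (Fin n₁) P3) (d : Fin n₁ → ℤ), Refl L → Rs L u e S d →
    ∀ p : Fin 3 → ℂ, p ≠ 0 → Function.Injective (S.map (eval p)).mulVec

def stRSD : Prop := ∀ (V : Type) [AddCommGroup V] [Module ℂ V] [Module K V]
  [IsScalarTower ℂ K V] (L : ℤ → Submodule ℂ V) (n₀ n₁ : ℕ) (u : Fin n₀ → V) (e : Fin n₀ → ℤ)
  (S : Matrix (Fin n₀) (Fin n₁) P3) (d : Fin n₁ → ℤ), Rs L u e S d →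
    (∀ k, finrank ℂ (L k) + finrank ℂ (Fr d k) = finrank ℂ (Fr e k)) ∧
      (Full L → finrank K V + n₁ = n₀)

def stHPX : Prop := ∀ (V : Type) [AddCommGroup V] [Module ℂ V] [Module K V]
  [IsScalarTower ℂ K V] [FiniteDimensional K V] (L : ℤ → Submodule ℂ V),
    Lat L → HP L (finrank K V) (c1 L) (chi L)

def stLFA : Prop := ∀ (V : Type) [AddCommGroup V] [Module ℂ V] [Module K V]
  [IsScalarTower ℂ K V] [FiniteDimensional K V] (L : ℤ → Submodule ℂ V), Lat L →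
    ∀ p : Fin 3 → ℂ, p ≠ 0 → ∃ (u : Fin (finrank K V) → V) (e : Fin (finrank K V) → ℤ),
      LB L p u e

def stDET : Prop := ∀ (V : Type) [AddCommGroup V] [Module ℂ V] [Module K V]
  [IsScalarTower ℂ K V] [FiniteDimensional K V] (L : ℤ → Submodule ℂ V) (ι : Type) [Fintype ι]
  [DecidableEq ι] (b : Basis ι K V), Lat L → ∃ ν : K, ν ≠ 0 ∧ ∀ (u : ι → V) (e : ι → ℤ),
    (∀ i, u i ∈ L (e i)) → b.det u / ν ∈ AA (∑ i, e i + c1 L) ∧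
      ∀ p : Fin 3 → ℂ, p ≠ 0 → (LB L p u e ↔ U1 p (∑ i, e i + c1 L) (b.det u / ν))

def stPIC : Prop := ∀ L : ℤ → Submodule ℂ K, Lat L →
  ∃ (ν : K) (n : ℤ), ν ≠ 0 ∧ ∀ k y, y ∈ L k ↔ y / ν ∈ AA (k + n)

def stVAN : Prop := ∀ (V : Type) [AddCommGroup V] [Module ℂ V] [Module K V]
  [IsScalarTower ℂ K V] (N N' : ℤ → Submodule ℂ V), Fam N → FG N' → (∀ k, N k ≤ N' k) →
    (∀ p : Fin 3 → ℂ, p ≠ 0 → ∀ k, ∀ v ∈ N' k, LocP N p k v) →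
      (∀ᶠ k in atTop, N k = N' k) ∧
        ∃ n : ℕ, ∀ (i : Fin 3) (k : ℤ), ∀ v ∈ N' k, tvec i ^ n • v ∈ N (k + n)

def stFINZ : Prop := ∀ (V : Type) [AddCommGroup V] [Module ℂ V] [Module K V]
  [IsScalarTower ℂ K V] (N N' : ℤ → Submodule ℂ V), Fam N → FG N' →
    (∀ g, HPrime g → ∀ k, ∀ v ∈ N' k, LocG N g k v) →
      ∃ Z : Finset (Fin 3 → ℂ), (∀ z ∈ Z, z ≠ 0) ∧ ∀ p : Fin 3 → ℂ, p ≠ 0 →
        (∀ z ∈ Z, ∀ c : ℂ, p ≠ c • z) → ∀ k, ∀ v ∈ N' k, LocP N p k v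

def stDUAL : Prop := ∀ (V W : Type) [AddCommGroup V] [Module ℂ V] [Module K V]
  [IsScalarTower ℂ K V] [FiniteDimensional K V] [AddCommGroup W] [Module ℂ W] [Module K W]
  [IsScalarTower ℂ K W] [FiniteDimensional K W] (β : V →ₗ[K] W →ₗ[K] K)
  (L : ℤ → Submodule ℂ V), (∀ v, (∀ w, β v w = 0) → v = 0) → (∀ w, (∀ v, β v w = 0) → w = 0) →
    Lat L → Lat (dual β L) ∧ ∀ R c x, HP L R c x → HP (dual β L) R (-c) (x - 3 * c)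

def stWEDGE : Prop := ∀ (W : Type) [AddCommGroup W] [Module ℂ W] [Module K W]
  [IsScalarTower ℂ K W] [FiniteDimensional K W] (ω : (Fin 4 → K) →ₗ[K] (Fin 4 → K) →ₗ[K] W)
  (U : ℤ → Submodule ℂ (Fin 4 → K)) (c x : ℤ), finrank K W = 6 → (∀ v, ω v v = 0) →
    Submodule.span K {y | ∃ v w, y = ω v w} = ⊤ → Lat U → HP U 4 c x →
      Lat (hull (bil ω U U)) ∧
        ∃ x', HP (hull (bil ω U U)) 6 (3 * c) x' ∧ 2 * x' = 4 * x - 4 + c ^ 2 + 3 * c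

/-! Quadratic lattices -/

def stPAR : Prop := ∀ (ι : Type) [Fintype ι] [DecidableEq ι] (G : Matrix ι ι K)
  (N : ℤ → Submodule ℂ (ι → K)), G.IsSymm → G.det ≠ 0 → Lat N →
    (∀ k, sharp G N (-3) k = N k) → Even (chi N)

def stWITT : Prop := ∀ (ι : Type) [Fintype ι] [DecidableEq ι] (G : Matrix ι ι K)
  (N : ℤ → Submodule ℂ (ι → K)) (l : ℤ) (m : ℕ), G.IsSymm → G.det ≠ 0 → IsSquare G.det →
    Fintype.card ι = 2 * m → Lat N → (∀ k, sharp G N l k = N k) →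
      ∃ W : Submodule K (ι → K), finrank K W = m ∧ ∀ x ∈ W, ∀ y ∈ W, x ⬝ᵥ G *ᵥ y = 0

def stQD : Prop := ∀ (f : P3) (U : ℤ → Submodule ℂ (Fin 4 → K)) (G : Matrix (Fin 4) (Fin 4) K)
  (l : ℤ), Hg 6 f → SmoothP f → QL f U G l →
    (∃ m w₀ γ, QD f U G l m w₀ γ) ∧ c1 U = 2 * l - 3

def stSYM : Prop := ∀ (f : P3) (U : ℤ → Submodule ℂ (Fin 4 → K)) (G : Matrix (Fin 4) (Fin 4) K)
  (l m : ℤ) (w₀ : Fin 4 → K) (γ : P3), Hg 6 f → SmoothP f → QL f U G l → QD f U G l m w₀ γ →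
    ∃ (n : ℕ) (d : Fin n → ℤ) (φ Λ : Matrix (Fin n) (Fin n) P3) (α : Fin n → P3),
      SD f U G l m w₀ γ d φ Λ α

def stGLUE : Prop := ∀ (f : P3) (U : ℤ → Submodule ℂ (Fin 4 → K)) (G : Matrix (Fin 4) (Fin 4) K)
  (l m : ℤ) (w₀ : Fin 4 → K) (γ : P3) (n : ℕ) (d : Fin n → ℤ) (φ Λ : Matrix (Fin n) (Fin n) P3)
  (α : Fin n → P3), Hg 6 f → SmoothP f → QL f U G l → QD f U G l m w₀ γ →
    SD f U G l m w₀ γ d φ Λ α → ∃ N : ℤ → Submodule ℂ (Fin 4 ⊕ Fin n → K), Lat N ∧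
      (∀ k, sharp (Matrix.fromBlocks G 0 0 (-φ.map ev)) N l k = N k) ∧
        ∀ᶠ k in atTop, finrank ℂ (N k) = finrank ℂ (U k) + finrank ℂ (Fr d k)

def stQF : Prop := ∀ (f : P3) (U : ℤ → Submodule ℂ (Fin 4 → K)) (G : Matrix (Fin 4) (Fin 4) K)
  (l : ℤ), Hg 6 f → SmoothP f → QL f U G l →
    (Odd l → Net G ∨ 4 ∣ 2 * chi U - l ^ 2 - 3 * l - 2) ∧ (Even l → ∃ φ u w, Ver f G φ u w)

def stNET : Prop := ∀ (C : Cx) (ν : K), ν ≠ 0 → Net (ν⁻¹ • C.G) → C.Rat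

def stVR : Prop := ∀ (C : Cx) (ν : K) (φ : Matrix (Fin 3) (Fin 3) P3) (u : Fin 3 → Fin 4 → K)
  (w : Fin 4 → K), ν ≠ 0 → Ver C.M.det (ν⁻¹ • C.G) φ u w → C.Rat ∨ Good φ

def stBGG : Prop := ∀ (W : Type) [AddCommGroup W] [Module ℂ W] [Module K W]
  [IsScalarTower ℂ K W] [FiniteDimensional K W] (H : ℤ → Submodule ℂ W) (R c x : ℤ)
  (φ : Matrix (Fin 3) (Fin 3) P3) (ζ : Fin 3 → W →ₗ[K] W), φ.IsSymm → (∀ i j, Hg 2 (φ i j)) →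
    Good φ → Lat H → HP H R c x → (∀ i k, ∀ v ∈ H k, ζ i v ∈ H (k + 1)) →
      (∀ i j v, ζ i (ζ j v) + ζ j (ζ i v) = (-2 * ev (φ i j)) • v) → 8 ∣ 4 * x - 3 * R - 2 * c

/-! The even Clifford algebra -/

/-- the structure of the even Clifford algebra of a non-degenerate form -/
structure Alg (G : Matrix (Fin 4) (Fin 4) K) : Prop where
  rank : finrank K (BB G) = 8
  cen : ∀ x, del G * x = x * del G
  sq : del G * del G = algebraMap K (BB G) G.det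
  anti : ∀ v, inc G (del G) * CliffordAlgebra.ι (qf4 G) v =
    -(CliffordAlgebra.ι (qf4 G) v * inc G (del G))
  dl_eq : ∀ u : Fin 4 → Fin 4 → K, dl G u = (Matrix.of u).det • del G
  tau_del : tau G (del G) = del G
  lam_comm : ∀ x y, lam G (x * y) = lam G (y * x)
  lam_one : lam G 1 = 0
  lam_del : lam G (del G) = 1
  lam_mm : ∀ u v, lam G (mm G u v) = 0
  lam_four : ∀ a b c d, lam G (mm G a b * mm G c d) = (Matrix.of ![a, b, c, d]).det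
  lam_del_wd : ∀ u v, lam G (del G * wd G u v) = 0
  li : ∀ (ν : K) (u : Fin 4 → Fin 4 → K), ν ≠ 0 → (Matrix.of u).det ≠ 0 →
    LinearIndependent K (ob G ν u)
  ind : ∀ S : Submodule K (BB G), 1 ∈ S → (∀ u v, ∀ x ∈ S, mm G u v * x ∈ S) → S = ⊤

/-- the sandwich and the norm -/
structure Snd (G : Matrix (Fin 4) (Fin 4) K) : Prop where
  odd : ∀ x ∈ CliffordAlgebra.evenOdd (qf4 G) 1, CliffordAlgebra.reverse (Q := qf4 G) x = x →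
    ∃ u, x = CliffordAlgebra.ι (qf4 G) u
  ex : ∀ a u, ∃ u', Sand G a u u'
  norm : ∀ a, ∃ n : K, (∀ u u' v v', Sand G a u u' → Sand G a v v' →
      a * mm G u' v' = n • (mm G u v * a) ∧ u' ⬝ᵥ G *ᵥ v' = n * (u ⬝ᵥ G *ᵥ v)) ∧
    ∃ c : ℂ, c ≠ 0 ∧ LinearMap.det (LinearMap.mulRight K a) = algebraMap ℂ K c * n ^ 2

/-- the multiplication table of an order -/
structure Tab (G : Matrix (Fin 4) (Fin 4) K) (ν : K) (u : Fin 4 → Fin 4 → K) (h : Fin 4 → ℤ)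
    (l : ℤ) : Prop where
  lat : Lat (Ord G ν u h l)
  mul : ∀ j k, ∀ x ∈ Ord G ν u h l j, ∀ y ∈ Ord G ν u h l k, x * y ∈ Ord G ν u h l (j + k)
  mem : ∀ i j, ν⁻¹ • mm G (u i) (u j) ∈ Ord G ν u h l (h i + h j + l)
  tau : ∀ k, ∀ x ∈ Ord G ν u h l k, tau G x ∈ Ord G ν u h l k
  int : ∀ k, ∀ x ∈ Ord G ν u h l k, lam G x ∈ AA (k - 3)
  dual : ∀ k x, (∀ j, ∀ y ∈ Ord G ν u h l j, lam G (x * y) ∈ AA (j + k - 3)) →
    x ∈ Ord G ν u h l k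
  ind : ∀ S : ℤ → Submodule ℂ (BB G), Fam S → 1 ∈ S 0 →
    (∀ i j k, ∀ x ∈ S k, (ν⁻¹ • mm G (u i) (u j)) * x ∈ S (h i + h j + l + k)) →
      ∀ k, Ord G ν u h l k ≤ S k

def stALG : Prop := ∀ G : Matrix (Fin 4) (Fin 4) K, G.IsSymm → G.det ≠ 0 → Alg G

def stSND : Prop := ∀ G : Matrix (Fin 4) (Fin 4) K, G.IsSymm → G.det ≠ 0 → Alg G → Snd G

def stDIV : Prop := ∀ G : Matrix (Fin 4) (Fin 4) K, G.IsSymm → (∀ v, v ⬝ᵥ G *ᵥ v = 0 → v = 0) →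
  ∀ x : BB G, x ≠ 0 → IsUnit x ∨ IsSquare G.det

def stTAB : Prop := ∀ (G : Matrix (Fin 4) (Fin 4) K) (ν : K) (u : Fin 4 → Fin 4 → K)
  (h : Fin 4 → ℤ) (l : ℤ) (c : ℂ), G.IsSymm → G.det ≠ 0 → Alg G → ν ≠ 0 → c ≠ 0 →
    (Matrix.of u).det = algebraMap ℂ K c * ν ^ 2 → 2 * ∑ i, h i + 4 * l = 6 →
      (∀ i j, ν⁻¹ * (u i ⬝ᵥ G *ᵥ u j) ∈ AA (h i + h j + l)) → Tab G ν u h l

/-- the facts on the fibration used in the steps on lattices over the order -/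
structure Ctx (C : Cx) : Prop where
  symm : C.G.IsSymm
  det0 : C.G.det ≠ 0
  det_eq : C.G.det = ev C.M.det
  nsq : ¬ IsSquare C.G.det
  hf : Hg 6 C.M.det
  prime : Prime C.M.det
  degM : ∀ i j, Hg (1 + wz i + wz j) (C.M i j)
  alg : Alg C.G
  snd : Snd C.G
  tab : Tab C.G 1 e4 wz 1
  div : ∀ x : C.B, x ≠ 0 → IsUnit x

def stCTX : Prop := ∀ C : Cx, Ctx C

/-! Lattices over the order -/

def stORT : Prop := ∀ (C : Cx), Ctx C → ∀ Z : Finset (Fin 3 → ℂ), (∀ z ∈ Z, z ≠ 0) →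
  ∃ (I J : C.B) (i j : ℕ) (a b : P3), I ∈ C.O i ∧ J ∈ C.O j ∧ I * J = -(J * I) ∧
    I * I = algebraMap K C.B (ev a) ∧ J * J = algebraMap K C.B (ev b) ∧
      Hg (2 * i) a ∧ Hg (2 * j) b ∧ ∀ z ∈ Z, eval z a ≠ 0 ∧ eval z b ≠ 0

def stFIB : Prop := ∀ (ι : Type) [Fintype ι] [DecidableEq ι] (a : ℕ) (I J D : Matrix ι ι ℂ)
  (α β s : ℂ), Fintype.card ι = 8 * a → α ≠ 0 → β ≠ 0 → I * I = α • (1 : Matrix ι ι ℂ) →
    J * J = β • (1 : Matrix ι ι ℂ) → I * J = -(J * I) → D * I = I * D → D * J = J * D →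
      D * D = s • (1 : Matrix ι ι ℂ) → (s ≠ 0 → D.trace = 0) →
        (s = 0 → ∀ w, D *ᵥ w = 0 → ∃ w', w = D *ᵥ w') →
          ∃ w : Fin a → ι → ℂ, LinearIndependent ℂ fun t : Fin 8 × Fin a =>
            (![1, I, J, I * J, D, D * I, D * J, D * (I * J)] t.1) *ᵥ w t.2

def stLF : Prop := ∀ (C : Cx), Ctx C → ∀ (X : OL C) (a : ℕ), rk X = 8 * a →
  ∀ Z : Finset (Fin 3 → ℂ), (∀ z ∈ Z, z ≠ 0) →
    ∃ (v : Fin a → X.V) (h : Fin a → ℤ), ∀ p ∈ Z, OB X p v h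

def stHOM : Prop := ∀ (C : Cx), Ctx C → ∀ X Y : OL C, Lat (HomF X Y) ∧
  8 * finrank K (X.V →ₗ[C.B] Y.V) = rk X * rk Y ∧ 8 ∣ rk X ∧
    (rk X = 8 → Nonempty (X.V ≃ₗ[C.B] C.B))

def stSUM : Prop := ∀ (C : Cx), Ctx C → ∀ X Y : OL C, ∃ S : OL C, rk S = rk X + rk Y ∧
  c1 S.F = c1 X.F + c1 Y.F ∧ ∀ W, eu W S = eu W X + eu W Y

def stISO : Prop := ∀ (C : Cx), Ctx C → (∀ m, ∃ P : OL C, IsO P m) ∧ ∀ (P : OL C) (m : ℤ),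
  IsO P m → rk P = 8 ∧ HP P.F 8 (-12 - 8 * m) (4 * m ^ 2 + 2) ∧ ∀ Y, eu P Y = chi (sh Y.F m)

def stO1 : Prop := ∀ (C : Cx), Ctx C → ∃ P : OL C, rk P = 8 ∧ HP P.F 8 (-8) 3

def stSYMM : Prop := ∀ (C : Cx), Ctx C → ∀ X Y : OL C, eu X Y = eu Y X

def stH1 : Prop := ∀ (C : Cx), Ctx C → ∀ (X Y : OL C) (a b : ℕ), rk X = 8 * a → rk Y = 8 * b →
  c1 (HomF X Y) = a * c1 Y.F - b * c1 X.F - 12 * a * b

/-- composition with a homomorphism -/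
noncomputable def post {C : Cx} (Y : OL C) {X X' : OL C} (π : X.V →ₗ[C.B] X'.V) :
    (Y.V →ₗ[C.B] X.V) →ₗ[ℂ] (Y.V →ₗ[C.B] X'.V) where
  toFun φ := π ∘ₗ φ
  map_add' _ _ := LinearMap.comp_add _ _ _
  map_smul' c φ := LinearMap.ext fun v => LinearMap.map_smul_of_tower π c (φ v)

def stPTS : Prop := ∀ (C : Cx), Ctx C → ∀ (X X' : OL C) (π : X.V →ₗ[C.B] X'.V),
  (∀ k, ∀ v ∈ X.F k, π v ∈ X'.F k) → (∀ g, HPrime g → ∀ k, ∀ v ∈ X'.F k,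
    LocG (fun j => (X.F j).map (π.restrictScalars ℂ)) g k v) → ∃ μ : ℕ,
      (∀ᶠ k in atTop, finrank ℂ (X'.F k) =
        finrank ℂ ((X.F k).map (π.restrictScalars ℂ)) + 2 * μ) ∧
      ∀ Y : OL C, ∀ᶠ k in atTop, 4 * finrank ℂ (HomF Y X' k) =
        4 * finrank ℂ ((HomF Y X k).map (post Y π)) + rk Y * μ

def stUNI : Prop := ∀ (C : Cx), Ctx C → ∀ (X : OL C) (a : ℕ), rk X = 8 * a → 2 ≤ a →
  ∃ (m : ℤ) (v : X.V), v ∈ X.F m ∧ v ≠ 0 ∧ ∀ (b : C.B) (k : ℤ), b • v ∈ X.F (k + m) → b ∈ C.O k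

def stSTEP : Prop := ∀ (C : Cx), Ctx C → ∀ (X : OL C) (a : ℕ), rk X = 8 * a → 2 ≤ a →
  ∃ (X' P : OL C) (m μ : ℤ), IsO P m ∧ rk X = rk X' + 8 ∧ c1 X.F = c1 X'.F - 12 - 8 * m ∧
    ∀ Y : OL C, 4 * eu Y X = 4 * eu Y P + 4 * eu Y X' - rk Y * μ

def stA1a : Prop := ∀ (C : Cx), Ctx C → ∀ (X : OL C) (φ : X.V ≃ₗ[C.B] C.B),
  ∃ (U : ℤ → Submodule ℂ (Fin 4 → K)) (ν : K) (l : ℤ), ν ≠ 0 ∧
    QL C.M.det U (ν⁻¹ • C.G) l ∧ LocU X φ U ν l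

def stA1b : Prop := ∀ (C : Cx), Ctx C → ∀ (X : OL C) (φ : X.V ≃ₗ[C.B] C.B)
  (U : ℤ → Submodule ℂ (Fin 4 → K)) (ν : K) (l : ℤ), ν ≠ 0 → QL C.M.det U (ν⁻¹ • C.G) l →
    LocU X φ U ν l → c1 X.F = 2 * l - 14 ∧ eu X X = 2 * chi U - l ^ 2 - 3 * l

def stV2 : Prop := ∀ (C : Cx), Ctx C → ∀ (ν : K) (φ : Matrix (Fin 3) (Fin 3) P3)
  (u : Fin 3 → Fin 4 → K) (w : Fin 4 → K), ν ≠ 0 → Ver C.M.det (ν⁻¹ • C.G) φ u w →
    ∃ E : OL C, rk E = 8 ∧ eu E E = 2 ∧ ∃ ζ : Fin 3 → E.V →ₗ[C.B] E.V,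
      (∀ i, ζ i ∈ HomF E E 1) ∧ ∀ i j v, ζ i (ζ j v) + ζ j (ζ i v) = (-2 * ev (φ i j)) • v

def stEV : Prop := ∀ (C : Cx), Ctx C → ∃ Φ : CM C.M → OL C, ∀ (N N' : CM C.M) (k : ℤ),
  finrank ℂ (CHom N N' k) = finrank ℂ (HomF (Φ N) (Φ N') k)

/-- the lattice theorem -/
def stOLM : Prop := ∀ (C : Cx) (ι : Type) [Fintype ι] (X : ι → OL C) (v w : ι → ℤ),
  4 ∣ ∑ i, ∑ j, v i * v j * eu (X i) (X j) → Odd (∑ i, ∑ j, w i * v j * eu (X i) (X j)) → C.Rat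

/-- the final statement of the lattice part -/
def stMAIN : Prop := ∀ (M : Matrix (Fin 4) (Fin 4) P3), M.IsSymm →
  (∀ i j, (M i j).IsHomogeneous (1 + H925.wt i + H925.wt j)) → SmoothForm (H925.cubicOf M) →
  SmoothP M.det → ∀ (ι : Type) [Fintype ι] (N : ι → CM M) (x : ι → ι → ℤ) (v w : ι → ℤ),
    (∀ i j, ∃ R c, HP (CHom (N i) (N j)) R c (x i j)) → 4 ∣ ∑ i, ∑ j, v i * v j * x i j →
      Odd (∑ i, ∑ j, w i * v j * x i j) →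
        H925.NetResult.RationalHypersurface (H925.cubicOf M)

end Vale.Agent.P287Z.L
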