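import Vale.Agent.P287Z.L.Alg2A
import Vale.Agent.P287Z.L.ClB
import Vale.Agent.P287Z.L.Sk

/-!
The structure of the even Clifford algebra of a non-degenerate form in four variables.
-/

namespace Vale.Agent.P287Z.L

open MvPolynomial Module Matrix CliffordAlgebra Vale.Agent.P287 Vale.Agent.P287.Theta

namespace Al2

variable {G : Matrix (Fin 4) (Fin 4) K}

lemma exists_orth (hG : G.IsSymm) : ∃ n : Basis (Fin 4) K (Fin 4 → K),
    (∀ i j, i ≠ j → n i ⬝ᵥ G *ᵥ n j = 0) ∧ (Matrix.of n).det ≠ 0 ∧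
      ∏ i, n i ⬝ᵥ G *ᵥ n i = (Matrix.of n).det ^ 2 * G.det := by
  let _ : Invertible (2 : K) := invertibleOfNonzero two_ne_zero
  obtain ⟨n, hn⟩ := LinearMap.BilinForm.exists_orthogonal_basis (B := Matrix.toBilin' G)
    ⟨fun x y => by rw [RingHom.id_apply, toBilin'_apply', toBilin'_apply', bf_symm hG]⟩
  let n' := n.reindex (finCongr (finrank_fin_fun K (n := 4)))
  have h1 : ∀ i j, i ≠ j → n' i ⬝ᵥ G *ᵥ n' j = 0 := fun i j h => by
    have h2 : Matrix.toBilin' G _ _ = 0 :=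
      hn ((finCongr (finrank_fin_fun K (n := 4))).symm.injective.ne h)
    rw [toBilin'_apply'] at h2
    simpa only [n', Basis.reindex_apply] using h2
  refine ⟨n', h1, ?_, ?_⟩
  · rw [← Pi.basisFun_det_apply]
    exact ((Pi.basisFun K (Fin 4)).isUnit_det n').ne_zero
  · have h2 : Matrix.of n' * G * (Matrix.of n')ᵀ = diagonal fun i => n' i ⬝ᵥ G *ᵥ n' i := by
      ext i j
      have h3 : (Matrix.of n' * G * (Matrix.of n')ᵀ) i j = n' i ⬝ᵥ G *ᵥ n' j := by
        rw [dotProduct_mulVec]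
        rfl
      rw [h3, diagonal_apply]
      split_ifs with h
      · rw [h]
      · exact h1 i j h
    rw [← det_diagonal, ← h2, det_mul, det_mul, det_transpose]
    ring

lemma ind (S : Submodule K (BB G)) (h1 : 1 ∈ S) (h : ∀ u v, ∀ x ∈ S, mm G u v * x ∈ S) :
    S = ⊤ := by
  rw [eq_top_iff]
  intro x _
  have key : ∀ y (hy : y ∈ evenOdd (qf4 G) 0), ∃ z ∈ S, inc G z = y := by
    intro y hy
    induction y, hy using even_induction with
    | algebraMap r =>
      exact ⟨r • 1, S.smul_mem r h1, by rw [map_smul, map_one, Algebra.algebraMap_eq_smul_one]⟩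
    | add a b _ _ ha hb =>
      obtain ⟨a', a1, rfl⟩ := ha
      obtain ⟨b', b1, rfl⟩ := hb
      exact ⟨a' + b', S.add_mem a1 b1, map_add _ _ _⟩
    | ι_mul_ι_mul u v a _ ha =>
      obtain ⟨a', a1, rfl⟩ := ha
      exact ⟨mm G u v * a', h u v _ a1, by rw [map_mul, inc_mm]⟩
  obtain ⟨z, hz, h2⟩ := key _ (inc_mem x)
  rwa [← inc_inj h2]

lemma dl_eq (u : Fin 4 → Fin 4 → K) : dl G u = (Matrix.of u).det • del G :=
  dlg_eq 6⁻¹ (wd G) wd_self wd_swap u

/-- the trace of the left multiplication -/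
noncomputable def tr (x : BB G) : K := LinearMap.trace K (BB G) (LinearMap.mulLeft K x)

lemma tr_comm (x y : BB G) : tr (x * y) = tr (y * x) := by
  rw [tr, tr, LinearMap.mulLeft_mul, LinearMap.mulLeft_mul]
  exact LinearMap.trace_mul_comm K (LinearMap.mulLeft K x) (LinearMap.mulLeft K y)

lemma tr_smul (c : K) (x : BB G) : tr (c • x) = c * tr x :=
  (LinearMap.trace K (BB G) ∘ₗ LinearMap.mul K (BB G)).map_smul c x

lemma tr_anti {y z z' : BB G} {c : K} (hc : c ≠ 0) (h1 : z * z' = c • 1) (h2 : z' * z = c • 1)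
    (h : y * z = -(z * y)) : tr y = 0 := by
  have h3 := tr_comm (y * z) z'
  rw [mul_assoc, h1, mul_smul_comm, mul_one, h, mul_neg, ← mul_assoc, h2, smul_mul_assoc, one_mul,
    ← neg_smul, tr_smul, tr_smul, neg_mul, eq_neg_iff_add_eq_zero, ← two_mul] at h3
  simpa [hc] using h3

lemma exists_rho (v : Fin 4 → K) : ∃ ρ : BB G →ₗ[K] BB G,
    ∀ x, inc G (ρ x) = ι (qf4 G) v * (inc G x * ι (qf4 G) v) := by
  have h : ∀ x : BB G, ι (qf4 G) v * (inc G x * ι (qf4 G) v) ∈ evenOdd (qf4 G) 0 := fun x => by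
    have h1 := SetLike.mul_mem_graded (ι_mem_evenOdd_one (qf4 G) v)
      (SetLike.mul_mem_graded (inc_mem x) (ι_mem_evenOdd_one (qf4 G) v))
    rwa [show (1 + (0 + 1) : ZMod 2) = 0 from rfl] at h1
  choose r hr using fun x => exists_inc (h x)
  refine ⟨⟨⟨r, fun x y => inc_inj ?_⟩, fun c x => inc_inj ?_⟩, hr⟩
  · simp only [hr, map_add, add_mul, mul_add]
  · simp only [hr, map_smul, smul_mul_assoc, mul_smul_comm, RingHom.id_apply]

/-- an orthogonal basis -/
structure Ort (G : Matrix (Fin 4) (Fin 4) K) (n : Basis (Fin 4) K (Fin 4 → K)) : Prop where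
  s : G.IsSymm
  d : G.det ≠ 0
  n1 : ∀ i j, i ≠ j → n i ⬝ᵥ G *ᵥ n j = 0
  n2 : (Matrix.of n).det ≠ 0
  n3 : ∏ i, n i ⬝ᵥ G *ᵥ n i = (Matrix.of n).det ^ 2 * G.det

variable {n : Basis (Fin 4) K (Fin 4 → K)} (H : Ort G n)
include H

lemma Ort.q0 (i : Fin 4) : n i ⬝ᵥ G *ᵥ n i ≠ 0 :=
  Finset.prod_ne_zero_iff.1 (H.n3 ▸ mul_ne_zero (pow_ne_zero 2 H.n2) H.d) i (Finset.mem_univ i)

lemma Ort.rank : finrank K (BB G) = 8 := H100.finrank_even two_ne_zero (qf4 G) (n 0)
  (by rw [qf4_apply]; exact H.q0 0) (n := 3) (finrank_fin_fun K)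

lemma Ort.hx (i j : Fin 4) (h : i ≠ j) : ι (qf4 G) (n j) * ι (qf4 G) (n i) =
    -(ι (qf4 G) (n i) * ι (qf4 G) (n j)) := by
  rw [eq_neg_iff_add_eq_zero, iota_swap H.s, H.n1 j i h.symm, mul_zero, map_zero]

omit H in
lemma hq (v : Fin 4 → K) : ι (qf4 G) v * ι (qf4 G) v = (v ⬝ᵥ G *ᵥ v) • 1 := by
  rw [iota_sq, Algebra.algebraMap_eq_smul_one]

lemma Ort.w1 (i j : Fin 4) (h : i ≠ j) : wd G (n i) (n j) = mm G (n i) (n j) := by
  rw [wd_eq H.s, H.n1 i j h, map_zero, sub_zero]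

lemma Ort.d1 : mm G (n 0) (n 1) * mm G (n 2) (n 3) = (Matrix.of n).det • del G := by
  obtain ⟨f1, -⟩ := anti_facts (F := K) (fun i => ι (qf4 G) (n i))
    (fun i => n i ⬝ᵥ G *ᵥ n i) (fun i => hq _) H.hx
  rw [← dl_eq, dl, H.w1 0 1 (by decide), H.w1 0 2 (by decide), H.w1 0 3 (by decide),
    H.w1 1 2 (by decide), H.w1 1 3 (by decide), H.w1 2 3 (by decide)]
  apply inc_inj
  simp only [map_smul, map_add, map_sub, map_mul, inc_mm]
  rw [f1, smul_smul, inv_mul_cancel₀ (by norm_num), one_smul]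

lemma Ort.d2 : inc G (del G) = (Matrix.of n).det⁻¹ •
    (ι (qf4 G) (n 0) * ι (qf4 G) (n 1) * (ι (qf4 G) (n 2) * ι (qf4 G) (n 3))) := by
  rw [← inc_mm, ← inc_mm, ← map_mul, H.d1, map_smul, smul_smul, inv_mul_cancel₀ H.n2, one_smul]

lemma Ort.anti (v : Fin 4 → K) :
    inc G (del G) * ι (qf4 G) v = -(ι (qf4 G) v * inc G (del G)) := by
  obtain ⟨-, f2, -⟩ := anti_facts (F := K) (fun i => ι (qf4 G) (n i))
    (fun i => n i ⬝ᵥ G *ᵥ n i) (fun i => hq _) H.hx
  have h : LinearMap.mulLeft K (inc G (del G)) ∘ₗ ι (qf4 G) =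
      -(LinearMap.mulRight K (inc G (del G)) ∘ₗ ι (qf4 G)) := n.ext fun i => by
    simp only [LinearMap.comp_apply, LinearMap.neg_apply, LinearMap.mulLeft_apply,
      LinearMap.mulRight_apply, H.d2, smul_mul_assoc, mul_smul_comm, f2, smul_neg]
  exact LinearMap.congr_fun h v

lemma Ort.cen (x : BB G) : del G * x = x * del G := by
  have h := ind (LinearMap.eqLocus (LinearMap.mulLeft K (del G)) (LinearMap.mulRight K (del G)))
    (by simp) fun u v y hy => by
      have h1 : del G * y = y * del G := hy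
      have h2 : del G * mm G u v = mm G u v * del G := inc_inj (by
        rw [map_mul, map_mul, inc_mm, ← mul_assoc, H.anti, neg_mul, mul_assoc, H.anti, mul_neg,
          neg_neg, mul_assoc])
      change del G * (mm G u v * y) = mm G u v * y * del G
      rw [← mul_assoc, h2, mul_assoc, h1, mul_assoc]
  exact (h ▸ Submodule.mem_top : x ∈ LinearMap.eqLocus _ _)

lemma Ort.sq : del G * del G = algebraMap K (BB G) G.det := by
  obtain ⟨-, -, f3, -⟩ := anti_facts (F := K) (fun i => ι (qf4 G) (n i))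
    (fun i => n i ⬝ᵥ G *ᵥ n i) (fun i => hq _) H.hx
  apply inc_inj
  rw [map_mul, H.d2, smul_mul_smul_comm, f3, smul_smul, H.n3, AlgHom.commutes,
    Algebra.algebraMap_eq_smul_one]
  congr 1
  have := H.n2
  field_simp

lemma Ort.tau_del : tau G (del G) = del G := by
  obtain ⟨-, -, -, f4⟩ := anti_facts (F := K) (fun i => ι (qf4 G) (n i))
    (fun i => n i ⬝ᵥ G *ᵥ n i) (fun i => hq _) H.hx
  apply inc_inj
  rw [inc_tau, H.d2, map_smul]
  simp only [reverse.map_mul, reverse_ι]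
  rw [f4]

omit H in
lemma lam_tr (x : BB G) : lam G x = (8 * G.det)⁻¹ * tr (del G * x) := rfl

lemma Ort.lam_comm (x y : BB G) : lam G (x * y) = lam G (y * x) := by
  rw [lam_tr, lam_tr, ← mul_assoc (del G), tr_comm, ← mul_assoc, ← H.cen, mul_assoc (del G)]

lemma Ort.lam_one : lam G 1 = 0 := by
  obtain ⟨ρ, hρ⟩ := exists_rho (G := G) (n 0)
  rw [lam_tr, mul_one, tr, trace_anti _ ρ (mul_ne_zero (H.q0 0) (H.q0 0))
    (LinearMap.ext fun x => inc_inj ?_) (LinearMap.ext fun x => inc_inj ?_), mul_zero]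
  · rw [Module.End.mul_apply, hρ, hρ, mul_assoc, mul_assoc, hq, ← mul_assoc, hq]
    simp [smul_smul]
  · simp only [Module.End.mul_apply, LinearMap.neg_apply, LinearMap.mulLeft_apply, hρ, map_neg,
      map_mul]
    rw [← mul_assoc (inc G (del G)) (ι (qf4 G) (n 0)), H.anti, neg_mul, neg_neg, mul_assoc,
      mul_assoc]

lemma Ort.lam_del : lam G (del G) = 1 := by
  rw [lam_tr, H.sq, Algebra.algebraMap_eq_smul_one, tr_smul, tr, LinearMap.mulLeft_one,
    LinearMap.trace_id, H.rank]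
  have := H.d
  field_simp
  norm_num

lemma Ort.t0 (c : BB G) (hc : ∀ x, c * x = x * c) (i j : Fin 4) (h : i ≠ j) :
    tr (c * mm G (n i) (n j)) = 0 := by
  obtain ⟨k, h1, h2⟩ : ∃ k, k ≠ i ∧ k ≠ j := by
    revert i j
    decide
  refine tr_anti (z := mm G (n i) (n k)) (z' := mm G (n k) (n i))
    (mul_ne_zero (H.q0 i) (H.q0 k)) ?_ ?_ ?_
  · rw [mm_mid, mm_self, Algebra.algebraMap_eq_smul_one, smul_smul, mul_comm]
  · rw [mm_mid, mm_self, Algebra.algebraMap_eq_smul_one, smul_smul]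
  · have h3 := mm_mid' H.s (n i) (n j) (n i) (n k)
    have h4 := mm_mid' H.s (n i) (n k) (n i) (n j)
    have h5 := mm_swap H.s (n j) (n k)
    rw [H.n1 _ _ h.symm, mul_zero, zero_smul, mm_self] at h3
    rw [H.n1 _ _ h1, mul_zero, zero_smul, mm_self] at h4
    rw [H.n1 _ _ h2.symm, mul_zero, map_zero] at h5
    rw [← mul_assoc, ← hc (mm G (n i) (n k)), mul_assoc, mul_assoc, ← mul_neg,
      eq_neg_of_add_eq_zero_left h3, eq_neg_of_add_eq_zero_left h4,
      eq_neg_of_add_eq_zero_left h5]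
    simp only [mul_neg, neg_neg]

lemma Ort.lam_alg (c : K) : lam G (algebraMap K (BB G) c) = 0 := by
  rw [Algebra.algebraMap_eq_smul_one, map_smul, H.lam_one, smul_zero]

lemma Ort.lam_mm (u v : Fin 4 → K) : lam G (mm G u v) = 0 := by
  have h : (mm G).compr₂ (lam G) = 0 := LinearMap.ext_basis n n fun i j => by
    change lam G (mm G (n i) (n j)) = 0
    by_cases h : i = j
    · rw [h, mm_self, H.lam_alg]
    · rw [lam_tr, H.t0 _ H.cen i j h, mul_zero]
  exact LinearMap.congr_fun₂ h u v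

lemma Ort.lam_del_wd (u v : Fin 4 → K) : lam G (del G * wd G u v) = 0 := by
  have h : (wd G).compr₂ (lam G ∘ₗ LinearMap.mulLeft K (del G)) = 0 :=
    LinearMap.ext_basis n n fun i j => by
      change lam G (del G * wd G (n i) (n j)) = 0
      by_cases h : i = j
      · rw [h, wd_self, mul_zero, map_zero]
      · rw [lam_tr, H.w1 i j h, ← mul_assoc (del G), H.sq,
          H.t0 _ (fun x => Algebra.commutes _ x) i j h, mul_zero]
  exact LinearMap.congr_fun₂ h u v

lemma Ort.lam_four (a b c d : Fin 4 → K) :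
    lam G (mm G a b * mm G c d) = (Matrix.of ![a, b, c, d]).det := by
  have sw : ∀ a b, mm G a b = algebraMap K (BB G) (2 * (a ⬝ᵥ G *ᵥ b)) - mm G b a := fun a b =>
    eq_sub_of_add_eq (mm_swap H.s a b)
  have h12 : ∀ a b d, lam G (mm G a b * mm G b d) = 0 := fun a b d => by
    rw [mm_mid, map_smul, H.lam_mm, smul_zero]
  obtain ⟨t, ht⟩ := four_eq (lam G) (mm G)
    (fun a c d => by rw [mm_self, ← Algebra.smul_def, map_smul, H.lam_mm, smul_zero])
    (fun a b d => by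
      rw [sw a b, sub_mul, ← Algebra.smul_def, map_sub, map_smul, H.lam_mm, h12, smul_zero,
        sub_zero])
    (fun a b c => by rw [H.lam_comm, h12]) h12
    (fun a b c => by
      rw [sw c b, mul_sub, ← Algebra.commutes, ← Algebra.smul_def, map_sub, map_smul, H.lam_mm,
        h12, smul_zero, sub_zero])
    (fun a b c => by rw [mm_self, ← Algebra.commutes, ← Algebra.smul_def, map_smul, H.lam_mm,
      smul_zero])
  have t1 : t = 1 := by
    have h := ht n
    rw [H.d1, map_smul, H.lam_del, smul_eq_mul] at h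
    exact (mul_left_cancel₀ H.n2 h).symm
  exact (ht ![a, b, c, d]).trans (by rw [t1, mul_one])

lemma Ort.li (ν : K) (u : Fin 4 → Fin 4 → K) (hν : ν ≠ 0) (hu : (Matrix.of u).det ≠ 0) :
    LinearIndependent K (ob G ν u) := by
  refine li_of (lam G) (del G) (fun i j => ν⁻¹ • wd G (u i) (u j))
    (mul_ne_zero (mul_ne_zero (inv_ne_zero hν) (inv_ne_zero hν)) hu) H.lam_one H.lam_del
    (by rw [H.sq, H.lam_alg]) (fun i j => ?_) (fun i j => ?_) (fun i j => ?_) fun i j k m => ?_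
  · rw [map_smul, wd_eq H.s, map_sub, H.lam_mm, H.lam_alg, sub_zero, smul_zero]
  · rw [mul_smul_comm, map_smul, H.lam_del_wd, smul_zero]
  · rw [smul_mul_assoc, map_smul, H.lam_comm, H.lam_del_wd, smul_zero]
  · rw [smul_mul_smul_comm, map_smul, wd_eq H.s, wd_eq H.s, sub_mul, mul_sub, mul_sub,
      ← Algebra.commutes, ← map_mul, ← Algebra.smul_def, ← Algebra.smul_def]
    simp only [map_sub, map_smul, H.lam_mm, H.lam_alg, H.lam_four, sub_zero, det_eps,
      smul_eq_mul]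
    ring

end Al2

theorem alg2 : stALG := by
  intro G hG h0
  obtain ⟨n, n1, n2, n3⟩ := Al2.exists_orth hG
  have H : Al2.Ort G n := ⟨hG, h0, n1, n2, n3⟩
  exact ⟨H.rank, H.cen, H.sq, H.anti, Al2.dl_eq, H.tau_del, H.lam_comm, H.lam_one, H.lam_del,
    H.lam_mm, H.lam_four, H.lam_del_wd, H.li, Al2.ind⟩

end Vale.Agent.P287Z.L
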