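import Mathlib

/-!
Alternating forms in four vectors, anticommuting elements, traces.
-/

set_option linter.unusedSimpArgs false

namespace Vale.Agent.P287Z.L.Al2

open Module Matrix

variable {F N R : Type} [Field F] [AddCommGroup N] [Module F N] [Ring R] [Algebra F R]

lemma alt4 (f : MultilinearMap F (fun _ : Fin 4 => Fin 4 → F) N)
    (h : ∀ u i j, u i = u j → i ≠ j → f u = 0) (u : Fin 4 → Fin 4 → F) :
    f u = (Matrix.of u).det • f fun i => Pi.single i 1 := by
  rw [← sub_eq_zero, ← Module.forall_dual_apply_eq_zero_iff F]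
  intro φ
  let A : (Fin 4 → F) [⋀^Fin 4]→ₗ[F] N := ⟨f, h⟩
  have h1 := congrArg (fun B : (Fin 4 → F) [⋀^Fin 4]→ₗ[F] F => B u)
    ((φ.compAlternatingMap A).eq_smul_basis_det (Pi.basisFun F (Fin 4)))
  have h2 : ⇑(Pi.basisFun F (Fin 4)) = fun i => Pi.single i 1 := funext fun i => by simp
  simp only [AlternatingMap.smul_apply, Pi.basisFun_det_apply, h2] at h1
  rw [map_sub, map_smul, sub_eq_zero, smul_eq_mul, mul_comm]
  exact h1

/-- the alternating product -/
def dlg (c : F) (w : (Fin 4 → F) →ₗ[F] (Fin 4 → F) →ₗ[F] R) (u : Fin 4 → Fin 4 → F) : R :=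
  c • (w (u 0) (u 1) * w (u 2) (u 3) - w (u 0) (u 2) * w (u 1) (u 3) +
    w (u 0) (u 3) * w (u 1) (u 2) + w (u 1) (u 2) * w (u 0) (u 3) -
    w (u 1) (u 3) * w (u 0) (u 2) + w (u 2) (u 3) * w (u 0) (u 1))

lemma dlg_eq (c : F) (w : (Fin 4 → F) →ₗ[F] (Fin 4 → F) →ₗ[F] R) (h0 : ∀ v, w v v = 0)
    (h1 : ∀ u v, w v u = -w u v) (u : Fin 4 → Fin 4 → F) :
    dlg c w u = (Matrix.of u).det • dlg c w fun i => Pi.single i 1 := by
  refine alt4 (MultilinearMap.mk' (dlg c w) (fun u i x y => ?_) fun u i a x => ?_)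
    (fun u i j h hij => ?_) u
  · fin_cases i <;> simp [dlg, mul_add, add_mul] <;> module
  · fin_cases i <;> simp [dlg] <;> module
  · change dlg c w u = 0
    have k01 := h1 (u 0) (u 1)
    have k02 := h1 (u 0) (u 2)
    have k03 := h1 (u 0) (u 3)
    have k12 := h1 (u 1) (u 2)
    have k13 := h1 (u 1) (u 3)
    have k23 := h1 (u 2) (u 3)
    have a01 : u 1 = u 0 → dlg c w u = 0 := fun h => by simp [dlg, h, h0]
    have a02 : u 2 = u 0 → dlg c w u = 0 := fun h => by simp [dlg, h, h0, k01]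
    have a03 : u 3 = u 0 → dlg c w u = 0 := fun h => by simp [dlg, h, h0, k01, k02]
    have a12 : u 2 = u 1 → dlg c w u = 0 := fun h => by simp [dlg, h, h0]
    have a13 : u 3 = u 1 → dlg c w u = 0 := fun h => by simp [dlg, h, h0, k12]
    have a23 : u 3 = u 2 → dlg c w u = 0 := fun h => by simp [dlg, h, h0]
    fin_cases i <;> fin_cases j <;> first
      | exact absurd rfl hij
      | exact a01 h | exact a01 h.symm | exact a02 h | exact a02 h.symm | exact a03 h
      | exact a03 h.symm | exact a12 h | exact a12 h.symm | exact a13 h | exact a13 h.symm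
      | exact a23 h | exact a23 h.symm

lemma four_eq (l : R →ₗ[F] F) (m : (Fin 4 → F) →ₗ[F] (Fin 4 → F) →ₗ[F] R)
    (h01 : ∀ a c d, l (m a a * m c d) = 0) (h02 : ∀ a b d, l (m a b * m a d) = 0)
    (h03 : ∀ a b c, l (m a b * m c a) = 0) (h12 : ∀ a b d, l (m a b * m b d) = 0)
    (h13 : ∀ a b c, l (m a b * m c b) = 0) (h23 : ∀ a b c, l (m a b * m c c) = 0) :
    ∃ t : F, ∀ u : Fin 4 → Fin 4 → F, l (m (u 0) (u 1) * m (u 2) (u 3)) = (Matrix.of u).det * t := by
  refine ⟨_, fun u => alt4 (MultilinearMap.mk' (fun u : Fin 4 → Fin 4 → F =>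
    l (m (u 0) (u 1) * m (u 2) (u 3))) (fun u i x y => ?_) fun u i a x => ?_)
    (fun u i j h hij => ?_) u⟩
  · fin_cases i <;> simp [mul_add, add_mul]
  · fin_cases i <;> simp
  · change l (m (u 0) (u 1) * m (u 2) (u 3)) = 0
    have a01 : u 1 = u 0 → l (m (u 0) (u 1) * m (u 2) (u 3)) = 0 := fun h => by rw [h, h01]
    have a02 : u 2 = u 0 → l (m (u 0) (u 1) * m (u 2) (u 3)) = 0 := fun h => by rw [h, h02]
    have a03 : u 3 = u 0 → l (m (u 0) (u 1) * m (u 2) (u 3)) = 0 := fun h => by rw [h, h03]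
    have a12 : u 2 = u 1 → l (m (u 0) (u 1) * m (u 2) (u 3)) = 0 := fun h => by rw [h, h12]
    have a13 : u 3 = u 1 → l (m (u 0) (u 1) * m (u 2) (u 3)) = 0 := fun h => by rw [h, h13]
    have a23 : u 3 = u 2 → l (m (u 0) (u 1) * m (u 2) (u 3)) = 0 := fun h => by rw [h, h23]
    fin_cases i <;> fin_cases j <;> first
      | exact absurd rfl hij
      | exact a01 h | exact a01 h.symm | exact a02 h | exact a02 h.symm | exact a03 h
      | exact a03 h.symm | exact a12 h | exact a12 h.symm | exact a13 h | exact a13 h.symm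
      | exact a23 h | exact a23 h.symm

section anti

variable (x : Fin 4 → R) (q : Fin 4 → F) (hq : ∀ i, x i * x i = q i • 1)
  (hx : ∀ i j, i ≠ j → x j * x i = -(x i * x j))

include hq hx in
lemma anti_facts :
    (x 0 * x 1 * (x 2 * x 3) - x 0 * x 2 * (x 1 * x 3) + x 0 * x 3 * (x 1 * x 2) +
      x 1 * x 2 * (x 0 * x 3) - x 1 * x 3 * (x 0 * x 2) + x 2 * x 3 * (x 0 * x 1) =
        (6 : F) • (x 0 * x 1 * (x 2 * x 3))) ∧
    (∀ i, x 0 * x 1 * (x 2 * x 3) * x i = -(x i * (x 0 * x 1 * (x 2 * x 3)))) ∧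
    x 0 * x 1 * (x 2 * x 3) * (x 0 * x 1 * (x 2 * x 3)) = (∏ i, q i) • 1 ∧
    x 3 * x 2 * (x 1 * x 0) = x 0 * x 1 * (x 2 * x 3) := by
  have r : ∀ i j, i ≠ j → ∀ y, x j * (x i * y) = -(x i * (x j * y)) := fun i j h y => by
    rw [← mul_assoc, hx i j h, neg_mul, mul_assoc]
  have s : ∀ i y, x i * (x i * y) = q i • y := fun i y => by
    rw [← mul_assoc, hq, smul_mul_assoc, one_mul]
  have k01 := hx 0 1 (by decide)
  have k02 := hx 0 2 (by decide)
  have k03 := hx 0 3 (by decide)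
  have k12 := hx 1 2 (by decide)
  have k13 := hx 1 3 (by decide)
  have k23 := hx 2 3 (by decide)
  have r01 := r 0 1 (by decide)
  have r02 := r 0 2 (by decide)
  have r03 := r 0 3 (by decide)
  have r12 := r 1 2 (by decide)
  have r13 := r 1 3 (by decide)
  have r23 := r 2 3 (by decide)
  refine ⟨?_, fun i => ?_, ?_, ?_⟩
  · simp only [mul_assoc, k01, k02, k03, k12, k13, k23, r01, r02, r03, r12, r13, r23, mul_neg,
      neg_neg]
    module
  · fin_cases i <;>
      simp [mul_assoc, k01, k02, k03, k12, k13, k23, r01, r02, r03, r12, r13, r23, hq, s]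
  · simp [mul_assoc, k01, k02, k03, k12, k13, k23, r01, r02, r03, r12, r13, r23, hq, s,
      Fin.prod_univ_four, smul_smul, mul_comm, mul_left_comm]
  · simp [mul_assoc, k01, k02, k03, k12, k13, k23, r01, r02, r03, r12, r13, r23]

end anti

lemma trace_anti [CharZero F] [FiniteDimensional F N] (L ρ : Module.End F N) {c : F} (hc : c ≠ 0)
    (h1 : ρ * ρ = c • 1) (h2 : ρ * L = -(L * ρ)) : LinearMap.trace F N L = 0 := by
  have h3 := LinearMap.trace_mul_comm F (L * ρ) ρ
  rw [← mul_assoc, h2, neg_mul, map_neg, mul_assoc, h1, mul_smul_comm, mul_one, map_smul,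
    eq_neg_iff_add_eq_zero, ← two_mul, smul_eq_mul] at h3
  simpa [hc] using h3

/-- signs of permutations -/
def eps (i j k l : Fin 4) : ℤ :=
  (Matrix.of ![Pi.single i 1, Pi.single j 1, Pi.single k 1, Pi.single l 1] :
    Matrix (Fin 4) (Fin 4) ℤ).det

lemma det_eps (u : Fin 4 → Fin 4 → F) (i j k l : Fin 4) :
    (Matrix.of ![u i, u j, u k, u l]).det = eps i j k l * (Matrix.of u).det := by
  rw [eps, Int.cast_det, ← det_mul]
  congr 1
  ext r s
  have h : ∀ a : Fin 4, u a s = ∑ b, ((Pi.single a (1 : ℤ) : Fin 4 → ℤ) b : F) * u b s := by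
    intro a
    simp [Pi.single_apply]
  fin_cases r
  exacts [h i, h j, h k, h l]

/-- the pairs of indices -/
def pa : Fin 6 → Fin 4 × Fin 4 := ![(0, 1), (0, 2), (1, 2), (0, 3), (1, 3), (2, 3)]

lemma eps_pa : ∀ s t : Fin 6, eps (pa s).1 (pa s).2 (pa t).1 (pa t).2 =
    if t = s.rev then ![1, -1, 1, 1, -1, 1] s else 0 := by decide +kernel

lemma li_of (l : R →ₗ[F] F) (δ : R) (w : Fin 4 → Fin 4 → R) {D : F} (hD : D ≠ 0) (h1 : l 1 = 0)
    (h2 : l δ = 1) (h3 : l (δ * δ) = 0) (h4 : ∀ i j, l (w i j) = 0)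
    (h5 : ∀ i j, l (δ * w i j) = 0) (h6 : ∀ i j, l (w i j * δ) = 0)
    (h7 : ∀ i j k m, l (w i j * w k m) = eps i j k m * D) :
    LinearIndependent F ![1, w 0 1, w 0 2, w 1 2, w 0 3, w 1 3, w 2 3, δ] := by
  rw [Fintype.linearIndependent_iff]
  intro g hg
  have h8 : ∀ y, g 0 * l y + ∑ s : Fin 6, g s.succ.castSucc * l (w (pa s).1 (pa s).2 * y) +
      g 7 * l (δ * y) = 0 := by
    intro y
    have h9 := congrArg (fun z => l (z * y)) hg
    simp only [Fin.sum_univ_eight, add_mul, smul_mul_assoc, map_add, map_smul, smul_eq_mul,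
      zero_mul, map_zero] at h9
    rw [Fin.sum_univ_six, ← h9]
    simp [pa]
    ring
  have h9 : ∀ t : Fin 6, g t.rev.succ.castSucc = 0 := by
    intro t
    have h10 := h8 (w (pa t).1 (pa t).2)
    rw [h4, h5, mul_zero, mul_zero, zero_add, add_zero, Finset.sum_eq_single t.rev, h7, eps_pa,
      if_pos (Fin.rev_rev t).symm] at h10
    · refine (mul_eq_zero.1 h10).resolve_right (mul_ne_zero ?_ hD)
      fin_cases t <;> simp
    · intro s _ hs
      rw [h7, eps_pa, if_neg, Int.cast_zero, zero_mul, mul_zero]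
      rintro rfl
      exact hs (Fin.rev_rev s).symm
    · intro h
      exact absurd (Finset.mem_univ _) h
  have h10 := h8 1
  have h11 := h8 δ
  simp only [h1, h2, h3, h4, h6, mul_one, mul_zero, Finset.sum_const_zero, add_zero,
    zero_add] at h10 h11
  intro i
  fin_cases i
  exacts [h11, h9 5, h9 4, h9 3, h9 2, h9 1, h9 0, h10]

end Vale.Agent.P287Z.L.Al2
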