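import Vale.Agent.P287Z.L.BggA
import Mathlib.LinearAlgebra.TensorProduct.Tower
import Mathlib.RingTheory.Flat.Basic
import Mathlib.LinearAlgebra.Matrix.NonsingularInverse
import Mathlib.LinearAlgebra.CliffordAlgebra.Even

/-!
The complex attached to a Clifford module with coefficients in a division algebra.
-/

namespace Vale.Agent.P287Z.L.Bgg

open Module Submodule TensorProduct
open Filter (atTop eventually_atTop)
open TensorProduct.AlgebraTensorModule (lTensor rTensor)

theorem ring_calc {F E : Type} [Field F] [Ring E] [Algebra F E] (h2 : (2 : F) ≠ 0)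
    (γ T : Fin 3 → E) (s Y : E) (ψ : Matrix (Fin 3) (Fin 3) F)
    (hγ : ∀ a b, γ a * γ b + γ b * γ a = (2 * ψ a b) • (1 : E)) (hγs : ∀ a, γ a * s + s * γ a = 0)
    (hs : s * s = 1) (Tγ : ∀ a b, T a * γ b = γ b * T a) (TT : ∀ a b, T a * T b = T b * T a)
    (Ts : ∀ a, T a * s = s * T a) (TY : ∀ a, T a * Y = Y * T a) (Yγ : ∀ a, Y * γ a = γ a * Y)
    (Ys : Y * s = s * Y) (YY : (2 : F) • (Y * Y) = -∑ b, ∑ a, (2 * ψ b a) • (T a * T b))
    (d : E) (hd : d = ∑ a, γ a * T a + s * Y) :
    d * d = 0 ∧ (∀ b, γ b * d + d * γ b = ∑ a, (2 * ψ b a) • T a) ∧ ∀ a, T a * d = d * T a := by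
  obtain ⟨A, hA⟩ : ∃ A, A = ∑ a, γ a * T a := ⟨_, rfl⟩
  rw [← hA] at hd
  have a1 : ∀ b, γ b * A + A * γ b = ∑ a, (2 * ψ b a) • T a := fun b => by
    rw [hA, Finset.mul_sum, Finset.sum_mul, ← Finset.sum_add_distrib]
    refine Finset.sum_congr rfl fun a _ => ?_
    rw [mul_assoc, Tγ, ← mul_assoc, ← mul_assoc, ← add_mul, hγ, smul_mul_assoc, one_mul]
  have a2 : ∀ b, T b * A = A * T b := fun b => by
    rw [hA, Finset.mul_sum, Finset.sum_mul]
    refine Finset.sum_congr rfl fun a _ => ?_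
    rw [← mul_assoc, Tγ, mul_assoc, TT, mul_assoc]
  have a3 : A * s + s * A = 0 := by
    rw [hA, Finset.mul_sum, Finset.sum_mul, ← Finset.sum_add_distrib]
    refine Finset.sum_eq_zero fun a _ => ?_
    rw [mul_assoc, Ts, ← mul_assoc, ← mul_assoc, ← add_mul, hγs, zero_mul]
  have a4 : Y * A = A * Y := by
    rw [hA, Finset.mul_sum, Finset.sum_mul]
    refine Finset.sum_congr rfl fun a _ => ?_
    rw [← mul_assoc, Yγ, mul_assoc, ← TY, mul_assoc]
  have a5 : (2 : F) • (A * A) = ∑ b, ∑ a, (2 * ψ b a) • (T a * T b) := by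
    have e : ∑ b, (γ b * A + A * γ b) * T b = A * A + A * A := by
      simp only [add_mul, Finset.sum_add_distrib, mul_assoc]
      rw [← Finset.mul_sum, ← hA]
      congr 1
      simp only [← a2, ← mul_assoc]
      rw [← Finset.sum_mul, ← hA]
    rw [two_smul, ← e]
    refine Finset.sum_congr rfl fun b _ => ?_
    rw [a1, Finset.sum_mul]
    simp only [smul_mul_assoc]
  refine ⟨?_, fun b => ?_, fun a => ?_⟩
  · have e1 : A * A + Y * Y = 0 := by
      refine (smul_eq_zero.1 ?_).resolve_left h2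
      rw [smul_add, a5, YY, add_neg_cancel]
    have e2 : s * Y * (s * Y) = Y * Y := by
      rw [mul_assoc, ← mul_assoc Y, Ys, ← mul_assoc, ← mul_assoc, hs, one_mul]
    have e3 : A * (s * Y) + s * Y * A = 0 := by
      rw [mul_assoc, a4, ← mul_assoc, ← mul_assoc, ← add_mul, a3, zero_mul]
    rw [hd, add_mul, mul_add, mul_add, e2]
    calc _ = A * A + Y * Y + (A * (s * Y) + s * Y * A) := by abel
      _ = 0 := by rw [e1, e3, add_zero]
  · have e : γ b * (s * Y) + s * Y * γ b = 0 := by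
      rw [mul_assoc, Yγ, ← mul_assoc, ← mul_assoc, ← add_mul, hγs, zero_mul]
    rw [hd, mul_add, add_mul, ← a1]
    calc _ = γ b * A + A * γ b + (γ b * (s * Y) + s * Y * γ b) := by abel
      _ = _ := by rw [e, add_zero]
  · rw [hd, mul_add, add_mul, a2, ← mul_assoc, Ts, mul_assoc, TY, mul_assoc]

theorem homot {F E : Type} [Field F] [Ring E] [Algebra F E] (h2 : (2 : F) ≠ 0)
    (γ T : Fin 3 → E) (d : E) (ψ : Matrix (Fin 3) (Fin 3) F) (hψ : ψ.det ≠ 0)
    (h : ∀ b, γ b * d + d * γ b = ∑ a, (2 * ψ b a) • T a) (a : Fin 3) :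
    T a = (∑ b, (2⁻¹ * ψ⁻¹ a b) • γ b) * d + d * ∑ b, (2⁻¹ * ψ⁻¹ a b) • γ b := by
  have e := Matrix.nonsing_inv_mul ψ (IsUnit.mk0 _ hψ)
  rw [Finset.mul_sum, Finset.sum_mul, ← Finset.sum_add_distrib]
  simp only [smul_mul_assoc, mul_smul_comm, ← smul_add, h, Finset.smul_sum, smul_smul]
  rw [Finset.sum_comm]
  have e2 : ∀ c, ∑ b, (2⁻¹ * ψ⁻¹ a b * (2 * ψ b c)) • T c = (1 : Matrix _ _ F) a c • T c := by
    intro c
    rw [← Finset.sum_smul, ← e, Matrix.mul_apply]
    congr 1
    exact Finset.sum_congr rfl fun b _ => by field_simp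
  simp only [e2, Matrix.one_apply, ite_smul, one_smul, zero_smul, Finset.sum_ite_eq,
    Finset.mem_univ, if_true]

theorem dvd_rank {F D V : Type} [Field F] [DivisionRing D] [Algebra F D] [AddCommGroup V]
    [Module F V] [Module D V] [IsScalarTower F D V] (Z : Submodule F V)
    (h : ∀ y : D, ∀ v ∈ Z, y • v ∈ Z) : finrank F D ∣ finrank F Z := by
  let Z' : Submodule D V := ⟨Z.toAddSubmonoid, fun y v hv => h y v hv⟩
  have e : Z = Z'.restrictScalars F := Submodule.ext fun _ => Iff.rfl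
  rw [e, ((restrictScalarsEquiv F D V Z').restrictScalars F).finrank_eq]
  exact ⟨_, (Module.finrank_mul_finrank F D Z').symm⟩

section bc

variable {R : Type} (F D : Type) {W : Type} [Field R] [Field F] [Algebra R F] [Ring D]
  [Algebra F D] [Algebra R D] [IsScalarTower R F D] [AddCommGroup W] [Module R W]

/-- the extension of the scalars of a subspace -/
noncomputable def bc (U : Submodule R W) : Submodule F (D ⊗[R] W) :=
  LinearMap.range (lTensor F D U.subtype)

variable {F D}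

theorem tmul_mem {U : Submodule R W} (x : D) {w : W} (hw : w ∈ U) : x ⊗ₜ[R] w ∈ bc F D U :=
  ⟨x ⊗ₜ ⟨w, hw⟩, rfl⟩

theorem bc_ind {U : Submodule R W} {P : D ⊗[R] W → Prop} (h0 : P 0)
    (h1 : ∀ x, ∀ w ∈ U, P (x ⊗ₜ w)) (h2 : ∀ u v, P u → P v → P (u + v)) :
    ∀ v ∈ bc F D U, P v := by
  rintro _ ⟨y, rfl⟩
  induction y with
  | zero => rw [map_zero]; exact h0
  | tmul x w => exact h1 x w w.2
  | add u v hu hv => rw [map_add]; exact h2 _ _ hu hv

theorem bc_le {U : Submodule R W} {S : Submodule F (D ⊗[R] W)} (f : End F (D ⊗[R] W))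
    (h : ∀ x, ∀ w ∈ U, f (x ⊗ₜ w) ∈ S) : ∀ v ∈ bc F D U, f v ∈ S :=
  bc_ind (by rw [map_zero]; exact S.zero_mem) h fun u v hu hv => by
    rw [map_add]; exact S.add_mem hu hv

theorem bc_bot : bc F D (⊥ : Submodule R W) = ⊥ :=
  eq_bot_iff.2 (bc_le (S := ⊥) 1 fun x w hw => by simp [(mem_bot R).1 hw])

theorem bc_sup (U U' : Submodule R W) (g : End R W) :
    bc F D (U ⊔ U'.map g) = bc F D U ⊔ (bc F D U').map (lTensor F D g) := by
  refine le_antisymm (bc_le 1 fun x w hw => ?_) (sup_le (bc_le 1 fun x w hw => ?_) ?_)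
  · obtain ⟨u, hu, _, ⟨u', hu', rfl⟩, rfl⟩ := mem_sup.1 hw
    rw [End.one_apply, tmul_add]
    exact add_mem_sup (tmul_mem x hu) ⟨_, tmul_mem x hu', rfl⟩
  · exact tmul_mem x (mem_sup_left hw)
  · rintro _ ⟨v, hv, rfl⟩
    exact bc_le _ (fun x w hw => tmul_mem x (mem_sup_right (mem_map_of_mem hw))) v hv

theorem bc_rank (U : Submodule R W) : finrank F (bc F D U) = finrank F D * finrank R U := by
  have h : Function.Injective (lTensor F D U.subtype) :=
    Module.Flat.lTensor_preserves_injective_linearMap (M := D) U.subtype U.injective_subtype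
  rw [bc, LinearMap.finrank_range_of_inj h, Module.finrank_tensorProduct]

theorem bc_fd [FiniteDimensional F D] (U : Submodule R W) [FiniteDimensional R U] :
    FiniteDimensional F (bc F D U) := by
  have : Module.Finite F (D ⊗[R] U) :=
    Module.Finite.of_basis ((Module.finBasis F D).tensorProduct (Module.finBasis R U))
  exact Module.Finite.range _

theorem bc_nxt (H N : ℤ → Submodule R W) (g : End R W) :
    nxt (fun k => bc F D (H k)) (fun k => bc F D (N k)) (lTensor F D g) =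
      fun k => bc F D (nxt H N g k) :=
  funext fun _ => (bc_sup _ _ _).symm

theorem bc_reg {H : ℤ → Submodule R W} {t : Fin 3 → End R W} (r : Reg H t) :
    Reg (fun k => bc F D (H k)) fun a => lTensor F D (t a) := by
  have e1 : S1 (fun k => bc F D (H k)) (fun a => lTensor F D (t a)) =
      fun k => bc F D (S1 H t k) := by
    rw [← bc_nxt]
    simp only [bc_bot]
  have e2 : S2 (fun k => bc F D (H k)) (fun a => lTensor F D (t a)) =
      fun k => bc F D (S2 H t k) := by
    rw [← bc_nxt, ← e1]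
  have e3 : S3 (fun k => bc F D (H k)) (fun a => lTensor F D (t a)) =
      fun k => bc F D (S3 H t k) := by
    rw [← bc_nxt, ← e2]
  refine ⟨r.r1.mono fun k hk => ?_, r.r2.mono fun k hk => ?_, r.r3.mono fun k hk => ?_,
    r.top.mono fun k hk => ?_⟩
  · rw [e1]
    simp only [bc_rank, hk]
  · rw [e2, e1]
    simp only [bc_rank, ← mul_add, hk]
  · rw [e3, e2]
    simp only [bc_rank, ← mul_add, hk]
  · simp only [e3, hk]

theorem rmul (f g : End F D) : rTensor R W (f * g) = rTensor R W f * rTensor R W g :=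
  AlgebraTensorModule.ext fun _ _ => rfl

theorem lr (g : End R W) (f : End F D) :
    lTensor F D g * rTensor R W f = rTensor R W f * lTensor F D g :=
  AlgebraTensorModule.ext fun _ _ => rfl

end bc

theorem sum4 {E : Type} [AddCommGroup E] (f : Fin 3 → Fin 3 → Fin 3 → Fin 3 → E) :
    ∑ i, ∑ j, -∑ b, ∑ a, f i j b a = -∑ b, ∑ a, ∑ i, ∑ j, f i j b a := by
  simp only [Finset.sum_neg_distrib]
  refine congrArg _ ?_
  calc _ = ∑ i, ∑ b, ∑ a, ∑ j, f i j b a := Finset.sum_congr rfl fun i _ =>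
        Finset.sum_comm.trans (Finset.sum_congr rfl fun b _ => Finset.sum_comm)
    _ = _ := Finset.sum_comm.trans (Finset.sum_congr rfl fun b _ => Finset.sum_comm)

/-- **the congruence**, abstract form -/
theorem congr8 {R F D W : Type} [Field R] [Field F] [Algebra R F] [DivisionRing D]
    [Algebra F D] [Algebra R D] [IsScalarTower R F D] [AddCommGroup W] [Module R W]
    (h2 : (2 : F) ≠ 0) (hD : finrank F D = 8) (H : ℤ → Submodule R W)
    (fd : ∀ k, FiniteDimensional R (H k)) (t ζ : Fin 3 → End R W) (r : Reg H t)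
    (tH : ∀ a k, ∀ v ∈ H k, t a v ∈ H (k + 1)) (ζH : ∀ a k, ∀ v ∈ H k, ζ a v ∈ H (k + 1))
    (tt : ∀ a b, t a * t b = t b * t a) (tζ : ∀ a b, t a * ζ b = ζ b * t a)
    (κ : Fin 3 → Fin 3 → Fin 3 → Fin 3 → R)
    (ζζ : ∀ i j, ζ i * ζ j + ζ j * ζ i = -∑ b, ∑ a, (2 * κ i j b a) • (t a * t b))
    (z : Fin 3 → F) (ψ : Matrix (Fin 3) (Fin 3) F)
    (hψ : ∀ a b, ψ a b = ∑ i, ∑ j, z i * z j * algebraMap R F (κ i j a b)) (h0 : ψ.det ≠ 0)
    (γ : Fin 3 → End F D) (s : End F D)
    (hγ : ∀ a b, γ a * γ b + γ b * γ a = (2 * ψ a b) • (1 : End F D))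
    (hγs : ∀ a, γ a * s + s * γ a = 0) (hs : s * s = 1)
    (mγ : ∀ a y x, γ a (y * x) = s y * γ a x) (ms : ∀ y x, s (y * x) = s y * s x) :
    ∀ᶠ k in atTop, (8 : ℤ) ∣
      (finrank R (H (k + 2)) : ℤ) - 4 * finrank R (H (k + 1)) + 7 * finrank R (H k) := by
  have : FiniteDimensional F D := Module.finite_of_finrank_pos (by omega)
  obtain ⟨Y, hY⟩ : ∃ Y, Y = ∑ i, z i • lTensor F D (ζ i) := ⟨_, rfl⟩
  have cY : ∀ e : End F (D ⊗[R] W), (∀ i, lTensor F D (ζ i) * e = e * lTensor F D (ζ i)) →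
      Y * e = e * Y := fun e he => by
    rw [hY, Finset.mul_sum, Finset.sum_mul]
    simp only [smul_mul_assoc, mul_smul_comm, he]
  have YY : (2 : F) • (Y * Y) =
      -∑ b, ∑ a, (2 * ψ b a) • (lTensor F D (t a) * lTensor F D (t b)) := by
    have e1 : Y * Y = ∑ i, ∑ j, (z i * z j) • lTensor F D (ζ i * ζ j) := by
      rw [hY, Finset.sum_mul_sum]
      simp only [smul_mul_smul_comm, AlgebraTensorModule.lTensor_mul]
    have e2 : Y * Y = ∑ i, ∑ j, (z i * z j) • lTensor F D (ζ j * ζ i) := by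
      rw [e1, Finset.sum_comm]
      exact Finset.sum_congr rfl fun i _ => Finset.sum_congr rfl fun j _ => by rw [mul_comm (z j)]
    have e3 : (2 : F) • (Y * Y) = ∑ i, ∑ j, (z i * z j) • lTensor F D (ζ i * ζ j + ζ j * ζ i) := by
      rw [two_smul]
      nth_rewrite 1 [e1]
      rw [e2]
      simp only [map_add, smul_add, Finset.sum_add_distrib]
    have e4 : ∀ i j, (z i * z j) • lTensor F D (ζ i * ζ j + ζ j * ζ i) =
        -∑ b, ∑ a, (2 * (z i * z j * algebraMap R F (κ i j b a))) •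
          (lTensor F D (t a) * lTensor F D (t b)) := fun i j => by
      rw [ζζ, map_neg, smul_neg, map_sum, Finset.smul_sum]
      refine congrArg _ (Finset.sum_congr rfl fun b _ => ?_)
      rw [map_sum, Finset.smul_sum]
      refine Finset.sum_congr rfl fun a _ => ?_
      rw [map_smul, AlgebraTensorModule.lTensor_mul, ← algebraMap_smul F (2 * κ i j b a),
        smul_smul, map_mul, map_ofNat, mul_left_comm]
    rw [e3]
    simp only [e4, hψ, Finset.mul_sum, Finset.sum_smul]
    exact sum4 (E := End F (D ⊗[R] W)) _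
  obtain ⟨d, hd⟩ : ∃ d, d = ∑ a, rTensor R W (γ a) * lTensor F D (t a) + rTensor R W s * Y :=
    ⟨_, rfl⟩
  obtain ⟨c1, c2, c3⟩ := ring_calc h2 (fun a => rTensor R W (γ a)) (fun a => lTensor F D (t a))
    (rTensor R W s) Y ψ
    (fun a b => AlgebraTensorModule.ext fun x w => by
      have e := LinearMap.congr_fun (hγ a b) x
      simp only [LinearMap.add_apply, End.mul_apply, LinearMap.smul_apply, End.one_apply] at e ⊢
      simp only [AlgebraTensorModule.rTensor_tmul]
      rw [← add_tmul, e, smul_tmul'])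
    (fun a => by
      rw [← rmul, ← rmul, ← map_add, hγs,
        map_zero])
    (by rw [← rmul, hs, AlgebraTensorModule.rTensor_one])
    (fun a b => lr _ _)
    (fun a b => by rw [← AlgebraTensorModule.lTensor_mul, tt, AlgebraTensorModule.lTensor_mul])
    (fun a => lr _ _)
    (fun a => (cY _ fun i => by
      rw [← AlgebraTensorModule.lTensor_mul, ← tζ, AlgebraTensorModule.lTensor_mul]).symm)
    (fun a => cY _ fun i => lr _ _) (cY _ fun i => lr _ _) YY d hd
  have dt : ∀ x w, d (x ⊗ₜ w) = ∑ a, γ a x ⊗ₜ t a w + ∑ i, z i • (s x ⊗ₜ ζ i w) := fun x w => by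
    simp [hd, hY]
  have c : Cpx (fun k => bc F D (H k)) d (fun a => lTensor F D (t a))
      fun a => ∑ b, (2⁻¹ * ψ⁻¹ a b) • rTensor R W (γ b) :=
    { fd := fun k => have := fd k; bc_fd _
      dd := fun v => LinearMap.congr_fun c1 v
      Td := fun a v => LinearMap.congr_fun (c3 a) v
      TT := fun a b v => by
        rw [← End.mul_apply, ← AlgebraTensorModule.lTensor_mul, tt,
          AlgebraTensorModule.lTensor_mul, End.mul_apply]
      Th := fun a b v => by
        simp only [LinearMap.sum_apply, LinearMap.smul_apply, map_sum, map_smul]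
        exact Finset.sum_congr rfl fun e _ => congrArg _ (LinearMap.congr_fun (lr _ _) v)
      hom := fun a v => LinearMap.congr_fun (homot h2 _ _ d ψ h0 c2 a) v
      dM := fun k => bc_le _ fun x w hw => by
        rw [dt]
        exact add_mem (sum_mem fun a _ => tmul_mem _ (tH a k w hw))
          (sum_mem fun a _ => smul_mem _ _ (tmul_mem _ (ζH a k w hw)))
      TM := fun a k => bc_le _ fun x w hw => tmul_mem _ (tH a k w hw)
      hM := fun a k => bc_le _ fun x w hw => by
        rw [LinearMap.sum_apply]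
        exact sum_mem fun b _ => smul_mem _ _ (tmul_mem _ hw) }
  have ds : ∀ (y : D) v, d (y • v) = s y • d v := fun y v => by
    induction v with
    | zero => simp
    | tmul x w =>
      rw [smul_tmul', smul_eq_mul, dt, dt, smul_add, Finset.smul_sum, Finset.smul_sum]
      simp only [mγ, ms, smul_comm (s y) (z _), smul_tmul', smul_eq_mul]
    | add u v hu hv => rw [smul_add, map_add, map_add, smul_add, hu, hv]
  refine (main c (bc_reg r)).mono fun k hk => ?_
  obtain ⟨m, hm⟩ := dvd_rank (D := D) (bc F D (H k) ⊓ LinearMap.ker d) fun y v hv =>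
    ⟨bc_ind (P := fun v => y • v ∈ bc F D (H k)) (by simp) (fun x w hw => tmul_mem _ hw)
      (fun u v hu hv => by rw [smul_add]; exact add_mem hu hv) v hv.1, by
      rw [SetLike.mem_coe, LinearMap.mem_ker, ds, LinearMap.mem_ker.1 hv.2, smul_zero]⟩
  simp only [bc_rank, hm, hD] at hk
  push_cast at hk
  exact ⟨m, by omega⟩

/-- the operators on the even Clifford algebra -/
theorem exists_op {F U : Type} [Field F] [AddCommGroup U] [Module F U] (Q : QuadraticForm F U)
    (w : U) (hw : Q w = 1) : ∃ Γ : U → End F (CliffordAlgebra.even Q),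
      (∀ u v, Γ u * Γ v + Γ v * Γ u = QuadraticMap.polar Q u v • (1 : End F _)) ∧
      Γ w * Γ w = 1 ∧ ∀ u y x, Γ u (y * x) = Γ w y * Γ u x := by
  have ww : CliffordAlgebra.ι Q w * CliffordAlgebra.ι Q w = 1 := by
    rw [CliffordAlgebra.ι_sq_scalar, hw, map_one]
  have w2 : ∀ x, CliffordAlgebra.ι Q w * (CliffordAlgebra.ι Q w * x) = x := fun x => by
    rw [← mul_assoc, ww, one_mul]
  have mem : ∀ (u : U) (x : CliffordAlgebra.even Q),
      CliffordAlgebra.ι Q w * x * CliffordAlgebra.ι Q u ∈ CliffordAlgebra.even Q := fun u x =>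
    SetLike.mul_mem_graded (A := CliffordAlgebra.evenOdd Q) (i := 1) (j := 1)
      (SetLike.mul_mem_graded (A := CliffordAlgebra.evenOdd Q) (i := 1) (j := 0)
        (CliffordAlgebra.ι_mem_evenOdd_one Q w) x.2) (CliffordAlgebra.ι_mem_evenOdd_one Q u)
  refine ⟨fun u => ⟨⟨fun x => ⟨_, mem u x⟩, fun x y => Subtype.ext ?_⟩, fun c x => Subtype.ext ?_⟩,
    fun u v => LinearMap.ext fun x => Subtype.ext ?_, LinearMap.ext fun x => Subtype.ext ?_,
    fun u y x => Subtype.ext ?_⟩
  · simp [mul_add, add_mul]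
  · simp
  · simp only [LinearMap.add_apply, End.mul_apply, LinearMap.coe_mk, AddHom.coe_mk,
      Subalgebra.coe_add, LinearMap.smul_apply, End.one_apply, Subalgebra.coe_smul, mul_assoc, w2]
    rw [← mul_add, add_comm, CliffordAlgebra.ι_mul_ι_add_swap, ← Algebra.commutes,
      Algebra.smul_def]
  · simp only [End.mul_apply, LinearMap.coe_mk, AddHom.coe_mk, End.one_apply, mul_assoc, w2, ww,
      mul_one]
  · simp only [LinearMap.coe_mk, AddHom.coe_mk, Subalgebra.coe_mul, mul_assoc, w2]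

end Vale.Agent.P287Z.L.Bgg
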