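import Vale.Agent.P287Z.L.Basic2
import Vale.Agent.P287Z.L.BggB

/-!
The congruence for the Hilbert polynomial of a module over the Clifford algebra of a net of conics.
-/

namespace Vale.Agent.P287Z.L

open MvPolynomial Module Filter Matrix Vale.Agent.P287 Vale.Agent.P287.Theta

namespace Bgg

section gen

variable {F : Type} [Field F]

/-- the sum of a ternary form and a square -/
def g4 (ψ : Matrix (Fin 3) (Fin 3) F) : Matrix (Fin 4) (Fin 4) F :=
  !![ψ 0 0, ψ 0 1, ψ 0 2, 0; ψ 1 0, ψ 1 1, ψ 1 2, 0; ψ 2 0, ψ 2 1, ψ 2 2, 0; 0, 0, 0, 1]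

theorem g4_det (ψ : Matrix (Fin 3) (Fin 3) F) : (g4 ψ).det = ψ.det := by
  rw [Matrix.det_fin_three, Matrix.det_succ_row _ 3]
  simp [g4, Fin.sum_univ_succ, Matrix.det_fin_three, Fin.succAbove]
  ring

theorem g4_symm {ψ : Matrix (Fin 3) (Fin 3) F} (h : ∀ a b, ψ a b = ψ b a) : (g4 ψ).IsSymm := by
  ext i j
  fin_cases i <;> fin_cases j <;> simp [g4, h 0 1, h 0 2, h 1 2]

theorem g4_form (ψ : Matrix (Fin 3) (Fin 3) F) (v : Fin 4 → F) :
    v ⬝ᵥ g4 ψ *ᵥ v = v 3 ^ 2 + (fun a => v a.castSucc) ⬝ᵥ ψ *ᵥ fun a => v a.castSucc := by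
  simp [g4, dotProduct, Matrix.mulVec, Fin.sum_univ_four, Fin.sum_univ_three]
  ring

theorem polar_e (G : Matrix (Fin 4) (Fin 4) F) (i j : Fin 4) :
    QuadraticMap.polar (Matrix.toQuadraticForm' G) (Pi.single i 1) (Pi.single j 1) =
      G i j + G j i := by
  simp [Matrix.toQuadraticForm', LinearMap.BilinMap.polar_toQuadraticMap,
    Matrix.toLinearMap₂'_apply']

theorem q_e (ψ : Matrix (Fin 3) (Fin 3) F) :
    Matrix.toQuadraticForm' (g4 ψ) (Pi.single 3 1) = 1 := by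
  simp [Matrix.toQuadraticForm', Matrix.toLinearMap₂'_apply', g4]

theorem exists_ops {ψ : Matrix (Fin 3) (Fin 3) F} (h : ∀ a b, ψ a b = ψ b a) :
    ∃ (γ : Fin 3 → End F (CliffordAlgebra.even (Matrix.toQuadraticForm' (g4 ψ))))
      (s : End F (CliffordAlgebra.even (Matrix.toQuadraticForm' (g4 ψ)))),
      (∀ a b, γ a * γ b + γ b * γ a = (2 * ψ a b) • (1 : End F _)) ∧
      (∀ a, γ a * s + s * γ a = 0) ∧ s * s = 1 ∧ (∀ a y x, γ a (y * x) = s y * γ a x) ∧
      ∀ y x, s (y * x) = s y * s x := by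
  obtain ⟨Γ, h1, h2, h3⟩ := exists_op (Matrix.toQuadraticForm' (g4 ψ)) _ (q_e ψ)
  refine ⟨fun a => Γ (Pi.single a.castSucc 1), Γ (Pi.single 3 1), fun a b => ?_, fun a => ?_, h2,
    fun a => h3 _, h3 _⟩
  · rw [h1, polar_e, two_mul]
    congr 1
    fin_cases a <;> fin_cases b <;> simp [g4, h 0 1, h 0 2, h 1 2]
  · have e : g4 ψ a.castSucc 3 + g4 ψ 3 a.castSucc = 0 := by fin_cases a <;> simp [g4]
    rw [h1, polar_e, e, zero_smul]

theorem congr8' {R D W : Type} [Field R] [Algebra R F] [Ring D]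
    [Algebra F D] [Algebra R D] [IsScalarTower R F D] [AddCommGroup W] [Module R W]
    (hdiv : ∀ x : D, x ≠ 0 → IsUnit x)
    (h2 : (2 : F) ≠ 0) (hD : finrank F D = 8) (H : ℤ → Submodule R W)
    (fd : ∀ k, FiniteDimensional R (H k)) (t ζ : Fin 3 → End R W) (r : Reg H t)
    (tH : ∀ a k, ∀ v ∈ H k, t a v ∈ H (k + 1)) (ζH : ∀ a k, ∀ v ∈ H k, ζ a v ∈ H (k + 1))
    (tt : ∀ a b, t a * t b = t b * t a) (tζ : ∀ a b, t a * ζ b = ζ b * t a)
    (κ : Fin 3 → Fin 3 → Fin 3 → Fin 3 → R)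
    (ζζ : ∀ i j, ζ i * ζ j + ζ j * ζ i = -∑ b, ∑ a, (2 * κ i j b a) • (t a * t b))
    (z : Fin 3 → F) (ψ : Matrix (Fin 3) (Fin 3) F)
    (hψ : ∀ a b, ψ a b = ∑ i, ∑ j, z i * z j * algebraMap R F (κ i j a b)) (h0 : ψ.det ≠ 0)
    (hop : ∃ (γ : Fin 3 → End F D) (s : End F D),
      (∀ a b, γ a * γ b + γ b * γ a = (2 * ψ a b) • (1 : End F D)) ∧
      (∀ a, γ a * s + s * γ a = 0) ∧ s * s = 1 ∧ (∀ a y x, γ a (y * x) = s y * γ a x) ∧
      ∀ y x, s (y * x) = s y * s x) :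
    ∀ᶠ k in atTop, (8 : ℤ) ∣
      (finrank R (H (k + 2)) : ℤ) - 4 * finrank R (H (k + 1)) + 7 * finrank R (H k) := by
  obtain ⟨γ, s, a1, a2, a3, a4, a5⟩ := hop
  have : Nontrivial D := Module.nontrivial_of_finrank_pos (R := F) (by omega)
  let _ : DivisionRing D := DivisionRing.ofIsUnitOrEqZero fun x =>
    (eq_or_ne x 0).symm.imp_left (hdiv x)
  exact congr8 h2 hD H fd t ζ r tH ζH tt tζ κ ζζ z ψ hψ h0 γ s a1 a2 a3 a4 a5

end gen

theorem hes_symm (p : P3) (a b : Fin 3) : hes p a b = hes p b a := by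
  simp only [hes, constantCoeff_eq, coeff_pderiv, zero_add, Finsupp.coe_zero, Pi.zero_apply,
    Finsupp.single_apply, add_comm (Finsupp.single a 1), eq_comm (a := a)]

theorem conic {p : P3} (h : Hg 2 p) :
    2 * p = ∑ b, ∑ a, C (2 * hes p b a) * (X a * X b) := by
  have h2 : p.IsHomogeneous 2 := hg_nat.1 h
  have e1 := h2.sum_X_mul_pderiv
  rw [nsmul_eq_mul, Nat.cast_ofNat] at e1
  rw [← e1, Finset.sum_comm]
  refine Finset.sum_congr rfl fun a _ => ?_
  have h1 : (pderiv a p).IsHomogeneous 1 := h2.pderiv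
  have e2 := h1.sum_X_mul_pderiv
  rw [one_smul] at e2
  rw [← e2, Finset.mul_sum]
  refine Finset.sum_congr rfl fun b _ => ?_
  have h0 : (pderiv b (pderiv a p)).IsHomogeneous 0 := h1.pderiv
  obtain ⟨c, hc⟩ := Hg.eq_C (hg_nat.2 h0)
  rw [hes, hc, constantCoeff_C, mul_inv_cancel_left₀ two_ne_zero]
  ring

variable {W : Type} [AddCommGroup W] [Module ℂ W] [Module K W] [IsScalarTower ℂ K W]
  {H : ℤ → Submodule ℂ W}

variable (W) in
/-- multiplication by a coordinate -/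
noncomputable def tm (a : Fin 3) : End ℂ W := (LinearMap.lsmul K W (tvec a)).restrictScalars ℂ

theorem tm_apply (a : Fin 3) (v : W) : tm W a v = tvec a • v := rfl

theorem tm_mem (h : Fam H) (a : Fin 3) (k : ℤ) : ∀ v ∈ H k, tm W a v ∈ H (k + 1) :=
  fun _ hv => h.smul (tvec_mem a) hv (add_comm _ _)

theorem s1_eq (k : ℤ) : S1 H (tm W) k = H (k - 1) := by
  have e : tm W 0 = LinearMap.id := LinearMap.ext fun v => one_smul K v
  rw [S1, nxt, e, Submodule.map_id, bot_sup_eq]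

theorem s2_rank (h : Lat H) (k : ℤ) :
    finrank ℂ (S2 H (tm W) (k + 1)) + finrank ℂ (H (k - 1)) =
      finrank ℂ (H k) + finrank ℂ (H k) := by
  have := h.fg.finite k
  have h1 := dim_sup (tm W 1) (H k) (H k)
  have e : H k ⊓ (H k).comap (tm W 1) = H (k - 1) := by
    refine le_antisymm (fun v hv => h.refl _ v fun g hg => ?_) fun v hv =>
      ⟨h.fam.mono (by omega) hv, mem_cast (tm_mem h.fam 1 _ v hv) (by ring)⟩
    by_cases h0 : g ∣ X 0
    · refine ⟨1, tvec 1, ⟨X 1, hg_X 1, ev_X 1, fun h1 => ?_⟩, mem_cast hv.2 (by ring)⟩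
      have h2 := (hg.1.associated_of_dvd (hprime_X 0).1 h0).symm.dvd.trans h1
      exact H925.X_not_dvd_X (by decide) h2
    · exact ⟨1, tvec 0, ⟨X 0, hg_X 0, ev_X 0, h0⟩, by
        rw [tvec_zero, one_smul]
        exact mem_cast hv.1 (by ring)⟩
  rw [e] at h1
  rw [S2, nxt_succ, s1_eq, add_sub_cancel_right]
  exact h1

theorem s3_top (h : Lat H) : ∀ᶠ k in atTop, S3 H (tm W) k = H k := by
  obtain ⟨n, u, e, hg⟩ := h.fg
  refine eventually_atTop.2 ⟨∑ i, |e i| + 1, fun k hk => le_antisymm ?_ fun v hv => ?_⟩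
  · have hm : ∀ a, (H (k - 1)).map (tm W a) ≤ H k := by
      rintro a _ ⟨v, hv, rfl⟩
      exact mem_cast (tm_mem h.fam a _ v hv) (by ring)
    exact sup_le (sup_le (sup_le bot_le (hm 0)) (hm 1)) (hm 2)
  · obtain ⟨c, hc, rfl⟩ := mem_Sp.1 (hg k ▸ hv)
    have hne : ∀ i, k - e i ≠ 0 := fun i => by
      have h1 := Finset.single_le_sum (f := fun i => |e i|) (fun i _ => abs_nonneg _)
        (Finset.mem_univ i)
      have h2 := le_abs_self (e i)
      omega
    choose c' h1 h2 using fun i => AA_comb (hc i) (hne i)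
    have hw : ∀ a, tm W a (∑ i, c' i a • u i) ∈ (H (k - 1)).map (tm W a) := fun a =>
      Submodule.mem_map_of_mem (Submodule.sum_mem _ fun i _ =>
        h.fam.smul (h1 i a) (hg.mem i) (by ring))
    have e1 : ∑ i, c i • u i = ∑ a, tm W a (∑ i, c' i a • u i) := by
      simp only [tm_apply, Finset.smul_sum, smul_smul]
      rw [Finset.sum_comm]
      exact Finset.sum_congr rfl fun i _ => by rw [← Finset.sum_smul, ← h2]
    rw [e1, Fin.sum_univ_three]
    exact Submodule.add_mem_sup (Submodule.add_mem_sup (Submodule.mem_sup_right (hw 0)) (hw 1))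
      (hw 2)

theorem reg (h : Lat H) {R c x : ℤ} (hp : HP H R c x) : Reg H (tm W) := by
  refine ⟨Eventually.of_forall fun k => ?_, Eventually.of_forall fun k => ?_, ?_, s3_top h⟩
  · rw [s1_eq, add_sub_cancel_right]
  · rw [s1_eq, s1_eq, add_sub_cancel_right, s2_rank h]
  · obtain ⟨N, hN⟩ := eventually_atTop.1 hp
    filter_upwards [ev_succ (s3_top h), eventually_ge_atTop (N + 2)] with k h1 hk
    have a1 := s2_rank h k
    have a2 := s2_rank h (k - 1)
    rw [sub_add_cancel] at a2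
    have b1 := hN (k + 1) (by omega)
    have b2 := hN k (by omega)
    have b3 := hN (k - 1) (by omega)
    have b4 := hN (k - 1 - 1) (by omega)
    have b5 : (finrank ℂ (H (k + 1)) : ℤ) + 3 * finrank ℂ (H (k - 1)) =
        3 * finrank ℂ (H k) + finrank ℂ (H (k - 1 - 1)) := by linarith
    rw [h1]
    omega

end Bgg

open Bgg in
/-- **BGG** -/
theorem bgg' (hdiv : stDIV) : stBGG := by
  intro W _ _ _ _ _ H R c x φ ζ _ hφ hG hH hp hζ hζζ
  have hs : ∀ a b, psi φ a b = psi φ b a := fun a b => by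
    simp only [psi, Matrix.of_apply, hes_symm _ a b]
  have h0 : (psi φ).det ≠ 0 := fun h => hG.nsq (h ▸ IsSquare.zero)
  have h2 : (2 : K) ≠ 0 := two_ne_zero
  have han : ∀ v, v ⬝ᵥ g4 (psi φ) *ᵥ v = 0 → v = 0 := fun v hv => by
    rw [g4_form] at hv
    obtain ⟨h1, h3⟩ := hG.aniso _ _ hv
    funext i
    refine Fin.lastCases h1 (fun a => congrFun h3 a) i
  have key := congr8' (D := BB (g4 (psi φ)))
    (fun y hy => (hdiv _ (g4_symm hs) han y hy).resolve_right (g4_det (psi φ) ▸ hG.nsq)) h2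
    (H100.finrank_even h2 (qf4 (g4 (psi φ))) (Pi.single 3 1) (by rw [q_e]; exact one_ne_zero)
      (n := 3) (by simp))
    H hH.fg.finite (tm W) (fun i => (ζ i).restrictScalars ℂ) (reg hH hp) (tm_mem hH.fam) hζ
    (fun a b => LinearMap.ext fun v => smul_comm (tvec a) (tvec b) v)
    (fun a b => LinearMap.ext fun v => ((ζ b).map_smul (tvec a) v).symm)
    (fun i j => hes (φ i j))
    (fun i j => LinearMap.ext fun v => by
      have e := congrArg ev (conic (hφ i j))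
      simp only [map_mul, map_ofNat, map_sum, ev_C, ev_X] at e
      refine (hζζ i j v).trans ?_
      rw [neg_mul, e, neg_smul, Finset.sum_smul, LinearMap.neg_apply, LinearMap.sum_apply]
      refine congrArg _ (Finset.sum_congr rfl fun b _ => ?_)
      rw [Finset.sum_smul, LinearMap.sum_apply]
      refine Finset.sum_congr rfl fun a _ => ?_
      rw [LinearMap.smul_apply, End.mul_apply, tm_apply, tm_apply,
        ← algebraMap_smul K (2 * hes (φ i j) b a), smul_smul, smul_smul, map_mul, map_ofNat,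
        mul_assoc _ (tvec a)])
    tvec (psi φ) (fun _ _ => rfl) h0 (exists_ops hs)
  obtain ⟨N, hN⟩ := eventually_atTop.1 (hp.and key)
  obtain ⟨j, hj⟩ : ∃ j : ℤ, N ≤ 4 * j := ⟨max N 0, by omega⟩
  obtain ⟨m, hm⟩ := (hN _ hj).2
  have b0 := (hN _ hj).1
  have b1 := (hN (4 * j + 1) (by omega)).1
  have b2 := (hN (4 * j + 2) (by omega)).1
  exact ⟨m - R * (4 * j ^ 2 + 2 * j) - 2 * c * j, by linarith⟩

theorem bgg : stDIV → stVAN → stNOETH → stBGG := fun h _ _ => bgg' h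

end Vale.Agent.P287Z.L
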