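import Vale.Agent.P287Z.L.ClB

/-!
The facts on the fibration, from the structure of the even Clifford algebra.
-/

namespace Vale.Agent.P287Z.L

open MvPolynomial Module Matrix Vale.Agent.P287 Vale.Agent.P287.Theta

lemma prime_mul_sq_ne {R : Type*} [CommRing R] [IsDomain R] [WfDvdMonoid R] {f b c : R}
    (hf : Prime f) (hb : b ≠ 0) : f * b ^ 2 ≠ c ^ 2 := by
  intro h
  have hc : c ≠ 0 := by
    rintro rfl
    exact mul_ne_zero hf.ne_zero (pow_ne_zero 2 hb) (by rw [h]; ring)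
  obtain ⟨n, b', hb', rfl⟩ := WfDvdMonoid.max_power_factor hb hf.irreducible
  obtain ⟨m, c', hc', rfl⟩ := WfDvdMonoid.max_power_factor hc hf.irreducible
  rcases Nat.lt_or_ge n m with h1 | h1
  · obtain ⟨t, rfl⟩ := Nat.exists_eq_add_of_lt h1
    have h2 : f ^ (2 * n + 1) * b' ^ 2 = f ^ (2 * n + 1) * (f * (f ^ (2 * t) * c' ^ 2)) := by
      linear_combination h
    exact hb' (hf.dvd_of_dvd_pow (n := 2) ⟨_, mul_left_cancel₀ (pow_ne_zero _ hf.ne_zero) h2⟩)
  · obtain ⟨t, rfl⟩ := Nat.exists_eq_add_of_le h1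
    have h2 : f ^ (2 * m) * c' ^ 2 = f ^ (2 * m) * (f * (f ^ (2 * t) * b' ^ 2)) := by
      linear_combination -h
    exact hc' (hf.dvd_of_dvd_pow (n := 2) ⟨_, mul_left_cancel₀ (pow_ne_zero _ hf.ne_zero) h2⟩)

lemma not_isSquare_ev {f : P3} (hf : Hg 6 f) (hp : Prime f) : ¬ IsSquare (ev f) := by
  rintro ⟨x, hx⟩
  obtain ⟨d, y, y0, ⟨b, hb, rfl⟩, ⟨a, ha, hab⟩⟩ := exists_frac x
  change ev a = ev b * x at hab
  have hb0 : b ≠ 0 := fun h => y0 (by rw [h]; exact map_zero _)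
  refine prime_mul_sq_ne (c := a * X 0 ^ 3) hp hb0 ?_
  refine Hg.inj (hf.mul (Hg.pow hb 2)) (((Hg.mul ha ((hg_X 0).pow 3)).pow 2).cast (by
    push_cast; ring)) ?_
  rw [map_mul, map_pow, map_pow, map_mul, map_pow, ev_X, tvec_zero, hx, hab]
  ring

lemma degM_of {M : Matrix (Fin 4) (Fin 4) P3}
    (h : ∀ i j, (M i j).IsHomogeneous (1 + H925.wt i + H925.wt j)) (i j : Fin 4) :
    Hg (1 + wz i + wz j) (M i j) :=
  (hg_nat.2 (h i j)).cast (by rw [wz_eq, wz_eq]; push_cast; rfl)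

lemma hg_det_of {M : Matrix (Fin 4) (Fin 4) P3}
    (h : ∀ i j, (M i j).IsHomogeneous (1 + H925.wt i + H925.wt j)) : Hg 6 M.det := by
  refine (hg_det M (fun i => -1 - wz i) wz fun i j => (degM_of h i j).cast (by ring)).cast ?_
  simp [wz, Fin.sum_univ_four]

theorem ctx (hA : stALG) (hS : stSND) (hD : stDIV) (hT : stTAB) : stCTX := by
  intro C
  have hs : C.G.IsSymm := C.symm.map _
  have he : C.G.det = ev C.M.det := (AlgHom.map_det ev C.M).symm
  have hf := hg_det_of C.deg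
  have hp : Prime C.M.det := prime_of_smoothP hf.toNat (by decide) C.disc
  have h0 : C.G.det ≠ 0 := he ▸ hf.ev_ne hp.ne_zero
  have hn : ¬ IsSquare C.G.det := he ▸ not_isSquare_ev hf hp
  have ha := hA _ hs h0
  refine ⟨hs, h0, he, hn, hf, hp, degM_of C.deg, ha, hS _ hs h0 ha, ?_,
    fun x hx => (hD _ hs C.aniso x hx).resolve_right hn⟩
  refine hT _ 1 e4 wz 1 1 hs h0 ha one_ne_zero one_ne_zero ?_ ?_ fun i j => ?_
  · rw [of_e4, Matrix.det_one, map_one, one_pow, one_mul]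
  · rw [sum_wz]; norm_num
  · rw [inv_one, one_mul, e4_dot]
    exact AA_cast (degM_of C.deg i j).mem (by ring)

end Vale.Agent.P287Z.L
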