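import Vale.Agent.P287Z.L.Spl
import Vale.Agent.P287Z.L.Res

/-!
Local bases and the determinant of a lattice.
-/

namespace Vale.Agent.P287Z.L

open MvPolynomial Module Matrix Vale.Agent.P287 Vale.Agent.P287.Theta Spl

namespace Det

/-- the square matrix with columns `c` and `s` -/
def Mx {R ι : Type} {n₀ n₁ : ℕ} (σ : Fin n₁ ⊕ ι ≃ Fin n₀) (c : Fin n₁ → Fin n₀ → R)
    (s : ι → Fin n₀ → R) : Matrix (Fin n₁ ⊕ ι) (Fin n₁ ⊕ ι) R :=
  Matrix.of fun a j => Sum.elim c s j (σ a)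

theorem gen {F V ι : Type} [Field F] [AddCommGroup V] [Module F V] [Fintype ι] [DecidableEq ι]
    {n₀ n₁ : ℕ} (σ : Fin n₁ ⊕ ι ≃ Fin n₀) (π : (Fin n₀ → F) →ₗ[F] V) (hπ : Function.Surjective π)
    {c : Fin n₁ → Fin n₀ → F} (hc : LinearIndependent F c) (h0 : ∀ j, π (c j) = 0)
    (b : Basis ι F V) : ∃ ν : F, ν ≠ 0 ∧ ∀ s, b.det (fun i => π (s i)) / ν = (Mx σ c s).det := by
  choose t ht using fun i => hπ (b i)
  have li : LinearIndependent F (Sum.elim c t) := by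
    rw [Fintype.linearIndependent_iff]
    intro g hg
    rw [Fintype.sum_sum_type] at hg
    have h1 := congrArg π hg
    simp only [Sum.elim_inl, Sum.elim_inr, map_add, map_sum, map_smul, h0, ht, smul_zero,
      Finset.sum_const_zero, zero_add, map_zero] at h1
    have h2 := Fintype.linearIndependent_iff.1 b.linearIndependent _ h1
    simp only [h2, zero_smul, Finset.sum_const_zero, add_zero, Sum.elim_inl] at hg
    exact Sum.rec (Fintype.linearIndependent_iff.1 hc _ hg) h2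
  let B := basisOfLinearIndependentOfCardEqFinrank' _ li (by
    rw [finrank_fin_fun, Fintype.card_congr σ, Fintype.card_fin])
  have hB : ∀ j, B j = Sum.elim c t j := fun j => Basis.mk_apply _ _ j
  let E := (Pi.basisFun F (Fin n₀)).reindex σ.symm
  have h1 : ∀ s, (Mx σ c s).det = E.det (Sum.elim c s) := fun s => by
    rw [Basis.det_apply]
    exact congrArg det (Matrix.ext fun a j => by simp [Mx, E, Basis.toMatrix_apply])
  have h2 : ∀ i v, B.repr v (.inr i) = b.repr (π v) i := fun i v =>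
    LinearMap.congr_fun (B.ext (f₁ := B.coord (.inr i)) (f₂ := b.coord i ∘ₗ π) fun j => by
      rw [Basis.coord_apply, B.repr_self, hB]
      rcases j with j | j <;> simp [h0, ht, Finsupp.single_apply]) v
  refine ⟨(E.det B)⁻¹, inv_ne_zero (E.isUnit_det B).ne_zero, fun s => ?_⟩
  have h3 : B.toMatrix (Sum.elim c s) = fromBlocks 1 (of fun j i => B.repr (s i) (.inl j)) 0
      (b.toMatrix fun i => π (s i)) := by
    have h4 : ∀ j, c j = B (.inl j) := fun j => (hB (.inl j)).symm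
    ext (a | a) (j | j) <;>
      simp [Basis.toMatrix_apply, h2, h4, Finsupp.single_apply, Matrix.one_apply, eq_comm]
  rw [h1, AlternatingMap.congr_fun (E.det.eq_smul_basis_det B) (Sum.elim c s),
    AlternatingMap.smul_apply, Basis.det_apply B, h3, det_fromBlocks_zero₂₁, det_one, one_mul,
    div_inv_eq_mul, smul_eq_mul, mul_comm, Basis.det_apply b]

theorem Mx_map {R R' F ι : Type} [FunLike F R R'] (f : F) {n₀ n₁ : ℕ} (σ : Fin n₁ ⊕ ι ≃ Fin n₀)
    (c : Matrix (Fin n₀) (Fin n₁) R) (s : ι → Fin n₀ → R) :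
    (Mx σ cᵀ s).map f = Mx σ (fun j a => f (c a j)) fun i a => f (s i a) :=
  Matrix.ext fun _ j => by rcases j with j | j <;> rfl

variable {V : Type} [AddCommGroup V] [Module ℂ V] [Module K V] [IsScalarTower ℂ K V]
  {L : ℤ → Submodule ℂ V} {n₀ n₁ : ℕ} {u : Fin n₀ → V} {e : Fin n₀ → ℤ}
  {S : Matrix (Fin n₀) (Fin n₁) P3} {d : Fin n₁ → ℤ} {ι : Type} [Fintype ι] [DecidableEq ι]
  {σ : Fin n₁ ⊕ ι ≃ Fin n₀} {s : ι → Fin n₀ → P3} {f : ι → ℤ} {p : Fin 3 → ℂ}

omit [DecidableEq ι] in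
theorem Mx_mulVec (q : Fin n₁ ⊕ ι → P3) (a) : (Mx σ Sᵀ s *ᵥ q) a =
    (S *ᵥ fun j => q (.inl j)) (σ a) + ∑ i, q (.inr i) * s i (σ a) := by
  simp only [mulVec, dotProduct, Fintype.sum_sum_type, mul_comm (q _)]
  rfl

omit [Fintype ι] [DecidableEq ι] in
theorem Mx_hg (h : Rs L u e S d) (hs : ∀ i a, Hg (f i - e a) (s i a)) (a j) :
    Hg (Sum.elim d f j - e (σ a)) (Mx σ Sᵀ s a j) := by
  rcases j with j | j
  exacts [h.deg _ _, hs _ _]

omit [DecidableEq ι] in
theorem deg_eq : ∑ j, Sum.elim d f j - ∑ a, e (σ a) = ∑ i, f i + (∑ j, d j - ∑ a, e a) := by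
  rw [Fintype.sum_sum_type, Equiv.sum_comp σ e]
  simp only [Sum.elim_inl, Sum.elim_inr]
  ring

theorem loc (h : Rs L u e S d) (hs : ∀ i a, Hg (f i - e a) (s i a)) (k) (v) (hv : v ∈ L k) :
    ev (Mx σ Sᵀ s).det • v ∈ Sp (fun i => ∑ a, ev (s i a) • u a) f
      (∑ i, f i + (∑ j, d j - ∑ a, e a) + k) := by
  rw [h.gen] at hv
  obtain ⟨t, ht, rfl⟩ := sp_iff.1 hv
  set q := (Mx σ Sᵀ s).adjugate *ᵥ fun a => t (σ a) with hq
  have h1 : ∀ a, (Mx σ Sᵀ s).det * t a =
      (S *ᵥ fun j => q (.inl j)) a + ∑ i, q (.inr i) * s i a := fun a => by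
    obtain ⟨a, rfl⟩ := σ.surjective a
    rw [← Mx_mulVec, hq, mulVec_mulVec, mul_adjugate, smul_mulVec, one_mulVec]
    rfl
  refine sp_iff.2 ⟨fun i => q (.inr i), fun i => hg_sum _ fun a _ =>
    ((hg_adj _ _ _ (Mx_hg h hs) _ a).mul (ht _)).cast ?_, ?_⟩
  · rw [deg_eq, Sum.elim_inr]
    ring
  · simp only [Finset.smul_sum, smul_smul, ← map_mul, h1, map_add, add_smul,
      Finset.sum_add_distrib, cols h, zero_add, map_sum, Finset.sum_smul]
    exact Finset.sum_comm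

theorem u1 (h : Rs L u e S d) (hs : ∀ i a, Hg (f i - e a) (s i a))
    (hb : LB L p (fun i => ∑ a, ev (s i a) • u a) f) : eval p (Mx σ Sᵀ s).det ≠ 0 := by
  obtain ⟨m, _, ⟨β, b1, rfl, b3⟩, hy⟩ := hb.loc
  choose q q1 q2 using fun a => sp_iff.1 (hy (e a) (u a) (by
    rw [h.gen]
    exact sp_iff.2 ⟨_, hg_single e a, sum_single u a⟩))
  choose α _ a2 using fun a => syz (k := m + e a) h
    (t := fun a' => β * (Pi.single a 1 : Fin n₀ → P3) a' - ∑ i, q a i * s i a')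
    (fun a' => ((b1.mul (hg_single e a a')).cast (by ring)).sub
      (hg_sum _ fun i _ => ((q1 a i).mul (hs i a')).cast (by ring))) (by
      simp only [map_sub, map_mul, map_sum, sub_smul, Finset.sum_sub_distrib, mul_smul,
        Finset.sum_smul]
      rw [← Finset.smul_sum, sum_single, ← q2, Finset.sum_comm]
      simp only [Finset.smul_sum, sub_self])
  have h1 : Mx σ Sᵀ s * (of fun c a => Sum.elim (α (σ a)) (q (σ a)) c) = β • (1 : Matrix _ _ P3) :=
    Matrix.ext fun a' a => (Mx_mulVec _ a').trans (by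
      simp only [of_apply, Sum.elim_inl, Sum.elim_inr]
      rw [← a2, sub_add_cancel, Matrix.smul_apply, smul_eq_mul, one_apply, Pi.single_apply]
      simp only [σ.injective.eq_iff])
  have h2 := congrArg (fun M => eval p (det M)) h1
  simp only [det_mul, det_smul, det_one, mul_one, map_mul, map_pow] at h2
  exact left_ne_zero_of_mul (h2 ▸ pow_ne_zero _ b3)

theorem hpF {n : ℕ} (e : Fin n → ℤ) : ∃ x, HP (Fr e) n (-∑ i, e i) x := by
  choose x hx using fun i => Int.even_mul_succ_self (e i - 2)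
  obtain ⟨m, hm⟩ := Finite.exists_le e
  refine ⟨∑ i, x i, (Filter.eventually_ge_atTop m).mono fun k hk => ?_⟩
  have h : ∀ i, 2 * (finrank ℂ (AA (k - e i)) : ℤ) = (k ^ 2 + 3 * k) + 2 * (-e i) * k + 2 * x i :=
    fun i => by
      rw [finrank_AA (by have := hm i; omega)]
      linear_combination hx i
  rw [Res.rank_F, Nat.cast_sum, Finset.mul_sum, Finset.sum_congr rfl fun i _ => h i,
    Finset.sum_add_distrib, Finset.sum_add_distrib, ← Finset.sum_mul, ← Finset.mul_sum,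
    ← Finset.mul_sum, Finset.sum_neg_distrib, Finset.sum_const, Finset.card_univ, Fintype.card_fin,
    nsmul_eq_mul]

theorem core (R : stRES) (D : stRSD) [FiniteDimensional K V] (b : Basis ι K V) (hL : Lat L) :
    ∃ (n₀ n₁ : ℕ) (u : Fin n₀ → V) (e : Fin n₀ → ℤ) (S : Matrix (Fin n₀) (Fin n₁) P3)
      (d : Fin n₁ → ℤ) (σ : Fin n₁ ⊕ ι ≃ Fin n₀) (ν : K), Rs L u e S d ∧ ν ≠ 0 ∧
      c1 L = ∑ j, d j - ∑ a, e a ∧ ∀ s : ι → Fin n₀ → P3,
        b.det (fun i => ∑ a, ev (s i a) • u a) / ν = ev (Mx σ Sᵀ s).det := by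
  obtain ⟨n₀, u, e, hu⟩ := hL.fg
  obtain ⟨n₁, S, d, h⟩ := R V L n₀ u e (Res.sat hL.refl) hu
  obtain ⟨h1, h2⟩ := D V L n₀ n₁ u e S d h
  let σ : Fin n₁ ⊕ ι ≃ Fin n₀ := Fintype.equivOfCardEq (by
    rw [Fintype.card_sum, Fintype.card_fin, Fintype.card_fin, ← finrank_eq_card_basis b,
      ← h2 hL.full, add_comm])
  obtain ⟨ν, h3, h4⟩ := gen σ (Fintype.linearCombination K u) (fun v => by
    obtain ⟨k, y, hy, hv⟩ := hL.full v
    rw [hu] at hv
    obtain ⟨c, -, hc⟩ := hv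
    exact ⟨y⁻¹ • c, by rw [map_smul, show Fintype.linearCombination K u c = y • v from hc,
      inv_smul_smul₀ hy]⟩) h.li (col h) b
  refine ⟨n₀, n₁, u, e, S, d, σ, ν, h, h3, ?_, fun s => ?_⟩
  · obtain ⟨x, a1⟩ := hpF e
    obtain ⟨x', a2⟩ := hpF d
    have h5 : HP L (n₀ - n₁) (∑ j, d j - ∑ a, e a) (x - x') := by
      filter_upwards [a1, a2] with k a1 a2
      have h5 := congrArg (fun n : ℕ => (n : ℤ)) (h1 k)
      simp only [Nat.cast_add] at h5
      linear_combination a1 - a2 + 2 * h5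
    exact (Res.hp_uniq (Res.hp_c1 h5) h5).1
  · rw [AlgHom.map_det, AlgHom.mapMatrix_apply, Mx_map]
    exact h4 fun i a => ev (s i a)

theorem lb (h : Rs L u e S d) (hs : ∀ i a, Hg (f i - e a) (s i a)) (b : Basis ι K V) {ν : K}
    (hν : b.det (fun i => ∑ a, ev (s i a) • u a) / ν = ev (Mx σ Sᵀ s).det)
    (hU : U1 p (∑ i, f i + (∑ j, d j - ∑ a, e a)) (ev (Mx σ Sᵀ s).det)) :
    LB L p (fun i => ∑ a, ev (s i a) • u a) f :=
  ⟨fun i => h.gen _ ▸ sp_iff.2 ⟨_, hs i, rfl⟩, (b.is_basis_iff_det.2 (Ne.isUnit fun h0 =>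
    hU.ne (by rw [← hν, h0, zero_div]))).1, _, _, hU, loc h hs⟩

end Det

open Det in
theorem det (R : stRES) (D : stRSD) (_ : stSPLIT) : stDET := by
  intro V _ _ _ _ _ L ι _ _ b hL
  obtain ⟨n₀, n₁, u, e, S, d, σ, ν, h, h0, h1, h2⟩ := core R D b hL
  refine ⟨ν, h0, fun w f hw => ?_⟩
  choose s hs es using fun i => sp_iff.1 (h.gen _ ▸ hw i)
  obtain rfl : (fun i => ∑ a, ev (s i a) • u a) = w := funext es
  have h3 := (hg_det _ _ _ (Mx_hg (σ := σ) h hs)).cast deg_eq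
  rw [h1, h2]
  exact ⟨h3.mem, fun p _ => ⟨fun hb => ⟨_, h3, rfl, u1 h hs hb⟩, lb h hs b (h2 s)⟩⟩

open Det in
theorem lfa (R : stRES) (D : stRSD) (P : stSPLIT) : stLFA := by
  intro V _ _ _ _ _ L hL p hp
  obtain ⟨n₀, n₁, u, e, S, d, σ, ν, h, -, -, h2⟩ := core R D (finBasis K V) hL
  have li : LinearIndependent ℂ fun j a => eval p (S a j) :=
    mulVec_injective_iff.1 (P V L n₀ n₁ u e S d hL.refl h p hp)
  let W := Submodule.span ℂ (Set.range fun j a => eval p (S a j))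
  have hW : finrank ℂ ((Fin n₀ → ℂ) ⧸ W) = finrank K V := by
    have h3 := W.finrank_quotient_add_finrank
    have h4 := Fintype.card_congr σ
    rw [finrank_span_eq_card li, finrank_fin_fun] at h3
    simp only [Fintype.card_sum, Fintype.card_fin] at h3 h4
    omega
  let b := finBasisOfFinrankEq ℂ _ hW
  obtain ⟨μ, h3, h4⟩ := gen σ W.mkQ W.mkQ_surjective li
    (fun j => (Submodule.Quotient.mk_eq_zero W).2 (Submodule.subset_span ⟨j, rfl⟩)) b
  choose c hc using fun i => W.mkQ_surjective (b i)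
  obtain ⟨k, hk⟩ := lift hp e
  choose s hs es using fun i => hk (c i)
  refine ⟨_, fun _ => k, lb (σ := σ) h hs _ (h2 s)
    ⟨_, (hg_det _ _ _ (Mx_hg (σ := σ) h hs)).cast deg_eq, rfl, ?_⟩⟩
  have h5 := h4 c
  rw [funext hc, b.det_self] at h5
  rw [RingHom.map_det, RingHom.mapMatrix_apply, Mx_map]
  simp only [es]
  exact h5 ▸ one_div_ne_zero h3

theorem pic (A : stLFA) (D : stDET) : stPIC := by
  intro L hL
  have _ : Unique (Fin (finrank K K)) := finrank_self K ▸ inferInstanceAs (Unique (Fin 1))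
  obtain ⟨ν, h0, h⟩ := D K L _ (Basis.singleton (Fin (finrank K K)) K) hL
  simp only [Basis.det_apply, det_unique, Basis.toMatrix_apply, Basis.singleton_repr,
    Fintype.sum_unique] at h
  refine ⟨ν, c1 L, h0, fun k y => ⟨fun hy => (h (fun _ => y) (fun _ => k) fun _ => hy).1,
    fun hy => hL.refl _ _ fun g hg => ?_⟩⟩
  obtain ⟨p, hp, h1⟩ := exists_point hg
  obtain ⟨u, e, hb⟩ := A K L hL p hp
  refine ⟨_, _, (((h u e hb.mem).2 p hp).1 hb).ug h1, ?_⟩
  have := hL.fam _ _ _ hy _ (hb.mem default)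
  rw [smul_eq_mul, div_mul_comm, add_comm, add_comm k, ← add_assoc] at this
  exact this

end Vale.Agent.P287Z.L
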