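import Vale.Agent.P287Z.L.Basic2

/-!
The dual of a lattice.
-/

namespace Vale.Agent.P287Z.L

open MvPolynomial Module Filter Matrix Vale.Agent.P287 Vale.Agent.P287.Theta

namespace DualH

theorem hg_det' {n : ℕ} {M : Matrix (Fin n) (Fin n) P3} {a b : Fin n → ℤ}
    (h : ∀ i j, Hg (a i + b j) (M i j)) : Hg (∑ i, a i + ∑ j, b j) M.det := by
  rw [Matrix.det_apply']
  refine IsWeightedHomogeneous.sum _ _ _ fun σ _ => ?_
  have k := IsWeightedHomogeneous.prod Finset.univ (fun i => M (σ i) i) (fun i => a (σ i) + b i)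
    fun i _ => h _ _
  rw [Finset.sum_add_distrib, Equiv.sum_comp σ a] at k
  rw [← map_intCast (C : ℂ →+* P3)]
  exact k.C_mul _

theorem loc {n₀ n₁ : ℕ} {e : Fin n₀ → ℤ} {d : Fin n₁ → ℤ} {S : Matrix (Fin n₀) (Fin n₁) P3}
    (hS : ∀ i j, Hg (d j - e i) (S i j)) {p : Fin 3 → ℂ} (hp : p ≠ 0)
    (hi : Function.Injective (S.map (eval p)).mulVec) {k : ℤ} {v : Fin n₁ → K}
    (hv : v ∈ Fr (-d) k) :
    ∃ δ y, U1 p δ y ∧ ∃ x ∈ Fr (-e) (δ + k), (S.map ev)ᵀ *ᵥ x = y • v := by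
  obtain ⟨l, hl, hl1⟩ : ∃ l : P3, Hg 1 l ∧ eval p l = 1 := by
    obtain ⟨i, hi⟩ := Function.ne_iff.1 hp
    exact ⟨C (p i)⁻¹ * X i, (isWeightedHomogeneous_X ℂ _ i).C_mul _, by
      rw [map_mul, eval_C, eval_X, inv_mul_cancel₀ hi]⟩
  obtain ⟨Q, hQ⟩ : ∃ Q : Matrix (Fin n₁) (Fin n₀) ℂ, Q * S.map (eval p) = 1 := by
    obtain ⟨g, hg⟩ := (S.map (eval p)).mulVecLin.exists_leftInverse_of_injective
      (LinearMap.ker_eq_bot.2 hi)
    refine ⟨LinearMap.toMatrix' g, Matrix.toLin'.injective ?_⟩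
    rw [Matrix.toLin'_mul, Matrix.toLin'_toMatrix', Matrix.toLin'_one]
    exact hg
  obtain ⟨m, hm⟩ : ∃ m : ℤ, ∀ a, 0 ≤ m + e a := by
    obtain ⟨m, hm⟩ := (Set.finite_range fun a => -e a).bddAbove
    exact ⟨m, fun a => by linarith [hm ⟨a, rfl⟩]⟩
  obtain ⟨P, hP, hP1⟩ : ∃ P : Matrix (Fin n₁) (Fin n₀) P3, (∀ b a, Hg (m + e a) (P b a)) ∧
      P.map (eval p) = Q := by
    refine ⟨Matrix.of fun b a => C (Q b a) * l ^ (m + e a).toNat, fun b a => ?_, ?_⟩
    · have k := (hl.pow (m + e a).toNat).C_mul (Q b a)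
      rwa [mul_one, Int.toNat_of_nonneg (hm a)] at k
    · ext b a
      simp [hl1]
  have hM : ∀ b b', Hg (m + d b') ((P * S) b b') := fun b b' =>
    IsWeightedHomogeneous.sum _ _ _ fun a _ => by
      have k := (hP b a).mul (hS a b')
      rwa [show m + e a + (d b' - e a) = m + d b' by ring] at k
  choose w hw hw' using fun b => mem_AA.1 (mem_Fr.1 hv b)
  refine ⟨∑ _b : Fin n₁, m + ∑ b, d b, ev (P * S).det, ⟨_, hg_det' hM, rfl, ?_⟩,
    fun a => ev ((Pᵀ *ᵥ cramer (P * S)ᵀ w) a), mem_Fr.2 fun a => mem_AA.2 ⟨_, ?_, rfl⟩, ?_⟩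
  · rw [RingHom.map_det, RingHom.mapMatrix_apply, Matrix.map_mul, hP1, hQ, det_one]
    exact one_ne_zero
  · refine IsWeightedHomogeneous.sum _ _ _ fun b _ => ?_
    have k1 := hg_det' (M := (P * S).updateRow b w) (a := Function.update (fun _ => m) b k)
      (b := d) fun i j => by
        by_cases h : i = b
        · subst h
          simpa using hw j
        · simpa [Matrix.updateRow_ne h, h] using hM i j
    have k2 := (hP b a).mul k1
    have k3 : ∑ i, Function.update (fun _ => m) b k i = ∑ _i : Fin n₁, m - m + k := by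
      rw [Finset.sum_update_of_mem (Finset.mem_univ b), ← Finset.add_sum_erase _ _
        (Finset.mem_univ b), Finset.sdiff_singleton_eq_erase]
      ring
    rw [← cramer_transpose_apply, k3] at k2
    rwa [show ∑ _b : Fin n₁, m + ∑ b, d b + k - (-e) a =
      m + e a + (∑ _i : Fin n₁, m - m + k + ∑ b, d b) by rw [Pi.neg_apply]; ring]
  · funext b
    have k1 := congrFun (mulVec_cramer (P * S)ᵀ w) b
    rw [det_transpose, transpose_mul, ← mulVec_mulVec] at k1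
    rw [Pi.smul_apply, smul_eq_mul, ← hw', ← map_mul, ← smul_eq_mul, ← Pi.smul_apply, ← k1,
      transpose_mul]
    simp only [mulVec, dotProduct, map_sum, map_mul, transpose_apply, map_apply]

variable {V : Type} [AddCommGroup V] [Module ℂ V] [Module K V] [IsScalarTower ℂ K V]
variable {W : Type} [AddCommGroup W] [Module ℂ W] [Module K W] [IsScalarTower ℂ K W]

theorem mem_Sp' {ι : Type} [Fintype ι] {u : ι → V} {e : ι → ℤ} {k : ℤ} {v : V} :
    v ∈ Sp u e k ↔ ∃ c ∈ Fr e k, ∑ i, c i • u i = v := Iff.rfl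

theorem mem_dual' {β : V →ₗ[K] W →ₗ[K] K} {L : ℤ → Submodule ℂ V} {n : ℕ} {u : Fin n → V}
    {e : Fin n → ℤ} (h : Gen L u e) {k : ℤ} {w : W} :
    w ∈ dual β L k ↔ (LinearMap.pi fun a => β (u a)) w ∈ Fr (-e) k := by
  refine ⟨fun hw => mem_Fr.2 fun a => ?_, fun hw j v hv => ?_⟩
  · rw [Pi.neg_apply, sub_neg_eq_add, add_comm]
    exact hw _ _ (h.mem a)
  · rw [h] at hv
    obtain ⟨c, hc, rfl⟩ := mem_Sp'.1 hv
    rw [map_sum, LinearMap.sum_apply]
    refine sum_mem fun a _ => ?_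
    have k1 := AA_mul (mem_Fr.1 hc a) (mem_Fr.1 hw a)
    rw [show j - e a + (k - (-e) a) = j + k by rw [Pi.neg_apply]; ring] at k1
    rw [map_smul, LinearMap.smul_apply]
    exact k1

theorem rank_null {A B D : Type} [AddCommGroup A] [Module ℂ A] [AddCommGroup B] [Module ℂ B]
    [AddCommGroup D] [Module ℂ D] {j : A →ₗ[ℂ] B} {T : B →ₗ[ℂ] D} (hj : Function.Injective j)
    {p : Submodule ℂ A} {q : Submodule ℂ B} [Module.Finite ℂ q] (h : p.map j = q ⊓ LinearMap.ker T) :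
    finrank ℂ p + finrank ℂ (q.map T) = finrank ℂ q := by
  rw [← (T.domRestrict q).finrank_range_add_finrank_ker, LinearMap.range_domRestrict,
    LinearMap.ker_domRestrict, add_comm, (Submodule.equivMapOfInjective j hj p).finrank_eq, h,
    ← Submodule.finrank_map_subtype_eq, Submodule.map_comap_subtype]

theorem hp_fr {n : ℕ} (e : Fin n → ℤ) : ∀ᶠ k : ℤ in atTop, 2 * (finrank ℂ (Fr e k) : ℤ) =
    n * (k ^ 2 + 3 * k) - 2 * (∑ i, e i) * k + ∑ i, (e i - 1) * (e i - 2) := by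
  filter_upwards [eventually_all.2 fun i => eventually_ge_atTop (e i)] with k hk
  rw [finrank_Fr, Nat.cast_sum, Finset.mul_sum, Finset.sum_congr rfl fun i _ =>
    finrank_AA (k := k - e i) (by linarith [hk i]), Finset.mul_sum, Finset.sum_mul,
    ← nsmul_eq_mul, ← Fin.sum_const, ← Finset.sum_sub_distrib, ← Finset.sum_add_distrib]
  exact Finset.sum_congr rfl fun i _ => by ring

theorem uq {R c y : ℤ} (h : ∀ᶠ k : ℤ in atTop, R * (k ^ 2 + 3 * k) + c * k + y = 0) :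
    R = 0 ∧ c = 0 ∧ y = 0 := by
  obtain ⟨k, hk⟩ := eventually_atTop.1 h
  have h0 := hk k le_rfl
  have h1 := hk (k + 1) (by omega)
  have h2 := hk (k + 2) (by omega)
  have h3 : 2 * R = 0 := by linear_combination h0 - 2 * h1 + h2
  obtain rfl : R = 0 := by omega
  obtain rfl : c = 0 := by linear_combination h1 - h0
  exact ⟨rfl, rfl, by linear_combination h0⟩

end DualH

open DualH in
/-- row DUAL -/
theorem dual_lat (h1 : stNOETH) (h2 : stRES) (h3 : stRSD) (h4 : stSPLIT) (h5 : stVAN) :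
    stDUAL := by
  intro V W _ _ _ _ _ _ _ _ _ _ β L hl hr hL
  obtain ⟨n₀, u, e, hu⟩ := hL.fg
  obtain ⟨n₁, S, d, hS⟩ := h2 V L n₀ u e hL.refl.sat hu
  obtain ⟨r1, r2⟩ := h3 V L n₀ n₁ u e S d hS
  obtain ⟨j, hj⟩ : ∃ j : W →ₗ[K] Fin n₀ → K, j = LinearMap.pi fun a => β (u a) := ⟨_, rfl⟩
  have hm : ∀ {k w}, w ∈ dual β L k ↔ j w ∈ Fr (-e) k := by
    rw [hj]
    exact mem_dual' hu
  have hb : ∀ (c : Fin n₀ → K) w, β (∑ a, c a • u a) w = ∑ a, c a * j w a := fun c w => by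
    simp [hj]
  have hi : Function.Injective j := (injective_iff_map_eq_zero j).2 fun w hw => hr w fun v => by
    obtain ⟨k, y, hy, hv⟩ := hL.full v
    rw [hu] at hv
    obtain ⟨c, -, hc⟩ := mem_Sp'.1 hv
    have k1 := hb c w
    rw [hc, hw, map_smul, LinearMap.smul_apply] at k1
    simpa [hy] using k1
  have hf := fam_dual β L
  refine ⟨⟨hf, FG.of_map j hi (h1 _ _ _ (fg_Fr (-e)) (hf.map j) ?_), fun w => ?_,
    refl_dual β L⟩, fun R c x hp => ?_⟩
  · rintro k _ ⟨w, hw, rfl⟩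
    exact hm.1 hw
  · obtain ⟨k, y, hy, hw⟩ := (lat_Fr (-e)).full (j w)
    exact ⟨k, y, hy, hm.2 (by rwa [map_smul])⟩
  have hk : LinearMap.range j = LinearMap.ker ((S.map ev)ᵀ).mulVecLin := by
    refine Submodule.eq_of_le_of_finrank_eq ?_ ?_
    · rintro _ ⟨w, rfl⟩
      funext b
      have k1 : ∑ a, ev (S a b) • u a = 0 := (hS.syz.mem b).2
      have k2 := hb (fun a => ev (S a b)) w
      rw [k1, map_zero, LinearMap.zero_apply] at k2
      exact k2.symm
    · have k1 := ((S.map ev)ᵀ).mulVecLin.finrank_range_add_finrank_ker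
      have k2 : ((S.map ev)ᵀ).rank = Fintype.card (Fin n₁) := LinearIndependent.rank_matrix hS.li
      have k3 : Function.Bijective β.flip :=
        ⟨(injective_iff_map_eq_zero _).2 fun w hw => hr w fun v => LinearMap.congr_fun hw v,
          LinearMap.flip_surjective_iff₁.2 ((injective_iff_map_eq_zero _).2 fun v hv =>
            hl v fun w => LinearMap.congr_fun hv w)⟩
      have k4 := (LinearEquiv.ofBijective _ k3).finrank_eq.trans (Subspace.dual_finrank_eq (V := V))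
      rw [Matrix.rank] at k2
      rw [k2, finrank_fintype_fun_eq_card, Fintype.card_fin, Fintype.card_fin] at k1
      have k5 := r2 hL.full
      rw [LinearMap.finrank_range_of_inj hi]
      omega
  have hT : ∀ k, (Fr (-e) k).map (((S.map ev)ᵀ).mulVecLin.restrictScalars ℂ) ≤ Fr (-d) k := by
    rintro k _ ⟨x, hx, rfl⟩
    refine mem_Fr.2 fun b => ?_
    show ∑ a, ev (S a b) * x a ∈ _
    refine sum_mem fun a _ => ?_
    have k1 := AA_mul (mem_AA.2 ⟨_, hS.deg a b, rfl⟩) (mem_Fr.1 hx a)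
    rwa [show d b - e a + (k - (-e) a) = k - (-d) b by simp only [Pi.neg_apply]; ring] at k1
  have hv := (h5 _ _ _ ((fam_Fr (-e)).map _) (fg_Fr (-d)) hT fun p hp k v hv =>
    loc hS.deg hp (h4 V L n₀ n₁ u e S d hL.refl hS p hp) hv).1
  have hd : ∀ k, finrank ℂ (dual β L k) + finrank ℂ ((Fr (-e) k).map
      (((S.map ev)ᵀ).mulVecLin.restrictScalars ℂ)) = finrank ℂ (Fr (-e) k) := fun k => by
    refine rank_null (j := j.restrictScalars ℂ) hi (Submodule.ext fun x => ⟨?_, fun hx => ?_⟩)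
    · rintro ⟨w, hw, rfl⟩
      exact ⟨hm.1 hw, hk.le ⟨w, rfl⟩⟩
    · obtain ⟨w, rfl⟩ := hk.ge hx.2
      exact ⟨w, hm.2 hx.1, rfl⟩
  obtain ⟨q1, q2, q3⟩ := uq (R := R - n₀ + n₁) (c := 2 * c + 2 * ∑ i, e i - 2 * ∑ i, d i)
    (y := 2 * x - ∑ i, (e i - 1) * (e i - 2) + ∑ i, (d i - 1) * (d i - 2)) (by
      filter_upwards [hp, hp_fr e, hp_fr d] with k a0 a1 a2
      have a3 : (finrank ℂ (L k) : ℤ) + finrank ℂ (Fr d k) = finrank ℂ (Fr e k) := by
        exact_mod_cast r1 k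
      linear_combination 2 * a3 + a1 - a2 - a0)
  have s : ∀ {n : ℕ} (f : Fin n → ℤ), ∑ i, ((-f) i - 1) * ((-f) i - 2) =
      ∑ i, (f i - 1) * (f i - 2) + 6 * ∑ i, f i := fun f => by
    rw [Finset.mul_sum, ← Finset.sum_add_distrib]
    exact Finset.sum_congr rfl fun i _ => by rw [Pi.neg_apply]; ring
  filter_upwards [hp_fr (-e), hp_fr (-d), hv] with k a1 a2 a3
  have a4 : (finrank ℂ (dual β L k) : ℤ) + finrank ℂ (Fr (-d) k) = finrank ℂ (Fr (-e) k) := by
    rw [← a3]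
    exact_mod_cast hd k
  rw [s] at a1 a2
  simp only [Pi.neg_apply, Finset.sum_neg_distrib] at a1 a2
  linear_combination 2 * a4 + a1 - a2 - (k ^ 2 + 3 * k) * q1 + (k + 3) * q2 - q3

end Vale.Agent.P287Z.L
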