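import Mathlib.LinearAlgebra.CliffordAlgebra.Even
import Mathlib.LinearAlgebra.Matrix.ToLin
import Mathlib.LinearAlgebra.QuadraticForm.Basic
import Mathlib.LinearAlgebra.Dimension.Finrank
import Mathlib.LinearAlgebra.Dimension.Constructions

/-!
The even part of a graded Clifford module given by matrices over a field.
-/

set_option linter.unusedSectionVars false

namespace Vale.Agent.P287Z.L.EvH

open Matrix

variable {F M : Type} [Field F] [AddCommGroup M] [Module F M] {q : QuadraticForm F M}
variable {m n m' n' : Type} [Fintype m] [Fintype n] [Fintype m'] [Fintype n']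
  [DecidableEq m] [DecidableEq n] [DecidableEq m'] [DecidableEq n']

/-- a Clifford module `E` with the projection `π` to the even part and its section `σ` -/
structure Par (q : QuadraticForm F M) (E : M →ₗ[F] Matrix n n F) (π : Matrix m n F)
    (σ : Matrix n m F) : Prop where
  sq : ∀ u, E u * E u = q u • (1 : Matrix n n F)
  ps : π * σ = 1
  odd : ∀ u, E u * (σ * π) = (1 - σ * π) * E u

variable {E : M →ₗ[F] Matrix n n F} {π : Matrix m n F} {σ : Matrix n m F}
variable {E' : M →ₗ[F] Matrix n' n' F} {π' : Matrix m' n' F} {σ' : Matrix n' m' F}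

lemma Par.r1 (h : Par q E π σ) {o : Type} (Z : Matrix m o F) : π * (σ * Z) = Z := by
  rw [← Matrix.mul_assoc, h.ps, Matrix.one_mul]

lemma Par.r2 (h : Par q E π σ) {o : Type} (u : M) (Z : Matrix m o F) :
    π * (E u * (σ * Z)) = 0 := by
  have h1 : E u * (σ * Z) = E u * (σ * π) * (σ * Z) := by
    rw [Matrix.mul_assoc, Matrix.mul_assoc, h.r1]
  rw [h1, h.odd, Matrix.sub_mul, Matrix.sub_mul, Matrix.mul_sub]
  simp only [Matrix.mul_assoc, Matrix.one_mul, h.r1, sub_self]

lemma Par.r3 (h : Par q E π σ) {o : Type} (u : M) (Z : Matrix n o F) :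
    E u * (E u * Z) = q u • Z := by
  rw [← Matrix.mul_assoc, h.sq, Matrix.smul_mul, Matrix.one_mul]

lemma Par.r4 (h : Par q E π σ) {o : Type} (u v : M) (Z : Matrix n o F) :
    E u * (E v * (σ * (π * Z))) = σ * (π * (E u * (E v * Z))) := by
  have h1 : ∀ (w : M) (Y : Matrix n o F), E w * (σ * (π * Y)) = E w * Y - σ * (π * (E w * Y)) :=
    fun w Y => by
      have := congrArg (· * Y) (h.odd w)
      simpa only [Matrix.mul_assoc, Matrix.sub_mul, Matrix.one_mul] using this
  rw [h1, Matrix.mul_sub, h1, sub_sub_cancel]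

lemma Par.r5 (h : Par q E π σ) {o : Type} (u v : M) (Z : Matrix m o F) :
    σ * (π * (E u * (E v * (σ * Z)))) = E u * (E v * (σ * Z)) := by
  rw [← h.r4, h.r1]

/-- the action on the even part -/
def Par.hom (h : Par q E π σ) : CliffordAlgebra.EvenHom q (Matrix m m F) where
  bilin := LinearMap.mk₂ F (fun u v => π * (E u * (E v * σ)))
    (fun _ _ _ => by simp only [map_add, Matrix.add_mul, Matrix.mul_add])
    (fun _ _ _ => by simp only [map_smul, Matrix.smul_mul, Matrix.mul_smul])
    (fun _ _ _ => by simp only [map_add, Matrix.add_mul, Matrix.mul_add])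
    (fun _ _ _ => by simp only [map_smul, Matrix.smul_mul, Matrix.mul_smul])
  contract u := by
    rw [LinearMap.mk₂_apply, h.r3, Matrix.mul_smul, h.ps, Algebra.algebraMap_eq_smul_one]
  contract_mid u v w := by
    simp only [LinearMap.mk₂_apply, Matrix.mul_assoc]
    rw [h.r4, h.r1, h.r3, Matrix.mul_smul, Matrix.mul_smul]

lemma Par.hom_apply (h : Par q E π σ) (u v : M) : h.hom.bilin u v = π * (E u * (E v * σ)) := rfl

variable {Z : Matrix n' n F}

lemma ext_comm {o : Type} (hc : ∀ u, Z * E u = E' u * Z) (u : M) (Y : Matrix n o F) :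
    Z * (E u * Y) = E' u * (Z * Y) := by
  rw [← Matrix.mul_assoc, hc, Matrix.mul_assoc]

lemma blk_comm (h' : Par q E' π' σ') (hc : ∀ u, Z * E u = E' u * Z)
    (hD : Z * (σ * π) = σ' * π' * Z) (u v : M) :
    π' * (Z * σ) * (π * (E u * (E v * σ))) = π' * (E' u * (E' v * σ')) * (π' * (Z * σ)) := by
  have h1 : ∀ Y : Matrix n m F, Z * (σ * (π * Y)) = σ' * (π' * (Z * Y)) := fun Y => by
    simpa only [Matrix.mul_assoc] using congrArg (· * Y) hD
  simp only [Matrix.mul_assoc]
  rw [h1, h'.r4, ext_comm hc, ext_comm hc]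

lemma blk_inj (h : Par q E π σ) (hc : ∀ u, Z * E u = E' u * Z)
    (hD : Z * (σ * π) = σ' * π' * Z) {u : M} (hu : q u ≠ 0) (h0 : π' * (Z * σ) = 0) : Z = 0 := by
  have h1 : Z * σ = 0 := by
    have h2 := congrArg (· * σ) hD
    simp only [Matrix.mul_assoc, h.ps, Matrix.mul_one] at h2
    rw [h2, h0, Matrix.mul_zero]
  have h2 : Z * (σ * π) = 0 := by rw [← Matrix.mul_assoc, h1, Matrix.zero_mul]
  have h3 : Z * E u = 0 := by
    have h4 := congrArg (Z * ·) (h.odd u)
    simp only [Matrix.sub_mul, Matrix.one_mul, Matrix.mul_sub] at h4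
    rw [ext_comm hc, h2, Matrix.mul_zero, ← Matrix.mul_assoc, h2, Matrix.zero_mul, sub_zero] at h4
    exact h4.symm
  have h4 : q u • Z = 0 := by
    rw [← Matrix.mul_one Z, ← Matrix.mul_smul, ← h.sq, ← Matrix.mul_assoc, h3, Matrix.zero_mul]
  exact (smul_eq_zero.1 h4).resolve_left hu

lemma blk_ext (h : Par q E π σ) (h' : Par q E' π' σ') {X : Matrix m' m F}
    (hX : ∀ u v, X * (π * (E u * (E v * σ))) = π' * (E' u * (E' v * σ')) * X) {u : M}
    (hu : q u ≠ 0) : ∃ Y : Matrix n' n F, (∀ v, Y * E v = E' v * (σ' * (X * π))) ∧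
      (∀ v, (σ' * (X * π) + Y) * E v = E' v * (σ' * (X * π) + Y)) ∧
      π' * ((σ' * (X * π) + Y) * σ) = X := by
  have h1 : ∀ a b, σ' * (X * (π * (E a * E b))) = E' a * (E' b * (σ' * (X * π))) := fun a b => by
    have h2 := congrArg (fun T => σ' * (T * π)) (hX a b)
    simp only [Matrix.mul_assoc] at h2
    have h3 := h.r4 a b (1 : Matrix n n F)
    simp only [Matrix.mul_one] at h3
    rw [h3, h.r1, h'.r5] at h2
    exact h2
  have h2 : ∀ v, (q u)⁻¹ • (E' u * (σ' * (X * π)) * E u) * E v = E' v * (σ' * (X * π)) :=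
    fun v => by
      simp only [Matrix.smul_mul, Matrix.mul_assoc]
      rw [h1, h'.r3, smul_smul, inv_mul_cancel₀ hu, one_smul]
  refine ⟨_, h2, fun v => ?_, ?_⟩
  · rw [Matrix.add_mul, h2, Matrix.mul_add, add_comm]
    congr 1
    have h3 := congrArg (· * E u) (h1 v u)
    simp only [Matrix.mul_assoc] at h3
    simp only [Matrix.mul_smul, Matrix.mul_assoc]
    rw [← h3, h.sq]
    simp only [Matrix.mul_smul, Matrix.mul_one, smul_smul, inv_mul_cancel₀ hu, one_smul]
  · simp only [Matrix.add_mul, Matrix.mul_add, Matrix.smul_mul, Matrix.mul_smul, Matrix.mul_assoc,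
      h'.r1, h'.r2, h.ps, Matrix.mul_one, smul_zero, add_zero]

/-- the projection to the coordinates in a subset -/
def prj (F : Type) [Field F] (p : n → Prop) : Matrix {a // p a} n F :=
  (1 : Matrix n n F).submatrix Subtype.val id

/-- the inclusion of the coordinates in a subset -/
def sec (F : Type) [Field F] (p : n → Prop) : Matrix n {a // p a} F :=
  (1 : Matrix n n F).submatrix id Subtype.val

lemma prj_apply (p : n → Prop) (a b) : prj F p a b = if a.1 = b then 1 else 0 := one_apply

lemma sec_apply (p : n → Prop) (a b) : sec F p a b = if a = b.1 then 1 else 0 := one_apply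

lemma prj_sec (p : n → Prop) [DecidablePred p] : prj F p * sec F p = 1 := by
  ext a b
  simp [mul_apply, prj_apply, sec_apply, one_apply, Subtype.ext_iff]

lemma sec_prj (p : n → Prop) [DecidablePred p] [Fintype {a // p a}] :
    sec F p * prj F p = diagonal fun a => if p a then 1 else 0 := by
  ext a b
  simp only [mul_apply, prj_apply, sec_apply, diagonal_apply]
  by_cases ha : p a
  · rw [Finset.sum_eq_single ⟨a, ha⟩ (fun c _ hc => by
      rw [if_neg fun h => hc (Subtype.ext h.symm), zero_mul]) (by simp)]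
    simp [ha]
  · rw [Finset.sum_eq_zero fun c _ => by
      rw [if_neg fun h : a = c.1 => ha (h ▸ c.2), zero_mul]]
    simp [ha]

lemma odd_of (p : n → Prop) [DecidablePred p] {T : Matrix n n F}
    (h : ∀ a b, (p a ↔ p b) → T a b = 0) :
    T * (sec F p * prj F p) = (1 - sec F p * prj F p) * T := by
  rw [sec_prj, Matrix.sub_mul, Matrix.one_mul]
  ext a b
  rw [mul_diagonal, Matrix.sub_apply, diagonal_mul]
  by_cases ha : p a <;> by_cases hb : p b
  · simp [h a b (iff_of_true ha hb)]
  · simp [ha, hb]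
  · simp [ha, hb]
  · simp [h a b (iff_of_false ha hb)]

lemma even_of (p : n → Prop) [DecidablePred p] (p' : n' → Prop) [DecidablePred p']
    {T : Matrix n' n F} (h : ∀ a b, ¬(p' a ↔ p b) → T a b = 0) :
    T * (sec F p * prj F p) = sec F p' * prj F p' * T := by
  rw [sec_prj, sec_prj]
  ext a b
  rw [mul_diagonal, diagonal_mul]
  by_cases ha : p' a <;> by_cases hb : p b
  · simp [ha, hb]
  · simp [h a b (by tauto)]
  · simp [h a b (by tauto)]
  · simp [ha, hb]

lemma sq_of {A : Type} [Ring A] [Algebra F A] (h2 : (2 : F) ≠ 0) (e : n → A) (G : Matrix n n F)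
    (h : ∀ i j, e i * e j + e j * e i = (2 * G i j) • (1 : A)) (u : n → F) :
    Fintype.linearCombination F e u * Fintype.linearCombination F e u =
      G.toQuadraticForm' u • (1 : A) := by
  have h1 : Fintype.linearCombination F e u * Fintype.linearCombination F e u =
      ∑ i, ∑ j, (u i * u j) • (e i * e j) := by
    simp only [Fintype.linearCombination_apply, Finset.sum_mul, Finset.mul_sum, smul_mul_smul_comm]
    exact Finset.sum_comm
  have h3 : ∑ i, ∑ j, (u i * u j) • (e i * e j) = ∑ i, ∑ j, (u i * u j) • (e j * e i) := by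
    rw [Finset.sum_comm]
    simp only [mul_comm]
  refine smul_right_injective A h2 ?_
  show (2 : F) • _ = (2 : F) • _
  rw [two_smul, h1]
  nth_rewrite 2 [h3]
  simp only [← Finset.sum_add_distrib, ← smul_add, h, smul_smul, ← Finset.sum_smul]
  congr 1
  simp only [toQuadraticForm', LinearMap.BilinMap.toQuadraticMap_apply, toLinearMap₂'_apply,
    Finset.mul_sum, smul_eq_mul]
  exact Finset.sum_congr rfl fun i _ => Finset.sum_congr rfl fun j _ => by ring

/-- two subspaces with the same injective image have the same dimension -/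
lemma fin_eq {U U' W : Type} [AddCommGroup U] [Module F U] [AddCommGroup U'] [Module F U']
    [AddCommGroup W] [Module F W] (S : Submodule F U) (S' : Submodule F U') (α : U →ₗ[F] W)
    (β : U' →ₗ[F] W) (hα : ∀ x ∈ S, α x = 0 → x = 0) (hβ : ∀ x ∈ S', β x = 0 → x = 0)
    (h1 : ∀ x ∈ S, ∃ y ∈ S', β y = α x) (h2 : ∀ y ∈ S', ∃ x ∈ S, α x = β y) :
    Module.finrank F S = Module.finrank F S' := by
  have i1 : Function.Injective (α ∘ₗ S.subtype) :=
    (injective_iff_map_eq_zero _).2 fun x hx => Subtype.ext (hα _ x.2 hx)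
  have i2 : Function.Injective (β ∘ₗ S'.subtype) :=
    (injective_iff_map_eq_zero _).2 fun x hx => Subtype.ext (hβ _ x.2 hx)
  have h3 : LinearMap.range (α ∘ₗ S.subtype) = LinearMap.range (β ∘ₗ S'.subtype) := by
    refine le_antisymm ?_ ?_
    · rintro _ ⟨x, rfl⟩
      obtain ⟨y, hy, h⟩ := h1 _ x.2
      exact ⟨⟨y, hy⟩, h⟩
    · rintro _ ⟨y, rfl⟩
      obtain ⟨x, hx, h⟩ := h2 _ y.2
      exact ⟨⟨x, hx⟩, h⟩
  rw [← LinearMap.finrank_range_of_inj i1, ← LinearMap.finrank_range_of_inj i2, h3]

end Vale.Agent.P287Z.L.EvH
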