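import Vale.Agent.P287Z.L.Sk

/-!
Free modules over the fibres of the even Clifford order.
-/

namespace Vale.Agent.P287Z.L

open Module Matrix

namespace Fib

variable {V : Type} [AddCommGroup V] [Module ℂ V] {a : ℕ}

/-- a combination of the vectors `w, I w, J w, I J w` -/
def cmb (I J : V →ₗ[ℂ] V) (w : Fin a → V) (c : Fin 4 → Fin a → ℂ) : V :=
  ∑ t, (c 0 t • w t + c 1 t • I (w t) + c 2 t • J (w t) + c 3 t • I (J (w t)))

theorem cmb_map {I J D : V →ₗ[ℂ] V} (h1 : ∀ v, D (I v) = I (D v)) (h2 : ∀ v, D (J v) = J (D v))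
    (w : Fin a → V) (c : Fin 4 → Fin a → ℂ) :
    D (cmb I J w c) = cmb I J (fun t => D (w t)) c := by
  simp only [cmb, map_sum, map_add, map_smul, h1, h2]

theorem cmb_add (I J : V →ₗ[ℂ] V) (w w' : Fin a → V) (c : Fin 4 → Fin a → ℂ) :
    cmb I J (fun t => w t + w' t) c = cmb I J w c + cmb I J w' c := by
  simp only [cmb, map_add, smul_add, ← Finset.sum_add_distrib]
  exact Finset.sum_congr rfl fun t _ => by abel

theorem cmb_smul (I J : V →ₗ[ℂ] V) (r : ℂ) (w : Fin a → V) (c : Fin 4 → Fin a → ℂ) :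
    cmb I J (fun t => r • w t) c = r • cmb I J w c := by
  simp only [cmb, map_smul, Finset.smul_sum, smul_add, smul_comm r]

theorem cmb_lin (I J : V →ₗ[ℂ] V) (r : ℂ) (w : Fin a → V) (c c' : Fin 4 → Fin a → ℂ) :
    cmb I J w (c + r • c') = cmb I J w c + r • cmb I J w c' := by
  simp only [cmb, Finset.smul_sum, ← Finset.sum_add_distrib, Pi.add_apply, Pi.smul_apply,
    smul_eq_mul]
  exact Finset.sum_congr rfl fun t _ => by module

theorem eig_zero {I : V →ₗ[ℂ] V} {r : ℂ} (hr : r ≠ 0) {x y : V} (hx : I x = r • x)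
    (hy : I y = -r • y) (h : x + y = 0) : x = 0 ∧ y = 0 := by
  have e : y = -x := (neg_eq_of_add_eq_zero_right h).symm
  rw [e, map_neg, hx] at hy
  have k : (2 * r) • x = 0 := by
    have : (2 * r) • x = -r • -x - -(r • x) := by module
    rw [this, ← hy, sub_self]
  have hx0 : x = 0 := (smul_eq_zero.1 k).resolve_left (mul_ne_zero two_ne_zero hr)
  exact ⟨hx0, by rw [e, hx0, neg_zero]⟩

/-- modules over a matrix algebra -/
theorem m2 [FiniteDimensional ℂ V] {I J : V →ₗ[ℂ] V} {α β : ℂ} (hα : α ≠ 0) (hβ : β ≠ 0)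
    (hI : ∀ v, I (I v) = α • v) (hJ : ∀ v, J (J v) = β • v) (hIJ : ∀ v, I (J v) = -J (I v))
    (W : Submodule ℂ V) (h1 : ∀ v ∈ W, I v ∈ W) (h2 : ∀ v ∈ W, J v ∈ W)
    (hW : finrank ℂ W = 4 * a) :
    ∃ w : Fin a → V, (∀ t, w t ∈ W) ∧ ∀ c, cmb I J w c = 0 → c = 0 := by
  obtain ⟨r, hr⟩ := IsSepClosed.exists_eq_mul_self α
  have hr0 : r ≠ 0 := fun h => hα (by rw [hr, h, mul_zero])
  let P : Submodule ℂ V := W ⊓ LinearMap.ker (I - r • LinearMap.id)
  have hP : ∀ v, v ∈ P ↔ v ∈ W ∧ I v = r • v := fun v => by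
    simp only [P, Submodule.mem_inf, LinearMap.mem_ker, LinearMap.sub_apply, LinearMap.smul_apply,
      LinearMap.id_apply, sub_eq_zero]
  have key : ∀ x ∈ P, ∀ y ∈ P, x + J y = 0 → x = 0 ∧ y = 0 := by
    intro x hx y hy h
    obtain ⟨k1, k2⟩ := eig_zero hr0 ((hP x).1 hx).2 (y := J y)
      (by rw [hIJ, ((hP y).1 hy).2, map_smul, neg_smul]) h
    have := hJ y
    rw [k2, map_zero] at this
    exact ⟨k1, (smul_eq_zero.1 this.symm).resolve_left hβ⟩
  let φ : (P × P) →ₗ[ℂ] V := P.subtype.coprod (J ∘ₗ P.subtype)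
  have hφ : Function.Injective φ := by
    rw [injective_iff_map_eq_zero]
    intro p hp
    obtain ⟨k1, k2⟩ := key p.1 p.1.2 p.2 p.2.2 hp
    exact Prod.ext (Subtype.ext k1) (Subtype.ext k2)
  have hrange : LinearMap.range φ = W := by
    apply le_antisymm
    · rintro _ ⟨p, rfl⟩
      exact W.add_mem ((hP _).1 p.1.2).1 (h2 _ ((hP _).1 p.2.2).1)
    · intro v hv
      have m1 : (2 * r)⁻¹ • (I v + r • v) ∈ P := by
        refine P.smul_mem _ ((hP _).2 ⟨W.add_mem (h1 v hv) (W.smul_mem _ hv), ?_⟩)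
        rw [map_add, map_smul, hI, hr]
        module
      have m2 : (2 * r * β)⁻¹ • J (r • v - I v) ∈ P := by
        refine P.smul_mem _ ((hP _).2 ⟨h2 _ (W.sub_mem (W.smul_mem _ hv) (h1 v hv)), ?_⟩)
        rw [hIJ, map_sub I, map_smul, hI, hr]
        simp only [map_sub, map_smul]
        module
      refine ⟨(⟨_, m1⟩, ⟨_, m2⟩), ?_⟩
      change (2 * r)⁻¹ • (I v + r • v) + J ((2 * r * β)⁻¹ • J (r • v - I v)) = v
      rw [map_smul, hJ]
      match_scalars <;> field_simp <;> ring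
  have hd : finrank ℂ P = Fintype.card (Fin a ⊕ Fin a) := by
    have := LinearMap.finrank_range_of_inj hφ
    rw [hrange, hW, finrank_prod] at this
    rw [Fintype.card_sum, Fintype.card_fin]
    omega
  let b : Basis (Fin a ⊕ Fin a) ℂ P := (finBasisOfFinrankEq ℂ P hd).reindex (Fintype.equivFin _).symm
  have hb : ∀ g g' : Fin a → ℂ, ∑ t, (g t • (b (.inl t) : V) + g' t • (b (.inr t) : V)) = 0 →
      ∀ t, g t = 0 ∧ g' t = 0 := by
    intro g g' h t
    have := Fintype.linearIndependent_iff.1 b.linearIndependent (Sum.elim g g') (by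
      apply Subtype.ext
      rw [Fintype.sum_sum_type, ← Finset.sum_add_distrib]
      simpa using h)
    exact ⟨this (.inl t), this (.inr t)⟩
  refine ⟨fun t => b (.inl t) + J (b (.inr t)), fun t =>
    W.add_mem ((hP _).1 (b _).2).1 (h2 _ ((hP _).1 (b _).2).1), fun c hc => ?_⟩
  obtain ⟨k1, k2⟩ := key
    (∑ t, ((c 0 t + r * c 1 t) • (b (.inl t) : V) + (β * (c 2 t + r * c 3 t)) • (b (.inr t) : V)))
    (P.sum_mem fun t _ => P.add_mem (P.smul_mem _ (b _).2) (P.smul_mem _ (b _).2))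
    (∑ t, ((c 2 t - r * c 3 t) • (b (.inl t) : V) + (c 0 t - r * c 1 t) • (b (.inr t) : V)))
    (P.sum_mem fun t _ => P.add_mem (P.smul_mem _ (b _).2) (P.smul_mem _ (b _).2)) (by
      rw [← hc, cmb, map_sum, ← Finset.sum_add_distrib]
      refine Finset.sum_congr rfl fun t _ => ?_
      simp only [map_add, map_smul, hJ, hIJ, ((hP _).1 (b _).2).2]
      module)
  ext i t
  obtain ⟨e1, e2⟩ := hb _ _ k1 t
  obtain ⟨e3, e4⟩ := hb _ _ k2 t
  have e5 := (mul_eq_zero.1 e2).resolve_left hβ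
  fin_cases i
  · change c 0 t = 0
    linear_combination (e1 + e4) / 2
  · exact (mul_eq_zero.1 (show r * c 1 t = 0 by linear_combination (e1 - e4) / 2)).resolve_left hr0
  · change c 2 t = 0
    linear_combination (e5 + e3) / 2
  · exact (mul_eq_zero.1 (show r * c 3 t = 0 by linear_combination (e5 - e3) / 2)).resolve_left hr0

/-- the eigenspaces of an involution of trace zero -/
theorem half [FiniteDimensional ℂ V] {D : V →ₗ[ℂ] V} {r : ℂ} (hr : r ≠ 0)
    (hD : ∀ v, D (D v) = (r * r) • v) (ht : LinearMap.trace ℂ V D = 0)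
    (hV : finrank ℂ V = 8 * a) :
    finrank ℂ (LinearMap.ker (D - r • LinearMap.id)) = 4 * a := by
  have hp : LinearMap.IsProj (LinearMap.ker (D - r • LinearMap.id))
      ((2 * r)⁻¹ • (D + r • LinearMap.id)) := by
    constructor
    · intro v
      simp only [LinearMap.mem_ker, LinearMap.sub_apply, LinearMap.smul_apply, LinearMap.id_apply,
        LinearMap.add_apply, map_smul, map_add, hD]
      module
    · intro v hv
      simp only [LinearMap.mem_ker, LinearMap.sub_apply, LinearMap.smul_apply, LinearMap.id_apply,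
        sub_eq_zero] at hv
      simp only [LinearMap.smul_apply, LinearMap.id_apply, LinearMap.add_apply, hv]
      match_scalars
      field_simp
      ring
  have := hp.trace
  rw [map_smul, map_add, map_smul, ht, LinearMap.trace_id, hV, smul_eq_mul, smul_eq_mul] at this
  have e : ((finrank ℂ (LinearMap.ker (D - r • LinearMap.id)) : ℕ) : ℂ) = ((4 * a : ℕ) : ℂ) := by
    rw [← this]
    push_cast
    field_simp
    ring
  exact_mod_cast e

theorem free [FiniteDimensional ℂ V] {I J D : V →ₗ[ℂ] V} {α β s : ℂ} (hV : finrank ℂ V = 8 * a)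
    (hα : α ≠ 0) (hβ : β ≠ 0) (hI : ∀ v, I (I v) = α • v) (hJ : ∀ v, J (J v) = β • v)
    (hIJ : ∀ v, I (J v) = -J (I v)) (h1 : ∀ v, D (I v) = I (D v)) (h2 : ∀ v, D (J v) = J (D v))
    (hD : ∀ v, D (D v) = s • v) (ht : s ≠ 0 → LinearMap.trace ℂ V D = 0)
    (hk : s = 0 → ∀ w, D w = 0 → ∃ w', w = D w') :
    ∃ w : Fin a → V, ∀ c c', cmb I J w c + D (cmb I J w c') = 0 → c = 0 ∧ c' = 0 := by
  by_cases hs : s = 0
  · have e : LinearMap.ker D = LinearMap.range D := by
      ext v
      constructor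
      · intro hv
        obtain ⟨w, hw⟩ := hk hs v hv
        exact ⟨w, hw.symm⟩
      · rintro ⟨w, rfl⟩
        rw [LinearMap.mem_ker, hD, hs, zero_smul]
    have hd := LinearMap.finrank_range_add_finrank_ker D
    rw [e, hV] at hd
    obtain ⟨u, hu, hc⟩ := m2 (a := a) hα hβ hI hJ hIJ (LinearMap.range D)
      (by rintro _ ⟨w, rfl⟩; exact ⟨_, h1 w⟩) (by rintro _ ⟨w, rfl⟩; exact ⟨_, h2 w⟩) (by omega)
    choose w hw using hu
    obtain rfl : u = fun t => D (w t) := funext fun t => (hw t).symm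
    refine ⟨w, fun c c' h => ?_⟩
    have k := congrArg D h
    rw [map_add, hD, hs, zero_smul, add_zero, map_zero, cmb_map h1 h2] at k
    have k0 := hc c k
    refine ⟨k0, hc c' ?_⟩
    rw [← cmb_map h1 h2, ← h, k0]
    simp [cmb]
  · obtain ⟨r, hr⟩ := IsSepClosed.exists_eq_mul_self s
    have hr0 : r ≠ 0 := fun h => hs (by rw [hr, h, mul_zero])
    have ex : ∀ r : ℂ, r ≠ 0 → s = r * r → ∃ u : Fin a → V, (∀ c, D (cmb I J u c) =
        r • cmb I J u c) ∧ ∀ c, cmb I J u c = 0 → c = 0 := by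
      intro r h0 hr
      have hm : ∀ v, v ∈ LinearMap.ker (D - r • LinearMap.id) ↔ D v = r • v := fun v => by
        simp only [LinearMap.mem_ker, LinearMap.sub_apply, LinearMap.smul_apply,
          LinearMap.id_apply, sub_eq_zero]
      obtain ⟨u, hu, hc⟩ := m2 (a := a) hα hβ hI hJ hIJ (LinearMap.ker (D - r • LinearMap.id))
        (fun v hv => (hm _).2 (by rw [h1, (hm _).1 hv, map_smul]))
        (fun v hv => (hm _).2 (by rw [h2, (hm _).1 hv, map_smul]))
        (half h0 (hr ▸ hD) (ht hs) hV)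
      refine ⟨u, fun c => ?_, hc⟩
      rw [cmb_map h1 h2, ← cmb_smul]
      exact congrArg (fun w => cmb I J w c) (funext fun t => (hm _).1 (hu t))
    obtain ⟨u, hu, hc⟩ := ex r hr0 hr
    obtain ⟨u', hu', hc'⟩ := ex (-r) (neg_ne_zero.2 hr0) (by rw [hr, neg_mul_neg])
    refine ⟨fun t => u t + u' t, fun c c' h => ?_⟩
    obtain ⟨k1, k2⟩ := eig_zero hr0 (hu (c + r • c')) (hu' (c + -r • c')) (by
      rw [← h, cmb_add, cmb_add, cmb_lin, cmb_lin, map_add, hu, hu']
      abel)
    have e1 := hc _ k1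
    have e2 := hc' _ k2
    constructor
    · have : c = (2⁻¹ : ℂ) • ((c + r • c') + (c + -r • c')) := by module
      rw [this, e1, e2, add_zero, smul_zero]
    · have : (2 * r) • c' = (c + r • c') - (c + -r • c') := by module
      rw [e1, e2, sub_zero] at this
      exact (smul_eq_zero.1 this).resolve_left (mul_ne_zero two_ne_zero hr0)

end Fib

theorem fib : stFIB := by
  intro ι _ _ a I J D α β s hc hα hβ hI hJ hIJ h1 h2 hD ht hk
  obtain ⟨w, hw⟩ := Fib.free (a := a) (I := toLin' I) (J := toLin' J) (D := toLin' D) (α := α)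
    (β := β) (s := s) (by rw [finrank_fintype_fun_eq_card, hc]) hα hβ
    (fun v => by rw [toLin'_apply, toLin'_apply, mulVec_mulVec, hI, smul_mulVec, one_mulVec])
    (fun v => by rw [toLin'_apply, toLin'_apply, mulVec_mulVec, hJ, smul_mulVec, one_mulVec])
    (fun v => by simp only [toLin'_apply, mulVec_mulVec, hIJ, neg_mulVec])
    (fun v => by simp only [toLin'_apply, mulVec_mulVec, h1])
    (fun v => by simp only [toLin'_apply, mulVec_mulVec, h2])
    (fun v => by rw [toLin'_apply, toLin'_apply, mulVec_mulVec, hD, smul_mulVec, one_mulVec])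
    (fun h => by rw [Matrix.trace_toLin'_eq, ht h]) hk
  refine ⟨w, Fintype.linearIndependent_iff.2 fun g hg => ?_⟩
  obtain ⟨k1, k2⟩ := hw (fun i t => g (Fin.castAdd 4 i, t)) (fun i t => g (Fin.natAdd 4 i, t)) (by
    rw [← hg, Fintype.sum_prod_type_right, Fib.cmb, Fib.cmb, map_sum, ← Finset.sum_add_distrib]
    refine Finset.sum_congr rfl fun t _ => ?_
    rw [Fin.sum_univ_eight]
    simp only [toLin'_apply, map_add, map_smul, mulVec_mulVec, ← add_assoc]
    rw [← one_mulVec (w t)]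
    simp only [mulVec_mulVec, Matrix.mul_one]
    rfl)
  rintro ⟨i, t⟩
  refine Fin.addCases (m := 4) (n := 4) (motive := fun i => g (i, t) = 0) (fun j => ?_)
    (fun j => ?_) i
  · exact congrFun (congrFun k1 j) t
  · exact congrFun (congrFun k2 j) t

end Vale.Agent.P287Z.L
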