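import Vale.Agent.P287Z.L.Symm

/-!
The first Chern class of the lattice of homomorphisms.
-/

namespace Vale.Agent.P287Z.L

open MvPolynomial Module Filter Matrix Vale.Agent.P287 Vale.Agent.P287.Theta

namespace H1x

open SymA SymB

variable {C : Cx}

theorem deg_zero {ρ : K} {δ : ℤ} (h0 : ρ ≠ 0)
    (h : ∀ p : Fin 3 → ℂ, p ≠ 0 → ∃ d u u', U1 p d u ∧ U1 p (d + δ) u' ∧ u * ρ = u') : δ = 0 := by
  have h1 : ρ ∈ AA δ := locP aa_refl fun p hp => by
    obtain ⟨d, u, u', k1, k2, e⟩ := h p hp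
    exact ⟨d, u, k1, by rw [smul_eq_mul, e]; exact k2.mem⟩
  have h2 : ρ⁻¹ ∈ AA (-δ) := locP aa_refl fun p hp => by
    obtain ⟨d, u, u', k1, k2, e⟩ := h p hp
    refine ⟨d + δ, u', k2, ?_⟩
    rw [smul_eq_mul, ← e, mul_inv_cancel_right₀ h0, add_neg_cancel_right]
    exact k1.mem
  have := AA_nonneg h1 h0
  have := AA_nonneg h2 (inv_ne_zero h0)
  omega

theorem repr_mem (hC : Ctx C) {k : ℤ} {z : C.B} (hz : z ∈ C.O k) (s : Fin 8) :
    (bo hC).repr z s ∈ AA (k - oz s) := by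
  obtain ⟨c, hc, rfl⟩ := Noe.sp.1 hz
  rw [show ob C.G 1 e4 = bo hC from funext fun i => (bo_apply hC i).symm, (bo hC).repr_sum_self]
  exact hc s

theorem sum_oz {a : ℕ} (h : Fin a → ℤ) :
    ∑ s : Fin 8 × Fin a, (oz s.1 + h s.2) = 12 * a + 8 * ∑ i, h i := by
  have e : ∑ s, oz s = 12 := by decide
  simp only [Fintype.sum_prod_type_right, Finset.sum_add_distrib, e, Finset.sum_const,
    Finset.card_univ, Fintype.card_fin, nsmul_eq_mul, Finset.mul_sum]
  push_cast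
  ring

variable {X Y : OL C} {p : Fin 3 → ℂ} {a b : ℕ} {v : Basis (Fin a) C.B X.V}
  {w : Basis (Fin b) C.B Y.V} {h : Fin a → ℤ} {h' : Fin b → ℤ} {d d' : ℤ} {y y' : K}

theorem lb_hom (hC : Ctx C) (hv : LO X p v h d y) (hw : LO Y p w h' d' y') :
    LB (HomF X Y) p (fun t => y • hb (bo hC) v w t)
      fun t => d + (oz t.2.1 + h' t.2.2) - h t.1 := by
  refine ⟨fun t => ?_, (hb (bo hC) v w).linearIndependent.units_smul
    fun _ => Units.mk0 y hv.unit.ne, _, _, hv.unit.mul hw.unit, fun k ψ hψ => Noe.sp.2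
      ⟨fun t => y' * (hb (bo hC) v w).repr ψ t, fun t => ?_, ?_⟩⟩
  · rw [hb_apply, bo_apply]
    exact hv.el_mem _ (Y.stab _ _ _ (o_mem _) _ (hw.mem _))
  · have h1 := repr_mem hC (hw.loc _ _ (hψ _ _ (hv.mem t.1)) t.2.2) t.2.1
    rw [map_smul, Finsupp.smul_apply, smul_eq_mul, ← hb_repr] at h1
    exact AA_cast h1 (by ring)
  · conv_rhs => rw [← (hb (bo hC) v w).sum_repr ψ, Finset.smul_sum]
    refine Finset.sum_congr rfl fun t _ => ?_
    rw [smul_smul, smul_smul]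
    congr 1
    ring

theorem sum_hom (h : Fin a → ℤ) (h' : Fin b → ℤ) (d : ℤ) :
    ∑ t : Σ _ : Fin a, Fin 8 × Fin b, (d + (oz t.2.1 + h' t.2.2) - h t.1) =
      a * (8 * b) * d + a * (12 * b + 8 * ∑ j, h' j) - 8 * b * ∑ i, h i := by
  rw [Fintype.sum_sigma]
  simp only [Finset.sum_sub_distrib, Finset.sum_add_distrib (f := fun _ => d), sum_oz,
    Finset.sum_const, Finset.card_univ, Fintype.card_prod, Fintype.card_fin, nsmul_eq_mul,
    ← Finset.mul_sum]
  push_cast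
  ring

end H1x

open SymA SymB H1x in
theorem h1 (hH : stHOM) (hL : stLF) (hD : stDET) : stH1 := by
  intro C hC X Y a b ha hb'
  obtain ⟨v₀, -⟩ := exists_lo hC hL X ha pt_ne
  obtain ⟨w₀, -⟩ := exists_lo hC hL Y hb' pt_ne
  have := fd_hom (F := K) (B := C.B) (X := X.V) (Y := Y.V)
  obtain ⟨νX, nX, dX⟩ := hD _ X.F _ ((bo hC).smulTower v₀) X.lat
  obtain ⟨νY, nY, dY⟩ := hD _ Y.F _ ((bo hC).smulTower w₀) Y.lat
  obtain ⟨νH, nH, dH⟩ := hD _ (HomF X Y) _ (hb (bo hC) v₀ w₀) (hH C hC X Y).1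
  have key := deg_zero (ρ := νH * νX ^ b / νY ^ a)
    (δ := a * c1 Y.F - b * c1 X.F - 12 * a * b - c1 (HomF X Y))
    (div_ne_zero (mul_ne_zero nH (pow_ne_zero _ nX)) (pow_ne_zero _ nY)) fun p hp => by
      obtain ⟨v, h, d, y, hv⟩ := exists_lo hC hL X ha hp
      obtain ⟨w, h', d', y', hw⟩ := exists_lo hC hL Y hb' hp
      have k1 := ((dX _ _ hv.ob.mem).2 p hp).1 hv.ob
      have k2 := ((dY _ _ hw.ob.mem).2 p hp).1 hw.ob
      have k3 := ((dH _ _ (lb_hom hC hv hw).mem).2 p hp).1 (lb_hom hC hv hw)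
      have e := det_hb hC.alg.lam_comm (lam_nd hC) (bo hC) v₀ v w₀ w
      simp only [bo_apply, Fintype.card_fin] at e
      rw [AlternatingMap.map_smul_univ, Finset.prod_const, smul_eq_mul, sum_hom, Finset.card_univ,
        Fintype.card_sigma, Finset.sum_const, Finset.card_univ, Fintype.card_prod,
        Fintype.card_fin, Fintype.card_fin, Fintype.card_fin, smul_eq_mul] at k3
      rw [sum_oz] at k1 k2
      refine ⟨_, _, _, k3.mul (k1.pow b),
        ((hv.unit.pow (a * (8 * b))).mul (k2.pow a)).cast (by push_cast; ring), ?_⟩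
      rw [div_pow, div_pow, ← e]
      field_simp
  omega

end Vale.Agent.P287Z.L
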