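import Vale.Agent.P287Z.L.Basic

/-!
The family of homomorphisms between two lattices over the order is a lattice.
-/

namespace Vale.Agent.P287Z.L

open MvPolynomial Module Filter Matrix Vale.Agent.P287 Vale.Agent.P287.Theta

namespace HomA

/-- modules over an algebra without non-zero non-units are free -/
theorem ex_basis (R B V : Type) [Field R] [Ring B] [Algebra R B] [AddCommGroup V] [Module R V]
    [Module B V] [IsScalarTower R B V] [FiniteDimensional R V] [Nontrivial B]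
    (h : ∀ x : B, x ≠ 0 → IsUnit x) :
    ∃ a : ℕ, Nonempty (Basis (Fin a) B V) ∧ finrank R V = finrank R B * a := by
  have key : ∀ (D : Type) [DivisionRing D] [Algebra R D] [Module D V] [IsScalarTower R D V],
      ∃ a : ℕ, Nonempty (Basis (Fin a) D V) ∧ finrank R V = finrank R D * a := by
    intro D _ _ _ _
    have := Module.Finite.of_restrictScalars_finite R D V
    exact ⟨finrank D V, ⟨Module.finBasis D V⟩, (Module.finrank_mul_finrank R D V).symm⟩
  exact @key B (DivisionRing.ofIsUnitOrEqZero fun a => (em (a = 0)).symm.imp (h a) id) _ _ _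

variable {V : Type} [AddCommGroup V] [Module ℂ V] [Module K V] [IsScalarTower ℂ K V]
variable {W : Type} [AddCommGroup W] [Module ℂ W] [Module K W] [IsScalarTower ℂ K W]
variable {L : ℤ → Submodule ℂ V} {N : ℤ → Submodule ℂ W}

theorem sp {ι : Type} [Fintype ι] {u : ι → V} {e : ι → ℤ} {k : ℤ} {v : V} :
    v ∈ Sp u e k ↔ ∃ c : ι → K, (∀ i, c i ∈ AA (k - e i)) ∧ ∑ i, c i • u i = v :=
  ⟨fun ⟨c, h1, h2⟩ => ⟨c, fun i => h1 i trivial, h2⟩,
    fun ⟨c, h1, h2⟩ => ⟨c, fun i _ => h1 i, h2⟩⟩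

theorem sp_fam {ι : Type} [Fintype ι] (u : ι → V) (e : ι → ℤ) : Fam (Sp u e) := by
  intro d k a ha v hv
  obtain ⟨c, h1, rfl⟩ := sp.1 hv
  refine sp.2 ⟨fun i => a * c i, fun i => AA_cast (AA_mul ha (h1 i)) (by ring), ?_⟩
  simp only [Finset.smul_sum, mul_smul]

theorem sp_mem {ι : Type} [Fintype ι] (u : ι → V) (e : ι → ℤ) (i : ι) : u i ∈ Sp u e (e i) := by
  classical
  refine sp.2 ⟨Pi.single i 1, fun j => ?_, by simp [Pi.single_apply]⟩
  by_cases h : j = i
  · rw [h, Pi.single_eq_same, sub_self]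
    exact AA_one
  · rw [Pi.single_eq_of_ne h]
    exact Submodule.zero_mem _

theorem sp_le {ι : Type} [Fintype ι] {u : ι → V} {e : ι → ℤ} (hL : Fam L)
    (h : ∀ i, u i ∈ L (e i)) (k : ℤ) : Sp u e k ≤ L k := by
  intro v hv
  obtain ⟨c, h1, rfl⟩ := sp.1 hv
  refine Submodule.sum_mem _ fun i _ => ?_
  simpa using hL _ _ _ (h1 i) _ (h i)

theorem fg_ind (h : FG L) : ∃ (n : ℕ) (u : Fin n → V) (e : Fin n → ℤ), (∀ i, u i ∈ L (e i)) ∧
    ∀ M, Fam M → (∀ i, u i ∈ M (e i)) → ∀ k, L k ≤ M k := by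
  obtain ⟨n, u, e, h⟩ := h
  exact ⟨n, u, e, fun i => (h _).ge (sp_mem u e i), fun M hM hu k => (h k).le.trans (sp_le hM hu k)⟩

theorem fg_of {ι : Type} [Fintype ι] (u : ι → V) (e : ι → ℤ) (hL : Fam L) (h : ∀ i, u i ∈ L (e i))
    (h' : ∀ M, Fam M → (∀ i, u i ∈ M (e i)) → ∀ k, L k ≤ M k) : FG L := by
  have σ := (Fintype.equivFin ι).symm
  refine ⟨_, u ∘ σ, e ∘ σ, fun k => le_antisymm (h' _ (sp_fam _ _) (fun i => ?_) k)
    (sp_le hL (fun i => h (σ i)) k)⟩
  simpa using sp_mem (u ∘ σ) (e ∘ σ) (σ.symm i)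

theorem fam_comap (T : V →ₗ[K] W) (hN : Fam N) (n : ℤ) :
    Fam fun k => (N (k + n)).comap (T.restrictScalars ℂ) := fun d k a ha v hv => by
  show T (a • v) ∈ N (d + k + n)
  rw [map_smul, add_assoc]
  exact hN _ _ a ha _ hv

theorem fam_map (T : V →ₗ[K] W) (hL : Fam L) : Fam fun k => (L k).map (T.restrictScalars ℂ) := by
  rintro d k a ha _ ⟨v, hv, rfl⟩
  exact ⟨a • v, hL _ _ a ha v hv, map_smul T a v⟩

theorem fg_back (T : V →ₗ[K] W) (hT : Function.Injective T) (hL : Fam L)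
    (h : FG fun k => (L k).map (T.restrictScalars ℂ)) : FG L := by
  obtain ⟨n, u, e, h1, h2⟩ := fg_ind h
  choose w hw hw' using h1
  refine fg_of w e hL hw fun M hM hu k v hv => ?_
  obtain ⟨v', h3, h4⟩ := h2 _ (fam_map T hM) (fun i => ⟨w i, hu i, hw' i⟩) k ⟨v, hv, rfl⟩
  exact hT h4 ▸ h3

omit [IsScalarTower ℂ K V] in
theorem mono (hL : Fam L) {j k : ℤ} (h : j ≤ k) : L j ≤ L k := fun v hv => by
  simpa using hL _ _ 1 (one_mem_AA (k := k - j) (by omega)) v hv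

omit [IsScalarTower ℂ K V] in
/-- a common denominator for finitely many vectors -/
theorem full_fin (hL : Fam L) (hF : Full L) {ι : Type} [Fintype ι] (v : ι → V) (e : ι → ℤ) :
    ∃ (d k : ℤ) (y : K), y ≠ 0 ∧ y ∈ AA d ∧ ∀ i j, k ≤ j → y • v i ∈ L (e i + j) := by
  classical
  choose k y h0 h1 using fun i => hF (v i)
  choose d z z0 z1 z2 using fun i => exists_frac (y i)
  obtain ⟨m, hm⟩ := (Set.finite_range fun i => k i - e i).bddAbove
  refine ⟨∑ i, d i, ∑ i, d i + m, ∏ i, z i * y i,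
    Finset.prod_ne_zero_iff.2 fun i _ => mul_ne_zero (z0 i) (h0 i), AA_prod _ fun i _ => z2 i,
    fun i j hj => ?_⟩
  have h2 : k i - e i ≤ m := hm ⟨i, rfl⟩
  rw [← Finset.add_sum_erase _ _ (Finset.mem_univ i)] at hj
  rw [← Finset.mul_prod_erase _ _ (Finset.mem_univ i), mul_comm, mul_smul, mul_smul]
  exact mono hL (by omega) (hL _ _ _ (AA_prod _ fun j _ => z2 j) _ (hL _ _ _ (z1 i) _ (h1 i)))

theorem fg_pi (hL : Fam L) (h : FG L) {ι : Type} [Fintype ι] (e : ι → ℤ) :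
    FG fun k => Submodule.pi Set.univ fun i => L (e i + k) := by
  classical
  obtain ⟨n, u, f, h1, h2⟩ := fg_ind h
  refine fg_of (fun s : ι × Fin n => (Pi.single s.1 (u s.2) : ι → V)) (fun s => f s.2 - e s.1)
    (fun d k a ha v hv i _ => ?_) (fun s i _ => ?_) fun M hM hu k v hv => ?_
  · exact mono hL (by omega) (hL _ _ a ha _ (hv i trivial))
  · by_cases hi : i = s.1
    · rw [hi, Pi.single_eq_same]
      exact mono hL (by simp) (h1 _)
    · rw [Pi.single_eq_of_ne hi]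
      exact Submodule.zero_mem _
  · rw [← Finset.univ_sum_single v]
    refine Submodule.sum_mem _ fun i _ => ?_
    have h3 := h2 _ (fam_comap (LinearMap.single K (fun _ => V) i) hM (-e i))
      (fun b => hu (i, b)) _ (hv i trivial)
    simpa using h3

theorem lat_prod (hL : Lat L) (hN : Lat N) : Lat fun k => (L k).prod (N k) := by
  have hf : Fam fun k => (L k).prod (N k) := fun d k a ha v hv =>
    ⟨hL.fam _ _ a ha _ hv.1, hN.fam _ _ a ha _ hv.2⟩
  refine ⟨hf, ?_, fun v => ?_, fun k v h => ⟨hL.refl k _ fun g hg => ?_, hN.refl k _ fun g hg => ?_⟩⟩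
  · obtain ⟨n, u, e, h1, h2⟩ := fg_ind hL.fg
    obtain ⟨n', u', e', h1', h2'⟩ := fg_ind hN.fg
    refine fg_of (Sum.elim (fun i => (u i, 0)) fun i => (0, u' i)) (Sum.elim e e') hf ?_
      fun M hM hu k v hv => ?_
    · rintro (i | i)
      · exact ⟨h1 i, Submodule.zero_mem _⟩
      · exact ⟨Submodule.zero_mem _, h1' i⟩
    · have k1 := h2 _ (fam_comap (LinearMap.inl K V W) hM 0)
        (fun i => by simpa using hu (.inl i)) k hv.1
      have k2 := h2' _ (fam_comap (LinearMap.inr K V W) hM 0)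
        (fun i => by simpa using hu (.inr i)) k hv.2
      simpa using (M (k + 0)).add_mem k1 k2
  · obtain ⟨d, k, y, y0, y1, y2⟩ := full_fin hL.fam hL.full (fun _ : Unit => v.1) fun _ => 0
    obtain ⟨d', k', z, z0, z1, z2⟩ := full_fin hN.fam hN.full (fun _ : Unit => v.2) fun _ => 0
    refine ⟨max (d' + k) (d + k'), y * z, mul_ne_zero y0 z0, ?_, ?_⟩
    · rw [mul_comm, mul_smul]
      exact mono hL.fam (by omega) (hL.fam _ _ z z1 _ (y2 () k le_rfl))
    · rw [mul_smul]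
      exact mono hN.fam (by omega) (hN.fam _ _ y y1 _ (z2 () k' le_rfl))
  · obtain ⟨d, y, h1, h2⟩ := h g hg
    exact ⟨d, y, h1, h2.1⟩
  · obtain ⟨d, y, h1, h2⟩ := h g hg
    exact ⟨d, y, h1, h2.2⟩

variable {C : Cx}

theorem nontriv (h : Ctx C) : Nontrivial C.B :=
  Module.nontrivial_of_finrank_pos (R := K) (by rw [h.alg.rank]; norm_num)

theorem basis (h : Ctx C) (X : OL C) : ∃ a : ℕ, Nonempty (Basis (Fin a) C.B X.V) ∧ rk X = 8 * a :=
  have := nontriv h
  h.alg.rank ▸ ex_basis K C.B X.V h.div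

theorem hom_fam (X Y : OL C) : Fam (HomF X Y) := fun d k a ha φ hφ j v hv => by
  rw [add_left_comm]
  exact Y.lat.fam _ _ a ha _ (hφ j v hv)

/-- it suffices to test a homomorphism on generators -/
theorem hom_of {X Y : OL C} {n : ℕ} {u : Fin n → X.V} {e : Fin n → ℤ}
    (h : ∀ M, Fam M → (∀ i, u i ∈ M (e i)) → ∀ k, X.F k ≤ M k) {φ : X.V →ₗ[C.B] Y.V} {k : ℤ}
    (hφ : ∀ i, φ (u i) ∈ Y.F (e i + k)) : φ ∈ HomF X Y k := fun j _ hv =>
  h _ (fam_comap (φ.restrictScalars K) Y.lat.fam k) hφ j hv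

theorem hom_lat (hN : stNOETH) (X Y : OL C) : Lat (HomF X Y) := by
  obtain ⟨n, u, e, h1, h2⟩ := fg_ind X.lat.fg
  refine ⟨hom_fam X Y, ?_, fun φ => ?_, fun k φ h j v hv => Y.lat.refl _ _ fun g hg => ?_⟩
  · let T : (X.V →ₗ[C.B] Y.V) →ₗ[K] (Fin n → Y.V) :=
      ⟨⟨fun φ i => φ (u i), fun _ _ => rfl⟩, fun _ _ => rfl⟩
    refine fg_back T ((injective_iff_map_eq_zero T).2 fun φ hφ => LinearMap.ext fun v => ?_)
      (hom_fam X Y) (hN _ _ _ (fg_pi Y.lat.fam Y.lat.fg e) (fam_map T (hom_fam X Y)) ?_)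
    · obtain ⟨k, y, y0, hy⟩ := X.lat.full v
      have h3 := h2 _ (fam_comap (N := fun _ => ⊥) (φ.restrictScalars K)
        (fun _ _ a _ w hw => by rw [(Submodule.mem_bot ℂ).1 hw, smul_zero]; exact zero_mem _) 0)
        (fun i => congrFun hφ i) k hy
      have h4 : y • φ v = 0 := (LinearMap.map_smul_of_tower φ y v).symm.trans h3
      exact (smul_eq_zero.1 h4).resolve_left y0
    · rintro k _ ⟨φ, hφ, rfl⟩ i -
      exact hφ _ _ (h1 i)
  · obtain ⟨d, k, y, y0, -, hy⟩ := full_fin Y.lat.fam Y.lat.full (fun i => φ (u i)) e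
    exact ⟨k, y, y0, hom_of h2 fun i => hy i k le_rfl⟩
  · obtain ⟨d, y, k1, k2⟩ := h g hg
    refine ⟨d, y, k1, ?_⟩
    rw [add_left_comm]
    exact k2 j v hv

theorem fd_hom (X Y : OL C) : FiniteDimensional K (X.V →ₗ[C.B] Y.V) :=
  FiniteDimensional.of_injective (LinearMap.restrictScalarsₗ K C.B X.V Y.V K)
    (LinearMap.restrictScalars_injective K)

end HomA

open HomA in
theorem hom (hN : stNOETH) : stHOM := by
  intro C h X Y
  obtain ⟨a, ⟨b⟩, ha⟩ := basis h X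
  refine ⟨hom_lat hN X Y, ?_, ⟨a, ha⟩, fun h8 => ?_⟩
  · rw [← (b.constr K : (Fin a → Y.V) ≃ₗ[K] (X.V →ₗ[C.B] Y.V)).finrank_eq, ha,
      Module.finrank_pi_fintype, Finset.sum_const, Finset.card_univ, Fintype.card_fin, smul_eq_mul,
      mul_assoc]
  · obtain rfl : a = 1 := by omega
    exact ⟨b.equivFun.trans (LinearEquiv.funUnique (Fin 1) C.B C.B)⟩

end Vale.Agent.P287Z.L
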