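import Vale.Agent.P287Z.L.Basic

/-!
Families, lattices and Hilbert polynomials: first properties.
-/

set_option linter.unusedSectionVars false

namespace Vale.Agent.P287Z.L

open MvPolynomial Module Filter Matrix Vale.Agent.P287 Vale.Agent.P287.Theta

section Fam

variable {V : Type} [AddCommGroup V] [Module ℂ V] [Module K V] [IsScalarTower ℂ K V]
variable {W : Type} [AddCommGroup W] [Module ℂ W] [Module K W] [IsScalarTower ℂ K W]
variable {Y : Type} [AddCommGroup Y] [Module ℂ Y] [Module K Y] [IsScalarTower ℂ K Y]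
variable {ι : Type} {L N : ℤ → Submodule ℂ V} {k j : ℤ} {p : Fin 3 → ℂ} {g : P3}

lemma mem_Fr {e : ι → ℤ} {c : ι → K} : c ∈ Fr e k ↔ ∀ i, c i ∈ AA (k - e i) :=
  ⟨fun h i => h i (Set.mem_univ i), fun h i _ => h i⟩

lemma mem_Sp [Fintype ι] {u : ι → V} {e : ι → ℤ} {v : V} :
    v ∈ Sp u e k ↔ ∃ c : ι → K, (∀ i, c i ∈ AA (k - e i)) ∧ ∑ i, c i • u i = v := by
  simp only [Sp, Submodule.mem_map, mem_Fr, LinearMap.restrictScalars_apply,
    Fintype.linearCombination_apply]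

lemma mem_Syz [Fintype ι] {u : ι → V} {e : ι → ℤ} {c : ι → K} :
    c ∈ Syz u e k ↔ (∀ i, c i ∈ AA (k - e i)) ∧ ∑ i, c i • u i = 0 := by
  simp only [Syz, Submodule.mem_inf, mem_Fr, LinearMap.mem_ker, LinearMap.restrictScalars_apply,
    Fintype.linearCombination_apply]

lemma mem_dual {β : V →ₗ[K] W →ₗ[K] K} {w : W} :
    w ∈ dual β L k ↔ ∀ j, ∀ v ∈ L j, β v w ∈ AA (j + k) := Iff.rfl

lemma mem_sharp [Fintype ι] [DecidableEq ι] {G : Matrix ι ι K} {U : ℤ → Submodule ℂ (ι → K)}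
    {l : ℤ} {w : ι → K} :
    w ∈ sharp G U l k ↔ ∀ j, ∀ v ∈ U j, v ⬝ᵥ G *ᵥ w ∈ AA (j + k + l) := by
  simp only [sharp, mem_dual, Matrix.toLinearMap₂'_apply', add_assoc]

omit [Module K V] [IsScalarTower ℂ K V] in
lemma mem_cast {v : V} (h : v ∈ L k) (e : k = j) : v ∈ L j := e ▸ h

omit [IsScalarTower ℂ K V] in
lemma Fam.smul (h : Fam L) {a : K} {v : V} (ha : a ∈ AA j) (hv : v ∈ L k) {n : ℤ}
    (e : j + k = n) : a • v ∈ L n := e ▸ h j k a ha v hv

omit [IsScalarTower ℂ K V] in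
lemma Fam.mono (h : Fam L) (hk : k ≤ j) : L k ≤ L j := fun v hv => by
  have := h.smul (one_mem_AA (k := j - k) (by omega)) hv (n := j) (by ring)
  rwa [one_smul] at this

lemma fam_AA : Fam AA := fun _ _ _ ha _ hv => AA_mul ha hv

lemma fam_Fr (e : ι → ℤ) : Fam (Fr e) := fun _ _ _ ha _ hv =>
  mem_Fr.2 fun i => AA_cast (AA_mul ha (mem_Fr.1 hv i)) (by ring)

lemma fam_Sp [Fintype ι] (u : ι → V) (e : ι → ℤ) : Fam (Sp u e) := by
  intro d k a ha v hv
  obtain ⟨c, hc, rfl⟩ := mem_Sp.1 hv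
  refine mem_Sp.2 ⟨fun i => a * c i, fun i => AA_cast (AA_mul ha (hc i)) (by ring), ?_⟩
  rw [Finset.smul_sum]
  exact Finset.sum_congr rfl fun i _ => mul_smul _ _ _

lemma fam_Syz [Fintype ι] (u : ι → V) (e : ι → ℤ) : Fam (Syz u e) := by
  intro d k a ha c hc
  obtain ⟨h1, h2⟩ := mem_Syz.1 hc
  refine mem_Syz.2 ⟨fun i => AA_cast (AA_mul ha (h1 i)) (by ring), ?_⟩
  have : ∑ i, (a • c) i • u i = a • ∑ i, c i • u i := by
    rw [Finset.smul_sum]
    exact Finset.sum_congr rfl fun i _ => mul_smul _ _ _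
  rw [this, h2, smul_zero]

lemma fam_dual (β : V →ₗ[K] W →ₗ[K] K) (L : ℤ → Submodule ℂ V) : Fam (dual β L) := by
  intro d k a ha w hw j v hv
  rw [map_smul, smul_eq_mul]
  exact AA_cast (AA_mul ha (hw j v hv)) (by ring)

omit [IsScalarTower ℂ K V] in
lemma Fam.sh (h : Fam L) (n : ℤ) : Fam (sh L n) := fun d k _ ha _ hv =>
  h.smul ha hv (by ring)

lemma Fam.map (h : Fam L) (φ : V →ₗ[K] W) : Fam fun k => (L k).map (φ.restrictScalars ℂ) := by
  rintro d k a ha _ ⟨v, hv, rfl⟩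
  exact ⟨a • v, h d k a ha v hv, φ.map_smul a v⟩

lemma Fam.comap {M : ℤ → Submodule ℂ W} (h : Fam M) (φ : V →ₗ[K] W) :
    Fam fun k => (M k).comap (φ.restrictScalars ℂ) := by
  intro d k a ha v hv
  change φ (a • v) ∈ M (d + k)
  rw [map_smul]
  exact h d k a ha _ hv

omit [IsScalarTower ℂ K V] in
lemma Fam.inf (h : Fam L) (h' : Fam N) : Fam fun k => L k ⊓ N k := fun d k a ha v hv =>
  ⟨h d k a ha v hv.1, h' d k a ha v hv.2⟩

omit [IsScalarTower ℂ K V] in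
lemma Fam.sup (h : Fam L) (h' : Fam N) : Fam fun k => L k ⊔ N k := by
  intro d k a ha v hv
  obtain ⟨x, hx, y, hy, rfl⟩ := Submodule.mem_sup.1 hv
  rw [smul_add]
  exact Submodule.add_mem_sup (h d k a ha x hx) (h' d k a ha y hy)

lemma self_mem_Sp [Fintype ι] (u : ι → V) (e : ι → ℤ) (i : ι) : u i ∈ Sp u e (e i) := by
  classical
  refine mem_Sp.2 ⟨Pi.single i 1, fun j => ?_, ?_⟩
  · by_cases h : j = i
    · subst h; rw [Pi.single_eq_same, sub_self]; exact AA_one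
    · rw [Pi.single_eq_of_ne h]; exact Submodule.zero_mem _
  · rw [Finset.sum_eq_single i (fun j _ h => by rw [Pi.single_eq_of_ne h, zero_smul])
      (fun h => absurd (Finset.mem_univ i) h), Pi.single_eq_same, one_smul]

lemma Sp_le [Fintype ι] {u : ι → V} {e : ι → ℤ} (h : Fam L) (hu : ∀ i, u i ∈ L (e i)) (k : ℤ) :
    Sp u e k ≤ L k := by
  intro v hv
  obtain ⟨c, hc, rfl⟩ := mem_Sp.1 hv
  exact Submodule.sum_mem _ fun i _ => h.smul (hc i) (hu i) (by ring)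

lemma Gen.mem [Fintype ι] {u : ι → V} {e : ι → ℤ} (h : Gen L u e) (i : ι) : u i ∈ L (e i) :=
  h (e i) ▸ self_mem_Sp u e i

lemma Gen.eq [Fintype ι] {u : ι → V} {e : ι → ℤ} (h : Gen L u e) : L = Sp u e := funext h

lemma Gen.fam [Fintype ι] {u : ι → V} {e : ι → ℤ} (h : Gen L u e) : Fam L :=
  h.eq ▸ fam_Sp u e

lemma Sp_reindex [Fintype ι] {κ : Type} [Fintype κ] (u : ι → V) (e : ι → ℤ) (σ : κ ≃ ι) (k : ℤ) :
    Sp (u ∘ σ) (e ∘ σ) k = Sp u e k := by
  refine le_antisymm (Sp_le (fam_Sp u e) (fun i => self_mem_Sp u e (σ i)) k)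
    (Sp_le (fam_Sp _ _) (fun i => ?_) k)
  have := self_mem_Sp (u ∘ σ) (e ∘ σ) (σ.symm i)
  simpa using this

lemma Gen.fg [Fintype ι] {u : ι → V} {e : ι → ℤ} (h : Gen L u e) : FG L :=
  ⟨_, u ∘ (Fintype.equivFin ι).symm, e ∘ (Fintype.equivFin ι).symm, fun k =>
    (h k).trans (Sp_reindex u e _ k).symm⟩

lemma fg_Sp [Fintype ι] (u : ι → V) (e : ι → ℤ) : FG (Sp u e) := Gen.fg fun _ => rfl

lemma FG.fam (h : FG L) : Fam L := let ⟨_, _, _, h⟩ := h; h.fam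

lemma gen_Fr [Fintype ι] [DecidableEq ι] (e : ι → ℤ) :
    Gen (Fr e) (fun i => (Pi.single i 1 : ι → K)) e := by
  intro k
  ext c
  have h : ∀ c : ι → K, ∑ i, c i • (Pi.single i 1 : ι → K) = c := fun c =>
    (pi_eq_sum_univ' c).symm
  rw [mem_Fr, mem_Sp]
  refine ⟨fun hc => ⟨c, hc, h c⟩, ?_⟩
  rintro ⟨c', hc, rfl⟩
  rwa [h]

lemma fg_Fr [Fintype ι] (e : ι → ℤ) : FG (Fr e) := by
  classical exact (gen_Fr e).fg

lemma Sp_map [Fintype ι] (u : ι → V) (e : ι → ℤ) (φ : V →ₗ[K] W) (k : ℤ) :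
    (Sp u e k).map (φ.restrictScalars ℂ) = Sp (fun i => φ (u i)) e k := by
  ext w
  simp only [Submodule.mem_map, mem_Sp, LinearMap.restrictScalars_apply]
  constructor
  · rintro ⟨_, ⟨c, hc, rfl⟩, rfl⟩
    exact ⟨c, hc, by simp only [map_sum, map_smul]⟩
  · rintro ⟨c, hc, rfl⟩
    exact ⟨_, ⟨c, hc, rfl⟩, by simp only [map_sum, map_smul]⟩

lemma FG.map (h : FG L) (φ : V →ₗ[K] W) : FG fun k => (L k).map (φ.restrictScalars ℂ) := by
  obtain ⟨n, u, e, h⟩ := h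
  exact ⟨n, fun i => φ (u i), e, fun k => by rw [← Sp_map, ← h k]⟩

/-- finite generation can be read on an injective image -/
lemma FG.of_map (φ : V →ₗ[K] W) (hφ : Function.Injective φ)
    (h : FG fun k => (L k).map (φ.restrictScalars ℂ)) : FG L := by
  obtain ⟨n, w, e, h⟩ := h
  have h1 : ∀ i, ∃ v, φ v = w i := fun i => by
    obtain ⟨v, -, hv⟩ := h.mem i
    exact ⟨v, hv⟩
  choose u hu using h1
  refine ⟨n, u, e, fun k => ?_⟩
  apply Submodule.map_injective_of_injective (f := φ.restrictScalars ℂ) hφ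
  rw [Sp_map]
  simp only [hu]
  exact h k

lemma Sp_sh [Fintype ι] (u : ι → V) (e : ι → ℤ) (n k : ℤ) :
    sh (Sp u e) n k = Sp u (fun i => e i - n) k := by
  ext v
  simp only [sh, mem_Sp, show ∀ i, k + n - e i = k - (e i - n) from fun i => by ring]

lemma Fr_sh (e : ι → ℤ) (n k : ℤ) : sh (Fr e) n k = Fr (fun i => e i - n) k := by
  ext v
  simp only [sh, mem_Fr, show ∀ i, k + n - e i = k - (e i - n) from fun i => by ring]

lemma FG.sh (h : FG L) (n : ℤ) : FG (sh L n) := by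
  obtain ⟨m, u, e, h⟩ := h
  exact ⟨m, u, fun i => e i - n, fun k => by rw [← Sp_sh, ← h.eq]⟩

lemma FG.sup (h : FG L) (h' : FG N) : FG fun k => L k ⊔ N k := by
  have hf := h.fam.sup h'.fam
  obtain ⟨m, u, e, h⟩ := h
  obtain ⟨n, w, d, h'⟩ := h'
  refine Gen.fg (u := Sum.elim u w) (e := Sum.elim e d) fun k => le_antisymm (sup_le ?_ ?_) ?_
  · rw [h k]
    exact Sp_le (fam_Sp _ _) (fun i => self_mem_Sp (Sum.elim u w) (Sum.elim e d) (Sum.inl i)) k
  · rw [h' k]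
    exact Sp_le (fam_Sp _ _) (fun i => self_mem_Sp (Sum.elim u w) (Sum.elim e d) (Sum.inr i)) k
  · refine Sp_le hf (fun i => ?_) k
    rcases i with i | i
    · exact Submodule.mem_sup_left (h.mem i)
    · exact Submodule.mem_sup_right (h'.mem i)

/-- the degree `k` part of a free family is a product -/
noncomputable def frEquiv (e : ι → ℤ) (k : ℤ) : Fr e k ≃ₗ[ℂ] (∀ i, AA (k - e i)) where
  toFun c i := ⟨c.1 i, mem_Fr.1 c.2 i⟩
  map_add' _ _ := rfl
  map_smul' _ _ := rfl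
  invFun c := ⟨fun i => c i, mem_Fr.2 fun i => (c i).2⟩
  left_inv _ := rfl
  right_inv _ := rfl

instance finite_Fr [Fintype ι] (e : ι → ℤ) (k : ℤ) : FiniteDimensional ℂ (Fr e k) :=
  Module.Finite.equiv (frEquiv e k).symm

lemma finrank_Fr [Fintype ι] (e : ι → ℤ) (k : ℤ) :
    finrank ℂ (Fr e k) = ∑ i, finrank ℂ (AA (k - e i)) := by
  rw [(frEquiv e k).finrank_eq, finrank_pi_fintype]

instance finite_Sp [Fintype ι] (u : ι → V) (e : ι → ℤ) (k : ℤ) : FiniteDimensional ℂ (Sp u e k) :=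
  Module.Finite.map _ _

lemma FG.finite (h : FG L) (k : ℤ) : FiniteDimensional ℂ (L k) := by
  obtain ⟨n, u, e, h⟩ := h
  rw [h k]; infer_instance

lemma finrank_Sp [Fintype ι] {u : ι → V} (hu : LinearIndependent K u) (e : ι → ℤ) (k : ℤ) :
    finrank ℂ (Sp u e k) = finrank ℂ (Fr e k) :=
  (LinearEquiv.finrank_eq (Submodule.equivMapOfInjective
    ((Fintype.linearCombination K u).restrictScalars ℂ)
    (linearIndependent_iff_injective_fintypeLinearCombination.1 hu) (Fr e k))).symm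

/-- a finitely generated family vanishes in low degrees -/
lemma FG.eq_bot (h : FG L) : ∃ m, ∀ k, k < m → L k = ⊥ := by
  obtain ⟨n, u, e, h⟩ := h
  refine ⟨-∑ i, |e i|, fun k hk => ?_⟩
  rw [h k, eq_bot_iff]
  intro v hv
  obtain ⟨c, hc, rfl⟩ := mem_Sp.1 hv
  refine Finset.sum_eq_zero fun i _ => ?_
  have h1 : |e i| ≤ ∑ i, |e i| :=
    Finset.single_le_sum (f := fun i => |e i|) (fun i _ => abs_nonneg _) (Finset.mem_univ i)
  have h2 := neg_abs_le (e i)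
  have h3 := hc i
  rw [AA_neg (by omega)] at h3
  rw [(Submodule.mem_bot ℂ).1 h3, zero_smul]

/-! Local membership -/

omit [IsScalarTower ℂ K V] in
lemma LocP.locG {v : V} (h : LocP L p k v) (hp : eval p g = 0) : LocG L g k v :=
  let ⟨d, y, h1, h2⟩ := h; ⟨d, y, h1.ug hp, h2⟩

omit [IsScalarTower ℂ K V] in
lemma locP_of_mem {v : V} (h : v ∈ L k) : LocP L p k v :=
  ⟨0, 1, u1_one p, by rwa [one_smul, zero_add]⟩

omit [IsScalarTower ℂ K V] in
lemma locG_of_mem (hg : Prime g) {v : V} (h : v ∈ L k) : LocG L g k v :=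
  ⟨0, 1, ug_one hg, by rwa [one_smul, zero_add]⟩

omit [IsScalarTower ℂ K V] in
lemma Refl.locP (h : Refl L) {v : V} (hv : ∀ p : Fin 3 → ℂ, p ≠ 0 → LocP L p k v) : v ∈ L k :=
  h k v fun _ hg => let ⟨p, h1, h2⟩ := exists_point hg; (hv p h1).locG h2

omit [IsScalarTower ℂ K V] in
lemma Refl.sat (h : Refl L) : Sat L := fun k v hv => h k v fun _ hg =>
  let ⟨i, hi⟩ := exists_ug_coord hg.1; ⟨1, tvec i, hi, mem_cast (hv i) (add_comm _ _)⟩

omit [IsScalarTower ℂ K V] in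
/-- saturation for powers of the coordinates -/
lemma Refl.sat_pow (h : Refl L) {v : V} (n : ℕ) (hv : ∀ i : Fin 3, tvec i ^ n • v ∈ L (k + n)) :
    v ∈ L k := h k v fun g hg =>
  let ⟨i, hi⟩ := exists_ug_coord hg.1
  ⟨n * 1, tvec i ^ n, hi.pow hg.1 n, mem_cast (hv i) (by ring)⟩

omit [IsScalarTower ℂ K V] in
lemma LocG.add (hL : Fam L) (hg : Prime g) {v w : V} (hv : LocG L g k v) (hw : LocG L g k w) :
    LocG L g k (v + w) := by
  obtain ⟨d, y, h1, h2⟩ := hv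
  obtain ⟨d', y', h1', h2'⟩ := hw
  refine ⟨d + d', y * y', h1.mul hg h1', ?_⟩
  rw [smul_add]
  refine Submodule.add_mem _ ?_ ?_
  · rw [mul_comm, mul_smul]; exact hL.smul h1'.mem h2 (by ring)
  · rw [mul_smul]; exact hL.smul h1.mem h2' (by ring)

omit [IsScalarTower ℂ K V] in
lemma LocP.add (hL : Fam L) {v w : V} (hv : LocP L p k v) (hw : LocP L p k w) :
    LocP L p k (v + w) := by
  obtain ⟨d, y, h1, h2⟩ := hv
  obtain ⟨d', y', h1', h2'⟩ := hw
  refine ⟨d + d', y * y', h1.mul h1', ?_⟩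
  rw [smul_add]
  refine Submodule.add_mem _ ?_ ?_
  · rw [mul_comm, mul_smul]; exact hL.smul h1'.mem h2 (by ring)
  · rw [mul_smul]; exact hL.smul h1.mem h2' (by ring)

omit [IsScalarTower ℂ K V] in
lemma LocG.smul (hL : Fam L) {v : V} {a : K} (ha : a ∈ AA j) (hv : LocG L g k v) :
    LocG L g (j + k) (a • v) := by
  obtain ⟨d, y, h1, h2⟩ := hv
  refine ⟨d, y, h1, ?_⟩
  rw [smul_comm]
  exact hL.smul ha h2 (by ring)

omit [IsScalarTower ℂ K V] in
lemma LocP.smul (hL : Fam L) {v : V} {a : K} (ha : a ∈ AA j) (hv : LocP L p k v) :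
    LocP L p (j + k) (a • v) := by
  obtain ⟨d, y, h1, h2⟩ := hv
  refine ⟨d, y, h1, ?_⟩
  rw [smul_comm]
  exact hL.smul ha h2 (by ring)

omit [IsScalarTower ℂ K V] in
lemma LocG.of_smul (hg : Prime g) {v : V} {a : K} (ha : Ug g j a) (hv : LocG L g (j + k) (a • v)) :
    LocG L g k v := by
  obtain ⟨d, y, h1, h2⟩ := hv
  exact ⟨d + j, y * a, h1.mul hg ha, by rw [mul_smul]; exact mem_cast h2 (by ring)⟩

omit [IsScalarTower ℂ K V] in
lemma LocP.of_smul {v : V} {a : K} (ha : U1 p j a) (hv : LocP L p (j + k) (a • v)) :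
    LocP L p k v := by
  obtain ⟨d, y, h1, h2⟩ := hv
  exact ⟨d + j, y * a, h1.mul ha, by rw [mul_smul]; exact mem_cast h2 (by ring)⟩

lemma mem_hull (hL : Fam L) {v : V} : v ∈ hull L k ↔ ∀ g, HPrime g → LocG L g k v := by
  refine ⟨fun hv => ?_, fun hv => Submodule.subset_span hv⟩
  induction hv using Submodule.span_induction with
  | mem x hx => exact hx
  | zero => exact fun g hg => locG_of_mem hg.1 (Submodule.zero_mem _)
  | add x y _ _ hx hy => exact fun g hg => (hx g hg).add hL hg.1 (hy g hg)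
  | smul c x _ hx =>
    intro g hg
    have := (hx g hg).smul hL (AA_const c)
    rwa [zero_add, algebraMap_smul] at this

omit [IsScalarTower ℂ K V] in
lemma le_hull (L : ℤ → Submodule ℂ V) (k : ℤ) : L k ≤ hull L k := fun _ hv =>
  Submodule.subset_span fun _ hg => locG_of_mem hg.1 hv

lemma fam_hull (hL : Fam L) : Fam (hull L) := fun _ _ _ ha _ hv =>
  (mem_hull hL).2 fun g hg => ((mem_hull hL).1 hv g hg).smul hL ha

lemma hull_refl (hL : Fam L) : Refl (hull L) := by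
  intro k v hv
  refine (mem_hull hL).2 fun g hg => ?_
  obtain ⟨d, y, h1, h2⟩ := hv g hg
  exact LocG.of_smul hg.1 h1 ((mem_hull hL).1 h2 g hg)

lemma hull_le (hL : Fam L) (hN : Refl N) (h : ∀ k, L k ≤ N k) (k : ℤ) : hull L k ≤ N k := by
  intro v hv
  refine hN k v fun g hg => ?_
  obtain ⟨d, y, h1, h2⟩ := (mem_hull hL).1 hv g hg
  exact ⟨d, y, h1, h _ h2⟩

/-- multiplication by a form passes to the hull -/
lemma hull_smul_le (hL : Fam L) (hN : Refl N) {y : K} {d : ℤ}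
    (h : ∀ k, ∀ v ∈ L k, y • v ∈ N (d + k)) (k : ℤ) (v : V) (hv : v ∈ hull L k) :
    y • v ∈ N (d + k) := by
  refine hN _ _ fun g hg => ?_
  obtain ⟨d', y', h1, h2⟩ := (mem_hull hL).1 hv g hg
  refine ⟨d', y', h1, ?_⟩
  rw [smul_comm]
  exact mem_cast (h _ _ h2) (by ring)

lemma refl_AA : Refl AA := by
  intro k x hx
  obtain ⟨d, y, hy0, hy1, hy2⟩ := exists_frac x
  obtain ⟨b, hb, rfl⟩ := AA_mono (j := d + |k|) (by have := abs_nonneg k; omega) hy1
  obtain ⟨a, ha, hab⟩ := AA_mono (j := d + |k| + k) (by have := neg_abs_le k; omega) hy2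
  have hb0 : b ≠ 0 := fun h => hy0 (by rw [h]; exact map_zero _)
  change ev a = ev b * x at hab
  obtain ⟨a', b', c, hrel, rfl, rfl⟩ := UniqueFactorizationMonoid.exists_reduced_factors' a b hb0
  have hc0 : c ≠ 0 := left_ne_zero_of_mul hb0
  have hb'0 : b' ≠ 0 := right_ne_zero_of_mul hb0
  obtain ⟨n, hn⟩ := Hg.of_mul hb hb0
  have ha' : Hg (d + |k| + k - n) a' := hn.quot hc0 ha
  have hb' : Hg (d + |k| - n) b' := hn.quot hc0 hb
  have h1 : ev a' = ev b' * x := by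
    rw [map_mul, map_mul, mul_assoc] at hab
    exact mul_left_cancel₀ (hn.ev_ne hc0) hab
  have hu : IsUnit b' := by
    by_contra hu
    obtain ⟨g, hg, hgb⟩ := WfDvdMonoid.exists_irreducible_factor hu hb'0
    have hg' : Prime g := hg.prime
    obtain ⟨e, _, ⟨t, ht, rfl, hgt⟩, ⟨s, hs, hs'⟩⟩ := hx g (hb'.hprime hb'0 hg' hgb)
    change ev s = ev t * x at hs'
    have h2 : t * a' = s * b' := by
      refine Hg.inj (ht.mul ha') ((Hg.mul hs hb').cast (by ring)) ?_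
      rw [map_mul, map_mul, h1, hs']
      ring
    have h3 : g ∣ t * a' := h2 ▸ hgb.mul_left s
    exact hg'.not_isUnit (hrel ((hg'.dvd_or_dvd h3).resolve_left hgt) hgb)
  obtain ⟨c', hc', rfl⟩ := exists_C_of_isUnit hu
  have h4 : d + |k| - n = 0 := hb'.deg_eq (hg_C c') hb'0
  refine ⟨C c'⁻¹ * a', (ha'.C_mul _).cast (by omega), ?_⟩
  change ev _ = _
  rw [map_mul, h1, ← mul_assoc, ← map_mul, ← C_mul, inv_mul_cancel₀ hc', map_one, map_one, one_mul]

lemma refl_Fr (e : ι → ℤ) : Refl (Fr e) := fun k c hc => mem_Fr.2 fun i =>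
  refl_AA _ _ fun g hg =>
    let ⟨d, y, h1, h2⟩ := hc g hg; ⟨d, y, h1, AA_cast (mem_Fr.1 h2 i) (by ring)⟩

lemma refl_dual (β : V →ₗ[K] W →ₗ[K] K) (L : ℤ → Submodule ℂ V) : Refl (dual β L) := by
  intro k w hw j v hv
  refine refl_AA _ _ fun g hg => ?_
  obtain ⟨d, y, h1, h2⟩ := hw g hg
  refine ⟨d, y, h1, ?_⟩
  have := h2 j v hv
  rw [map_smul] at this
  exact AA_cast this (by ring)

lemma Refl.comap {M : ℤ → Submodule ℂ W} (h : Refl M) (φ : V →ₗ[K] W) :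
    Refl fun k => (M k).comap (φ.restrictScalars ℂ) := by
  intro k v hv
  refine h k (φ v) fun g hg => ?_
  obtain ⟨d, y, h1, h2⟩ := hv g hg
  exact ⟨d, y, h1, by rw [← map_smul]; exact h2⟩

omit [IsScalarTower ℂ K V] in
lemma Refl.sh (h : Refl L) (n : ℤ) : Refl (sh L n) := fun k v hv =>
  h (k + n) v fun g hg => let ⟨d, y, h1, h2⟩ := hv g hg; ⟨d, y, h1, mem_cast h2 (add_assoc _ _ _)⟩

/-- coefficients on independent vectors -/
lemma mem_Sp_iff [Fintype ι] {u : ι → V} (hu : LinearIndependent K u) {e : ι → ℤ} {c : ι → K} :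
    ∑ i, c i • u i ∈ Sp u e k ↔ ∀ i, c i ∈ AA (k - e i) := by
  refine ⟨fun h => ?_, fun h => mem_Sp.2 ⟨c, h, rfl⟩⟩
  obtain ⟨c', hc', h⟩ := mem_Sp.1 h
  have : c' = c := linearIndependent_iff_injective_fintypeLinearCombination.1 hu (by
    simpa only [Fintype.linearCombination_apply] using h)
  exact this ▸ hc'

lemma refl_Sp [Fintype ι] {u : ι → V} (hu : LinearIndependent K u) (e : ι → ℤ) :
    Refl (Sp u e) := by
  intro k v hv
  obtain ⟨d, y, h1, h2⟩ := hv _ (hprime_X 0)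
  obtain ⟨c, -, hc⟩ := mem_Sp.1 h2
  have h3 : v = ∑ i, (y⁻¹ * c i) • u i := by
    simp only [mul_smul]
    rw [← Finset.smul_sum, hc, smul_smul, inv_mul_cancel₀ h1.ne, one_smul]
  rw [h3] at hv ⊢
  refine (mem_Sp_iff hu).2 fun i => refl_AA _ _ fun g hg => ?_
  obtain ⟨d', y', h1', h2'⟩ := hv g hg
  rw [Finset.smul_sum] at h2'
  simp only [smul_smul] at h2'
  exact ⟨d', y', h1', AA_cast ((mem_Sp_iff hu).1 h2' i) (by ring)⟩

lemma full_Sp [Fintype ι] {u : ι → V} (hu : Submodule.span K (Set.range u) = ⊤) (e : ι → ℤ) :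
    Full (Sp u e) := by
  intro v
  obtain ⟨c, rfl⟩ := (Submodule.mem_span_range_iff_exists_fun K).1 (hu ▸ Submodule.mem_top :
    v ∈ Submodule.span K (Set.range u))
  obtain ⟨d, y, h0, -, h2⟩ := exists_frac_fun c
  refine ⟨d + ∑ i, |e i|, y, h0, mem_Sp.2 ⟨fun i => y * c i, fun i => AA_mono ?_ (h2 i), ?_⟩⟩
  · have h1 : |e i| ≤ ∑ i, |e i| :=
      Finset.single_le_sum (f := fun i => |e i|) (fun i _ => abs_nonneg _) (Finset.mem_univ i)
    have := le_abs_self (e i)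
    omega
  · rw [Finset.smul_sum]
    exact Finset.sum_congr rfl fun i _ => mul_smul _ _ _

lemma Gen.span [Fintype ι] {u : ι → V} {e : ι → ℤ} (h : Gen L u e) (hf : Full L) :
    Submodule.span K (Set.range u) = ⊤ := by
  rw [eq_top_iff]
  intro v _
  obtain ⟨k, y, h0, hv⟩ := hf v
  rw [h k] at hv
  obtain ⟨c, -, hc⟩ := mem_Sp.1 hv
  rw [← Submodule.smul_mem_iff _ h0, ← hc]
  exact Submodule.sum_mem _ fun i _ => Submodule.smul_mem _ _ (Submodule.subset_span ⟨i, rfl⟩)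

lemma LB.span [Fintype ι] {u : ι → V} {e : ι → ℤ} (h : LB L p u e) (hf : Full L) :
    Submodule.span K (Set.range u) = ⊤ := by
  rw [eq_top_iff]
  intro v _
  obtain ⟨k, y, h0, hv⟩ := hf v
  obtain ⟨d, y', h1, h2⟩ := h.loc
  obtain ⟨c, -, hc⟩ := mem_Sp.1 (h2 k _ hv)
  rw [← Submodule.smul_mem_iff _ h0, ← Submodule.smul_mem_iff _ h1.ne, ← hc]
  exact Submodule.sum_mem _ fun i _ => Submodule.smul_mem _ _ (Submodule.subset_span ⟨i, rfl⟩)

lemma lat_Sp [Fintype ι] {u : ι → V} (hu : LinearIndependent K u)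
    (hs : Submodule.span K (Set.range u) = ⊤) (e : ι → ℤ) : Lat (Sp u e) :=
  ⟨fam_Sp u e, fg_Sp u e, full_Sp hs e, refl_Sp hu e⟩

lemma lat_Fr [Fintype ι] (e : ι → ℤ) : Lat (Fr e) := by
  classical
  refine ⟨fam_Fr e, fg_Fr e, ?_, refl_Fr e⟩
  rw [(gen_Fr e).eq]
  refine full_Sp ?_ e
  have := (Pi.basisFun K ι).span_eq
  rwa [show ⇑(Pi.basisFun K ι) = fun i => (Pi.single i 1 : ι → K) from
    funext fun i => Pi.basisFun_apply K ι i] at this

lemma gen_AA : Gen AA (fun _ : Fin 1 => (1 : K)) fun _ => 0 := by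
  intro k
  ext x
  simp only [mem_Sp, Fin.sum_univ_one, smul_eq_mul, mul_one, sub_zero]
  exact ⟨fun h => ⟨fun _ => x, fun _ => h, rfl⟩, fun ⟨c, hc, h⟩ => h ▸ hc 0⟩

lemma lat_AA : Lat AA := ⟨fam_AA, gen_AA.fg, fun x =>
  let ⟨d, y, h0, _, h2⟩ := exists_frac x; ⟨d, y, h0, h2⟩, refl_AA⟩

omit [IsScalarTower ℂ K V] in
lemma Full.sh (h : Full L) (n : ℤ) : Full (sh L n) := fun v =>
  let ⟨k, y, h0, hv⟩ := h v; ⟨k - n, y, h0, mem_cast (L := L) hv (sub_add_cancel k n).symm⟩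

omit [IsScalarTower ℂ K V] in
lemma Full.mono (h : Full L) (hle : ∀ k, L k ≤ N k) : Full N := fun v =>
  let ⟨k, y, h0, hv⟩ := h v; ⟨k, y, h0, hle k hv⟩

/-- the denominator can be taken to be a form -/
lemma Full.exists_AA (h : Full L) (hL : Fam L) (v : V) :
    ∃ (k d : ℤ) (y : K), y ≠ 0 ∧ y ∈ AA d ∧ y • v ∈ L k := by
  obtain ⟨k, y, h0, hv⟩ := h v
  obtain ⟨d, z, z0, z1, z2⟩ := exists_frac y
  exact ⟨d + k, d, z * y, mul_ne_zero z0 h0, z2, by rw [mul_smul]; exact hL _ _ _ z1 _ hv⟩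

lemma Lat.sh (h : Lat L) (n : ℤ) : Lat (sh L n) :=
  ⟨h.fam.sh n, h.fg.sh n, h.full.sh n, h.refl.sh n⟩

lemma Lat.map (h : Lat L) (φ : V ≃ₗ[K] W) :
    Lat fun k => (L k).map (φ.toLinearMap.restrictScalars ℂ) := by
  refine ⟨h.fam.map _, h.fg.map _, fun w => ?_, ?_⟩
  · obtain ⟨k, y, h0, hv⟩ := h.full (φ.symm w)
    exact ⟨k, y, h0, _, hv, by simp⟩
  · have : (fun k => (L k).map (φ.toLinearMap.restrictScalars ℂ)) =
        fun k => (L k).comap (φ.symm.toLinearMap.restrictScalars ℂ) := by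
      funext k
      ext w
      constructor
      · rintro ⟨v, hv, rfl⟩
        simpa using hv
      · intro hw
        exact ⟨φ.symm w, hw, by simp⟩
    rw [this]
    exact h.refl.comap _

/-- an element that is a unit along every curve is a constant -/
lemma unit_of {y : K} {n : ℤ}
    (h : ∀ g, HPrime g → ∃ d y₁ y₂, Ug g d y₁ ∧ Ug g (d + n) y₂ ∧ y * y₁ = y₂) :
    n = 0 ∧ ∃ c : ℂ, c ≠ 0 ∧ y = algebraMap ℂ K c := by
  have h0 : y ≠ 0 := by
    obtain ⟨d, y₁, y₂, -, h2, h3⟩ := h _ (hprime_X 0)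
    exact left_ne_zero_of_mul (h3 ▸ h2.ne)
  have h1 : y ∈ AA n := refl_AA _ _ fun g hg =>
    let ⟨d, y₁, _, h1, h2, h3⟩ := h g hg
    ⟨d, y₁, h1, by rw [smul_eq_mul, mul_comm, h3]; exact h2.mem⟩
  have h2 : y⁻¹ ∈ AA (-n) := refl_AA _ _ fun g hg =>
    let ⟨d, y₁, y₂, h1, h2, h3⟩ := h g hg
    ⟨d + n, y₂, h2, by
      rw [smul_eq_mul, ← h3, mul_right_comm, mul_inv_cancel₀ h0, one_mul]
      exact AA_cast h1.mem (by ring)⟩
  have h3 := AA_nonneg h1 h0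
  have h4 := AA_nonneg h2 (inv_ne_zero h0)
  have h5 : n = 0 := by omega
  subst h5
  obtain ⟨c, rfl⟩ := mem_AA_zero.1 h1
  exact ⟨rfl, c, fun hc => h0 (by rw [hc, map_zero]), rfl⟩

lemma unit_of_pts {y : K} {n : ℤ}
    (h : ∀ p : Fin 3 → ℂ, p ≠ 0 → ∃ d y₁ y₂, U1 p d y₁ ∧ U1 p (d + n) y₂ ∧ y * y₁ = y₂) :
    n = 0 ∧ ∃ c : ℂ, c ≠ 0 ∧ y = algebraMap ℂ K c :=
  unit_of fun _ hg =>
    let ⟨p, h1, h2⟩ := exists_point hg
    let ⟨d, y₁, y₂, a, b, c⟩ := h p h1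
    ⟨d, y₁, y₂, a.ug h2, b.ug h2, c⟩

end Fam

end Vale.Agent.P287Z.L
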