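import Vale.Agent.P287Z.L.Hom
import Vale.Agent.P287Z.L.Basic2
import Vale.Agent.P287Z.L.Res

/-!
Sums of lattices over the order, the free lattices of rank one, and the odd Clifford lattice.
-/

namespace Vale.Agent.P287Z.L

open MvPolynomial Module Filter Matrix Vale.Agent.P287 Vale.Agent.P287.Theta

namespace O1A

section gen

variable {R A ι : Type} [CommRing R] [Ring A] [Algebra R A]

/-- the span of the ordered words -/
def T (e : ι → A) (w : ι → ℤ) (b : ℤ → AddSubgroup A) : List ι → ℤ → AddSubgroup A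
  | [], n => b n
  | j :: l, n => T e w b l n ⊔ (T e w b l (n - w j)).map (AddMonoidHom.mulLeft (e j))

variable {e : ι → A} {w : ι → ℤ} {b : ℤ → AddSubgroup A}

theorem T_base (l : List ι) (n : ℤ) : b n ≤ T e w b l n := by
  induction l with
  | nil => exact le_rfl
  | cons j l ih => exact ih.trans le_sup_left

theorem T_smul {a : R} {d : ℤ} (hb : ∀ n, ∀ x ∈ b n, a • x ∈ b (n + d)) (l : List ι) :
    ∀ n, ∀ x ∈ T e w b l n, a • x ∈ T e w b l (n + d) := by
  induction l with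
  | nil => exact hb
  | cons j l ih =>
    intro n x hx
    obtain ⟨y, hy, _, ⟨z, hz, rfl⟩, rfl⟩ := AddSubgroup.mem_sup.1 hx
    rw [smul_add]
    refine AddSubgroup.add_mem_sup (ih _ _ hy) ⟨a • z, ?_, mul_smul_comm _ _ _⟩
    rw [← sub_add_eq_add_sub]
    exact ih _ _ hz

theorem T_mul {g : ι → ι → R} (hb : ∀ i j n, ∀ x ∈ b n, g i j • x ∈ b (n + (w i + w j)))
    (h1 : ∀ i, e i * e i = algebraMap R A (g i i))
    (h2 : ∀ i j, e i * e j + e j * e i = algebraMap R A (g i j + g i j)) (l : List ι) :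
    ∀ i ∈ l, ∀ n, ∀ x ∈ T e w b l n, e i * x ∈ T e w b l (n + w i) := by
  induction l with
  | nil => exact fun i hi => absurd hi List.not_mem_nil
  | cons j l ih =>
    intro i hi n x hx
    obtain ⟨y, hy, _, ⟨z, hz, rfl⟩, rfl⟩ := AddSubgroup.mem_sup.1 hx
    have k := T_smul (hb i j) l _ z hz
    rw [show n - w j + (w i + w j) = n + w i by ring] at k
    rcases List.mem_cons.1 hi with rfl | hi
    · rw [mul_add, add_comm (e i * y), AddMonoidHom.coe_mulLeft, ← mul_assoc, h1, ← Algebra.smul_def]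
      exact AddSubgroup.add_mem_sup k ⟨y, by rwa [add_sub_cancel_right], rfl⟩
    · have k1 : e i * (y + e j * z) = (e i * y + (g i j • z + g i j • z)) + e j * -(e i * z) := by
        rw [← add_smul, Algebra.smul_def, ← h2]
        noncomm_ring
      rw [AddMonoidHom.coe_mulLeft, k1]
      refine AddSubgroup.add_mem_sup (add_mem (ih i hi _ _ hy) (add_mem k k)) ⟨_, neg_mem ?_, rfl⟩
      rw [← sub_add_eq_add_sub]
      exact ih i hi _ _ hz

/-- the multiples of `p` -/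
def bb (D : ℤ → AddSubgroup R) (p : A) (n : ℤ) : AddSubgroup A :=
  ⨆ d, ⨆ _ : n = 2 * d, (D d).map (LinearMap.toSpanSingleton R A p).toAddMonoidHom

variable {D : ℤ → AddSubgroup R} {p : A}

theorem mem_bb {a : R} {d n : ℤ} (ha : a ∈ D d) (h : n = 2 * d) : a • p ∈ bb D p n :=
  AddSubgroup.mem_iSup_of_mem d (AddSubgroup.mem_iSup_of_mem h ⟨a, ha, rfl⟩)

theorem bb_le {n : ℤ} {N : AddSubgroup A} (h : ∀ d, n = 2 * d → ∀ a ∈ D d, a • p ∈ N) :
    bb D p n ≤ N :=
  iSup₂_le fun d hd => by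
    rintro _ ⟨a, ha, rfl⟩
    exact h d hd a ha

theorem bb_smul (hD : ∀ d k, ∀ a ∈ D d, ∀ c ∈ D k, a * c ∈ D (d + k)) {a : R} {d : ℤ}
    (ha : a ∈ D d) (n : ℤ) : ∀ x ∈ bb D p n, a • x ∈ bb D p (n + 2 * d) :=
  bb_le (N := (bb D p (n + 2 * d)).comap (DistribSMul.toAddMonoidHom A a)) fun k hk c hc => by
    show a • c • p ∈ bb D p (n + 2 * d)
    rw [smul_smul]
    exact mem_bb (hD _ _ a ha c hc) (by omega)

/-- the doubled weights -/
def ww (i : Fin 4) : ℤ := 2 * wz i + 1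

/-- the odd words -/
def u8 (e : Fin 4 → A) (p : A) : Fin 8 → A :=
  ![e 0 * p, e 1 * p, e 2 * p, e 3 * p, e 0 * (e 1 * (e 2 * p)), e 0 * (e 1 * (e 3 * p)),
    e 0 * (e 2 * (e 3 * p)), e 1 * (e 2 * (e 3 * p))]

/-- the degrees of the odd words -/
def d8 : Fin 8 → ℤ := ![0, 0, 0, 1, 1, 2, 2, 2]

theorem T_le {e : Fin 4 → A} {N : ℤ → AddSubgroup A}
    (hN : ∀ d k, ∀ a ∈ D d, ∀ x ∈ N k, a • x ∈ N (d + k)) (hu : ∀ s, u8 e p s ∈ N (d8 s))
    (k : ℤ) : T e ww (bb D p) [0, 1, 2, 3] (2 * k + 1) ≤ N k := by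
  have w0 : ww 0 = 1 := rfl
  have w1 : ww 1 = 1 := rfl
  have w2 : ww 2 = 1 := rfl
  have w3 : ww 3 = 3 := rfl
  have key : ∀ s d, ∀ a ∈ D d, d + d8 s = k → a • u8 e p s ∈ N k := fun s d a ha h =>
    h ▸ hN _ _ a ha _ (hu s)
  simp only [T, sup_le_iff, AddSubgroup.map_le_iff_le_comap, w0, w1, w2, w3, and_assoc]
  refine ⟨?_, ?_, ?_, ?_, ?_, ?_, ?_, ?_, ?_, ?_, ?_, ?_, ?_, ?_, ?_, ?_⟩ <;>
    refine bb_le fun d hd a ha => ?_
  all_goals try (exfalso; omega)
  all_goals simp only [AddSubgroup.mem_comap, AddMonoidHom.coe_mulLeft, mul_smul_comm]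
  exacts [key 3 d a ha (show d + 1 = k by omega), key 2 d a ha (show d + 0 = k by omega),
    key 1 d a ha (show d + 0 = k by omega), key 7 d a ha (show d + 2 = k by omega),
    key 0 d a ha (show d + 0 = k by omega), key 6 d a ha (show d + 2 = k by omega),
    key 5 d a ha (show d + 2 = k by omega), key 4 d a ha (show d + 1 = k by omega)]

theorem u8_mem {e : Fin 4 → A} {S : ℤ → AddSubgroup A} (h0 : p ∈ S 0)
    (h : ∀ i n, ∀ x ∈ S n, e i * x ∈ S (n + ww i)) (s : Fin 8) : u8 e p s ∈ S (2 * d8 s + 1) := by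
  fin_cases s
  exacts [h 0 _ _ h0, h 1 _ _ h0, h 2 _ _ h0, h 3 _ _ h0, h 0 _ _ (h 1 _ _ (h 2 _ _ h0)),
    h 0 _ _ (h 1 _ _ (h 3 _ _ h0)), h 0 _ _ (h 2 _ _ (h 3 _ _ h0)), h 1 _ _ (h 2 _ _ (h 3 _ _ h0))]

end gen

open HomA

variable {C : Cx}

/-- the generators of the Clifford algebra -/
noncomputable abbrev ee (C : Cx) (i : Fin 4) : CliffordAlgebra (qf4 C.G) :=
  CliffordAlgebra.ι (qf4 C.G) (e4 i)

/-- the products of two generators -/
noncomputable abbrev m (C : Cx) (i j : Fin 4) : C.B := mm C.G (e4 i) (e4 j)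

theorem inc_m (i j : Fin 4) : inc C.G (m C i j) = ee C i * ee C j := rfl

theorem inc_inj' : Function.Injective (inc C.G) := Subtype.val_injective

theorem q_e (G : Matrix (Fin 4) (Fin 4) K) (i j : Fin 4) : bf G (e4 i) (e4 j) = G i j := by
  simp [e4, Matrix.toLinearMap₂'_apply']

theorem ee_sq (i : Fin 4) : ee C i * ee C i = algebraMap K _ (C.G i i) := by
  rw [CliffordAlgebra.ι_sq_scalar]
  exact congrArg _ (q_e C.G i i)

theorem ee_swap (h : C.G.IsSymm) (i j : Fin 4) :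
    ee C i * ee C j + ee C j * ee C i = algebraMap K _ (C.G i j + C.G i j) := by
  rw [CliffordAlgebra.ι_mul_ι_add_swap]
  refine congrArg _ ((LinearMap.BilinMap.polar_toQuadraticMap (B := bf C.G) _ _).trans ?_)
  rw [q_e, q_e, h.apply i j]

/-- the basis of the lattice -/
noncomputable def v8 (C : Cx) : Fin 8 → C.B :=
  ![m C 0 0, m C 1 0, m C 2 0, m C 3 0, m C 0 1 * m C 2 0, m C 0 1 * m C 3 0, m C 0 2 * m C 3 0,
    m C 1 2 * m C 3 0]

theorem inc_v8 (s : Fin 8) : inc C.G (v8 C s) = u8 (ee C) (ee C 0) s := by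
  fin_cases s
  exacts [rfl, rfl, rfl, rfl, mul_assoc _ _ _, mul_assoc _ _ _, mul_assoc _ _ _, mul_assoc _ _ _]

/-- the values of forms -/
noncomputable abbrev DD (d : ℤ) : AddSubgroup K := (AA d).toAddSubgroup

/-- the filtration of the Clifford algebra -/
noncomputable abbrev TT (C : Cx) : ℤ → AddSubgroup (CliffordAlgebra (qf4 C.G)) :=
  T (ee C) ww (bb DD (ee C 0)) [0, 1, 2, 3]

theorem TT_smul {a : K} {d : ℤ} (ha : a ∈ AA d) : ∀ n, ∀ x ∈ TT C n, a • x ∈ TT C (n + 2 * d) :=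
  T_smul (bb_smul (D := DD) (fun _ _ _ h _ h' => AA_mul h h') ha) _

theorem TT_mul (h : Ctx C) (i : Fin 4) : ∀ n, ∀ x ∈ TT C n, ee C i * x ∈ TT C (n + ww i) := by
  refine T_mul (g := C.G) (fun i j n x hx => ?_) ee_sq (ee_swap h.symm) _ i (by fin_cases i <;> simp)
  have k := bb_smul (D := DD) (fun _ _ _ h _ h' => AA_mul h h') (h.degM i j).mem n x hx
  rwa [show n + 2 * (1 + wz i + wz j) = n + (ww i + ww j) by simp only [ww]; ring] at k

theorem mem_iff (h : Ctx C) {k : ℤ} {x : C.B} :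
    x ∈ Sp (v8 C) d8 k ↔ inc C.G x ∈ TT C (2 * k + 1) := by
  refine ⟨fun hx => ?_, fun hx => ?_⟩
  · obtain ⟨c, h1, rfl⟩ := sp.1 hx
    rw [map_sum]
    refine sum_mem fun s _ => ?_
    have k1 := TT_smul (h1 s) _ _ (u8_mem (S := TT C)
      (T_base _ _ (one_smul K (ee C 0) ▸ mem_bb (D := DD) AA_one rfl)) (TT_mul h) s)
    rwa [map_smul, inc_v8, show 2 * k + 1 = 2 * d8 s + 1 + 2 * (k - d8 s) by ring]
  · obtain ⟨y, hy, h1⟩ := T_le (D := DD)
      (N := fun k => (Sp (v8 C) d8 k).toAddSubgroup.map (inc C.G).toLinearMap.toAddMonoidHom)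
      (by
        rintro d k a ha _ ⟨y, hy, rfl⟩
        exact ⟨a • y, sp_fam _ _ _ _ a ha y hy, map_smul (inc C.G) a y⟩)
      (fun s => ⟨_, sp_mem _ _ s, inc_v8 s⟩) k hx
    exact inc_inj' h1 ▸ hy

theorem m_mul (h : Ctx C) (i j : Fin 4) {k : ℤ} {x : C.B} (hx : x ∈ Sp (v8 C) d8 k) :
    m C i j * x ∈ Sp (v8 C) d8 (wz i + wz j + 1 + k) := by
  rw [mem_iff h] at hx ⊢
  rw [map_mul, inc_m, mul_assoc,
    show 2 * (wz i + wz j + 1 + k) + 1 = 2 * k + 1 + ww j + ww i by simp only [ww]; ring]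
  exact TT_mul h i _ _ (TT_mul h j _ _ hx)

theorem stab (h : Ctx C) (j k : ℤ) : ∀ b ∈ C.O j, ∀ v ∈ Sp (v8 C) d8 k,
    b • v ∈ Sp (v8 C) d8 (j + k) := by
  let S : ℤ → Submodule ℂ C.B := fun j => ⨅ k, ⨅ v ∈ Sp (v8 C) d8 k,
    (Sp (v8 C) d8 (j + k)).comap (LinearMap.mulRight ℂ v)
  have hS : ∀ j b, b ∈ S j ↔ ∀ k, ∀ v ∈ Sp (v8 C) d8 k, b * v ∈ Sp (v8 C) d8 (j + k) := by
    intro j b
    simp only [S, Submodule.mem_iInf, Submodule.mem_comap, LinearMap.mulRight_apply]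
  refine fun b hb => (hS j b).1 (h.tab.ind S (fun d k a ha x hx => (hS _ _).2 fun l v hv => ?_)
    ((hS _ _).2 fun l v hv => ?_) (fun i j k x hx => (hS _ _).2 fun l v hv => ?_) j hb) k
  · rw [smul_mul_assoc, add_assoc]
    exact sp_fam _ _ _ _ a ha _ ((hS _ _).1 hx l v hv)
  · rwa [one_mul, zero_add]
  · rw [inv_one, one_smul, mul_assoc, add_assoc]
    exact m_mul h i j ((hS _ _).1 hx l v hv)

theorem span_top (h : Ctx C) : ⊤ ≤ Submodule.span K (Set.range (v8 C)) := by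
  intro b _
  obtain ⟨k, y, y0, hy⟩ := h.tab.lat.full b
  obtain ⟨c, -, hc⟩ := sp.1 (stab h _ _ _ hy _ (sp_mem (v8 C) d8 0))
  have k0 : C.G 0 0 ≠ 0 := fun h0 => by
    have k1 := congrFun (C.aniso (e4 0) (by simpa [e4] using h0)) 0
    simp [e4] at k1
  have k1 : v8 C 0 = algebraMap K C.B (C.G 0 0) :=
    inc_inj' ((ee_sq 0).trans ((inc C.G).commutes _).symm)
  rw [k1, smul_eq_mul, ← Algebra.commutes, ← Algebra.smul_def, smul_smul] at hc
  rw [← Submodule.smul_mem_iff _ (mul_ne_zero k0 y0), ← hc]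
  exact Submodule.sum_mem _ fun i _ => Submodule.smul_mem _ _ (Submodule.subset_span ⟨i, rfl⟩)

theorem li8 (h : Ctx C) : LinearIndependent K (v8 C) :=
  linearIndependent_of_top_le_span_of_card_eq_finrank (span_top h) (by rw [h.alg.rank]; rfl)

section hp

variable {V : Type} [AddCommGroup V] [Module ℂ V] {W : Type} [AddCommGroup W] [Module ℂ W]
  {L : ℤ → Submodule ℂ V} {N : ℤ → Submodule ℂ W}

theorem hp_iff (h : ∀ k, finrank ℂ (L k) = finrank ℂ (N k)) (R c x : ℤ) :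
    HP L R c x ↔ HP N R c x := by
  simp only [HP, h]

theorem chi_congr (h : ∀ k, finrank ℂ (L k) = finrank ℂ (N k)) : chi L = chi N := by
  simp only [chi, hp_iff h]

theorem hp_eq {R c x : ℤ} (h : HP L R c x) : c1 L = c ∧ chi L = x := Res.hp_uniq (Res.hp_c1 h) h

theorem hp_add {Y : Type} [AddCommGroup Y] [Module ℂ Y] {S : ℤ → Submodule ℂ Y}
    (h : ∀ k, finrank ℂ (S k) = finrank ℂ (L k) + finrank ℂ (N k)) {R c x R' c' x' : ℤ}
    (h1 : HP L R c x) (h2 : HP N R' c' x') : HP S (R + R') (c + c') (x + x') := by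
  filter_upwards [h1, h2] with k k1 k2
  rw [h, Nat.cast_add]
  linear_combination k1 + k2

theorem rank_of {M₁ M₂ M₃ : Type} [AddCommGroup M₁] [Module ℂ M₁] [AddCommGroup M₂] [Module ℂ M₂]
    [AddCommGroup M₃] [Module ℂ M₃] {p : Submodule ℂ M₁} {q : Submodule ℂ M₂} {r : Submodule ℂ M₃}
    [FiniteDimensional ℂ p] [FiniteDimensional ℂ q] (σ : (M₁ × M₂) ≃ₗ[ℂ] M₃)
    (h : ∀ a b, σ (a, b) ∈ r ↔ a ∈ p ∧ b ∈ q) : finrank ℂ r = finrank ℂ p + finrank ℂ q := by
  have k : Function.Injective (σ.toLinearMap ∘ₗ p.subtype.prodMap q.subtype) :=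
    σ.injective.comp (p.subtype_injective.prodMap q.subtype_injective)
  rw [← Module.finrank_prod, ← LinearMap.finrank_range_of_inj k]
  refine congrArg (fun s : Submodule ℂ M₃ => finrank ℂ s) (Submodule.ext fun z => ?_)
  obtain ⟨⟨a, b⟩, rfl⟩ := σ.surjective z
  refine ⟨fun hz => ⟨(⟨a, ((h a b).1 hz).1⟩, ⟨b, ((h a b).1 hz).2⟩), rfl⟩, ?_⟩
  rintro ⟨⟨a', b'⟩, hz⟩
  exact hz ▸ (h a' b').2 ⟨a'.2, b'.2⟩

theorem hp_sp [Module K V] [IsScalarTower ℂ K V] {ι : Type} [Fintype ι] {u : ι → V}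
    (hu : LinearIndependent K u) (e : ι → ℤ) {R c x : ℤ}
    (h : ∀ k, ∑ i, (k - e i + 1) * (k - e i + 2) = R * (k ^ 2 + 3 * k) + 2 * c * k + 2 * x) :
    HP (Sp u e) R c x := by
  obtain ⟨m, hm⟩ := (Set.finite_range e).bddAbove
  filter_upwards [eventually_ge_atTop m] with k hk
  rw [finrank_Sp hu, finrank_Fr, Nat.cast_sum, Finset.mul_sum, ← h]
  refine Finset.sum_congr rfl fun i _ => finrank_AA ?_
  have : e i ≤ m := hm ⟨i, rfl⟩
  omega

end hp

theorem one_mem (C : Cx) : (1 : C.B) ∈ C.O 0 := sp_mem C.o oz 0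

theorem li_o (h : Ctx C) : LinearIndependent K C.o := by
  refine h.alg.li 1 e4 one_ne_zero ?_
  have k : Matrix.of e4 = 1 := by
    ext i j
    simp [e4, Pi.single_apply, Matrix.one_apply, eq_comm]
  rw [k, Matrix.det_one]
  exact one_ne_zero

/-- the sum of two lattices -/
noncomputable def sumL (X Y : OL C) : OL C where
  V := X.V × Y.V
  F k := (X.F k).prod (Y.F k)
  lat := lat_prod X.lat Y.lat
  stab j k b hb _ hv := ⟨X.stab j k b hb _ hv.1, Y.stab j k b hb _ hv.2⟩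

end O1A

open HomA O1A

theorem o1 : stO1 := fun C h =>
  ⟨{ V := C.B
     F := Sp (v8 C) d8
     lat := lat_Sp (li8 h) (top_le_iff.1 (span_top h)) _
     stab := stab h }, h.alg.rank, hp_sp (li8 h) d8 fun k => by
      simp [Fin.sum_univ_eight, d8]
      ring⟩

theorem sum (hH : stHOM) (hX : stHPX) : stSUM := by
  intro C h X Y
  refine ⟨sumL X Y, Module.finrank_prod, ?_, fun W => ?_⟩
  · refine (hp_eq (hp_add (fun k => ?_) (hX _ _ X.lat) (hX _ _ Y.lat))).1
    have := X.lat.fg.finite k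
    have := Y.lat.fg.finite k
    exact rank_of (LinearEquiv.refl ℂ _) fun _ _ => Iff.rfl
  · have := fd_hom W X
    have := fd_hom W Y
    refine (hp_eq (hp_add (fun k => ?_) (hX _ _ (hH C h W X).1) (hX _ _ (hH C h W Y).1))).2
    have := (hH C h W X).1.fg.finite k
    have := (hH C h W Y).1.fg.finite k
    exact rank_of (LinearMap.prodEquiv ℂ) fun a b =>
      ⟨fun hz => ⟨fun j v hv => (hz j v hv).1, fun j v hv => (hz j v hv).2⟩,
        fun hz j v hv => ⟨hz.1 j v hv, hz.2 j v hv⟩⟩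

theorem iso : stISO := by
  intro C h
  refine ⟨fun m => ⟨{ V := C.B
                      F := sh C.O (-m)
                      lat := h.tab.lat.sh _
                      stab := fun j k b hb v hv => ?_ }, LinearEquiv.refl _ _, fun _ _ => Iff.rfl⟩,
    ?_⟩
  · exact mem_cast (L := C.O) (h.tab.mul _ _ b hb v hv) (add_assoc _ _ _).symm
  · rintro P m ⟨φ, hφ⟩
    have h1 : φ.symm 1 ∈ P.F m := by
      rw [hφ, φ.apply_symm_apply, sub_self]
      exact one_mem C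
    refine ⟨(φ.restrictScalars K).finrank_eq.trans h.alg.rank, ?_, fun Y => chi_congr fun k => ?_⟩
    · refine (hp_iff (N := Sp C.o fun i => oz i + m) (fun k => ?_) _ _ _).2
        (hp_sp (li_o h) _ fun k => ?_)
      · refine ((φ.restrictScalars ℂ).ofSubmodules _ _ (Submodule.ext fun b => ?_)).finrank_eq
        rw [Submodule.mem_map_equiv, hφ]
        simp only [LinearEquiv.restrictScalars_symm_apply, LinearEquiv.apply_symm_apply, Ord, sp,
          sub_sub, add_comm m]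
      · simp [Fin.sum_univ_eight, od, wz]
        ring
    · let T : (P.V →ₗ[C.B] Y.V) →ₗ[ℂ] Y.V :=
        ⟨⟨fun ψ => ψ (φ.symm 1), fun _ _ => rfl⟩, fun _ _ => rfl⟩
      have hT : Function.Injective T := fun ψ ψ' e => LinearMap.ext fun v => by
        have k1 : v = φ v • φ.symm 1 := by rw [← map_smul, smul_eq_mul, mul_one, φ.symm_apply_apply]
        rw [k1, map_smul ψ, map_smul ψ']
        exact congrArg _ e
      rw [(Submodule.equivMapOfInjective T hT _).finrank_eq]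
      refine congrArg (fun s : Submodule ℂ Y.V => finrank ℂ s) (Submodule.ext fun y => ⟨?_, ?_⟩)
      · rintro ⟨ψ, hψ, rfl⟩
        exact mem_cast (L := Y.F) (hψ m _ h1) (add_comm _ _)
      · refine fun hy => ⟨LinearMap.toSpanSingleton C.B Y.V y ∘ₗ φ.toLinearMap,
          fun j v hv => ?_, by simp [T]⟩
        exact mem_cast (L := Y.F) (Y.stab _ _ _ ((hφ j v).1 hv) y hy) (by ring)

end Vale.Agent.P287Z.L
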