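import Vale.Agent.P287Z.L.LfB

/-!
Row LF: lattices over the even Clifford order are locally free over the order.
-/

namespace Vale.Agent.P287Z.L

open MvPolynomial Module Matrix Vale.Agent.P287 Vale.Agent.P287.Theta

namespace LfA

variable {C : Cx}

/-- the action of the algebra -/
noncomputable def act (X : OL C) : C.B →ₐ[K] Module.End K X.V := Algebra.lsmul K K X.V

theorem act_apply (X : OL C) (b : C.B) (v : X.V) : act X b v = b • v := rfl

theorem dg_act (X : OL C) {b : C.B} {j : ℤ} (h : b ∈ C.O j) : Dg X.F (act X b) j :=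
  fun k v hv => X.stab j k b h v hv

theorem o_mem (s : Fin 8) : C.o s ∈ C.O (oz s) := by
  refine mem_Sp.2 ⟨Pi.single s 1, fun t => ?_, ?_⟩
  · by_cases h : t = s
    · subst h
      rw [Pi.single_eq_same, sub_self]
      exact isWeightedHomogeneous_one _ _
    · rw [Pi.single_eq_of_ne h]
      exact hzero _
  · rw [Finset.sum_eq_single s, Pi.single_eq_same, map_one, one_smul]
    · intro t _ h
      rw [Pi.single_eq_of_ne h, map_zero, zero_smul]
    · exact fun h => absurd (Finset.mem_univ s) h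

variable {X : OL C} {a : ℕ} {p : Fin 3 → ℂ}

/-- the matrix of the values of the vectors `o s • v t` -/
noncomputable def val (A : Loc X.F p (Fin 8 × Fin a)) (N : ℤ) (v : Fin a → X.V) :
    Matrix (Fin 8 × Fin a) (Fin 8 × Fin a) ℂ :=
  Matrix.of fun s x => A.φ (oz x.1 + N) (C.o x.1 • v x.2) s

theorem mem_span (A : Loc X.F p (Fin 8 × Fin a)) {N k : ℤ} {v : Fin a → X.V}
    (hv : ∀ t, v t ∈ X.F N) {b : C.B} (hb : b ∈ C.O k) (t : Fin a) :
    A.m (act X b) k *ᵥ A.φ N (v t) ∈ Submodule.span ℂ (Set.range (val A N v).col) := by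
  rw [← A.φ_op (dg_act X hb) (hv t), act_apply]
  obtain ⟨c, hc, rfl⟩ := mem_Sp.1 hb
  have h1 : ∀ s, C.o s • v t ∈ X.F (oz s + N) := fun s => X.stab _ _ _ (o_mem s) _ (hv t)
  have h2 : ∀ s, k - oz s + (oz s + N) = k + N := fun s => by ring
  have h3 : ∀ s, (ev (c s) • C.o s) • v t ∈ X.F (k + N) := fun s => by
    rw [smul_assoc, ← h2 s]
    exact A.smul_mem (hc s) (h1 s)
  rw [Finset.sum_smul, A.φ_sum _ h3]
  refine Submodule.sum_mem _ fun s _ => ?_
  rw [smul_assoc, ← h2 s, A.φ_smul (hc s) (h1 s)]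
  exact Submodule.smul_mem _ _ (Submodule.subset_span ⟨(s, t), rfl⟩)

theorem point (hO : stORT) (hF : stFIB) (hC : Ctx C) (A : Loc X.F p (Fin 8 × Fin a)) (hp : p ≠ 0)
    {N : ℤ} (hN : ∀ s, A.e s ≤ N) :
    ∃ v : Fin a → X.V, (∀ t, v t ∈ X.F N) ∧ (val A N v).det ≠ 0 := by
  obtain ⟨I, J, i, j, α, β, hI, hJ, hIJ, hII, hJJ, hα, hβ, hz⟩ :=
    hO C hC {p} fun z hz => by rw [Finset.mem_singleton.1 hz]; exact hp
  obtain ⟨α0, β0⟩ := hz p (Finset.mem_singleton_self p)
  have h1 : (1 : C.B) ∈ C.O 0 := o_mem 0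
  have hD : del C.G ∈ C.O 3 := o_mem 7
  have mul : ∀ {j k : ℤ} {x y : C.B}, x ∈ C.O j → y ∈ C.O k → x * y ∈ C.O (j + k) :=
    fun hx hy => hC.tab.mul _ _ _ hx _ hy
  have mm : ∀ {j k : ℤ} {x y : C.B}, x ∈ C.O j → y ∈ C.O k →
      A.m (act X x) j * A.m (act X y) k = A.m (act X (x * y)) (j + k) := fun hx hy => by
    rw [A.m_mul (dg_act X hx) (dg_act X hy), map_mul]
  have hf : Hg (3 + 3) C.M.det := hC.hf
  have hsq : del C.G * del C.G = algebraMap K C.B (ev C.M.det) := by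
    rw [← hC.det_eq]
    exact hC.alg.sq
  obtain ⟨t1, t2⟩ := A.sq_facts (dg_act X hD) hf
    (by rw [← map_mul, hsq, AlgHom.commutes]) (by rw [← hC.det_eq]; exact hC.nsq) C.disc hp
  obtain ⟨w, hw⟩ := hF (Fin 8 × Fin a) a (A.m (act X I) i) (A.m (act X J) j)
    (A.m (act X (del C.G)) 3) (eval p α) (eval p β) (eval p C.M.det) (by simp) α0 β0
    (by rw [mm hI hI, hII, AlgHom.commutes, A.m_sc (hcast hα (two_mul _))])
    (by rw [mm hJ hJ, hJJ, AlgHom.commutes, A.m_sc (hcast hβ (two_mul _))])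
    (by rw [mm hI hJ, mm hJ hI, hIJ, map_neg, add_comm, A.m_neg (dg_act X (mul hJ hI))])
    (by rw [mm hD hI, mm hI hD, hC.alg.cen, add_comm])
    (by rw [mm hD hJ, mm hJ hD, hC.alg.cen, add_comm])
    (by rw [mm hD hD, hsq, AlgHom.commutes, A.m_sc hf]) (fun _ => t1) t2
  choose v hv hv' using fun t => A.φ_onto hp hN (w t)
  refine ⟨v, hv, ?_⟩
  have e1 : A.m (act X 1) 0 = 1 := by
    have := A.m_sc (j := 0) (β := 1) (isWeightedHomogeneous_one _ _)
    rw [map_one, map_one, map_one, one_smul] at this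
    rw [map_one, this]
  have h2 := hw.span_eq_top_of_card_eq_finrank' (by simp)
  have h3 : ⊤ ≤ Submodule.span ℂ (Set.range (val A N v).col) := by
    rw [← h2, Submodule.span_le]
    rintro _ ⟨⟨r, t⟩, rfl⟩
    have k : ∀ {k : ℤ} {b : C.B}, b ∈ C.O k →
        A.m (act X b) k *ᵥ w t ∈ Submodule.span ℂ (Set.range (val A N v).col) := fun hb => by
      rw [← hv' t]
      exact mem_span A hv hb t
    have k0 := k h1
    have k3 := k (mul hI hJ)
    have k5 := k (mul hD hI)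
    have k6 := k (mul hD hJ)
    have k7 := k (mul hD (mul hI hJ))
    rw [e1] at k0
    rw [← mm hI hJ] at k3
    rw [← mm hD hI] at k5
    rw [← mm hD hJ] at k6
    rw [← mm hD (mul hI hJ), ← mm hI hJ] at k7
    fin_cases r
    exacts [k0, k hI, k hJ, k3, k hD, k5, k6, k7]
  have h4 := linearIndependent_of_top_le_span_of_card_eq_finrank h3 (by simp)
  exact ((Matrix.isUnit_iff_isUnit_det _).1
    (Matrix.linearIndependent_cols_iff_isUnit.1 h4)).ne_zero

theorem val_line (A : Loc X.F p (Fin 8 × Fin a)) {N : ℤ} {v v' : Fin a → X.V}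
    (hv : ∀ t, v t ∈ X.F N) (hv' : ∀ t, v' t ∈ X.F N) (c c' : ℂ) :
    val A N (c • v + c' • v') = c • val A N v + c' • val A N v' := by
  ext1 s x
  have h1 := X.stab _ _ _ (o_mem x.1) _ (hv x.2)
  have h2 := X.stab _ _ _ (o_mem x.1) _ (hv' x.2)
  have e : C.o x.1 • (c • v + c' • v') x.2 = c • C.o x.1 • v x.2 + c' • C.o x.1 • v' x.2 := by
    rw [Pi.add_apply, Pi.smul_apply, Pi.smul_apply, smul_add, smul_comm c, smul_comm c']
  show A.φ (oz x.1 + N) (C.o x.1 • (c • v + c' • v') x.2) s = _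
  rw [e, A.φ_add (Submodule.smul_mem _ _ h1) (Submodule.smul_mem _ _ h2), A.φ_c c h1, A.φ_c c' h2]
  rfl

end LfA

open LfA in
theorem lf (hO : stORT) (hF : stFIB) (hA : stLFA) (hD : stDET) : stLF := by
  intro C hC X a ha Z hZ
  have hc : Fintype.card (Fin 8 × Fin a) = finrank K X.V := by
    rw [Fintype.card_prod, Fintype.card_fin, Fintype.card_fin]
    exact ha.symm
  have h1 : ∀ p : Z, Nonempty (Loc X.F p.1 (Fin 8 × Fin a)) := fun p => by
    obtain ⟨u, e, h⟩ := hA X.V X.F X.lat p.1 (hZ p.1 p.2)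
    exact exists_loc X.lat.fam (lb_reindex h (Fintype.equivFinOfCardEq hc))
  have A := fun p => (h1 p).some
  obtain ⟨N, hN⟩ := Finite.exists_le fun q : Z × (Fin 8 × Fin a) => (A q.1).e q.2
  obtain ⟨v, hv, h2⟩ := generic (Submodule.pi Set.univ fun _ : Fin a => X.F N) Finset.univ
    (fun p : Z => val (A p) N)
    (fun p _ v hv v' hv' c => val_line (A p) (fun t => hv t trivial) (fun t => hv' t trivial) _ _)
    fun p _ => by
      obtain ⟨v, hv, h⟩ := point hO hF hC (A p) (hZ p.1 p.2) fun s => hN (p, s)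
      exact ⟨v, fun t _ => hv t, h⟩
  refine ⟨v, fun _ => N, fun p hp => ?_⟩
  exact (A ⟨p, hp⟩).lb_of hD X.lat (hZ p hp) hc
    (fun x => X.stab _ _ _ (o_mem x.1) _ (hv x.2 trivial)) (h2 ⟨p, hp⟩ (Finset.mem_univ _))

end Vale.Agent.P287Z.L
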