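import Vale.Agent.P287Z.L.Sk

/-!
Finite generation of subfamilies, minimal generators, the reflexive hull.
-/

namespace Vale.Agent.P287Z.L

open MvPolynomial Vale.Agent.P287 Vale.Agent.P287.Theta

namespace Noe

variable {V : Type} [AddCommGroup V] [Module ℂ V] [Module K V] [IsScalarTower ℂ K V]

theorem aa {k : ℤ} {y : K} : y ∈ AA k ↔ ∃ b, Hg k b ∧ ev b = y := Submodule.mem_map

theorem aa_mul {j k : ℤ} {x y : K} (hx : x ∈ AA j) (hy : y ∈ AA k) : x * y ∈ AA (j + k) :=
  let ⟨a, h1, h2⟩ := aa.1 hx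
  let ⟨b, k1, k2⟩ := aa.1 hy
  aa.2 ⟨a * b, h1.mul k1, by rw [map_mul, h2, k2]⟩

theorem aa_zero {y : K} (h : y ∈ AA 0) : ∃ t : ℂ, algebraMap ℂ K t = y := by
  obtain ⟨b, h1, rfl⟩ := aa.1 h
  refine ⟨coeff 0 b, ?_⟩
  conv_rhs => rw [h1.eq_monomial_of_unique_weight (d₀ := 0) fun d hd => by
    rw [Finsupp.weight_apply, Finsupp.sum_fintype _ _ (by simp),
      Finset.sum_eq_zero_iff_of_nonneg (by simp)] at hd
    exact Finsupp.ext fun i => by simpa using hd i]
  exact (ev.commutes _).symm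

theorem sp {ι : Type} [Fintype ι] {u : ι → V} {e : ι → ℤ} {k : ℤ} {v : V} :
    v ∈ Sp u e k ↔ ∃ c : ι → K, (∀ i, c i ∈ AA (k - e i)) ∧ ∑ i, c i • u i = v := by
  simp only [Sp, Fr, Submodule.mem_map, Submodule.mem_pi, Set.mem_univ, true_imp_iff,
    LinearMap.restrictScalars_apply, Fintype.linearCombination_apply]

theorem comp_mul {d k : ℤ} {b : P3} (h : Hg d b) (r : P3) :
    weightedHomogeneousComponent (fun _ => (1 : ℤ)) (k + d) (r * b) =
      weightedHomogeneousComponent (fun _ => (1 : ℤ)) k r * b := by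
  let := weightedGradedAlgebra ℂ fun _ : Fin 3 => (1 : ℤ)
  rw [← weightedDecomposition.decompose'_apply, ← weightedDecomposition.decompose'_apply]
  exact DirectSum.coe_decompose_mul_add_of_right_mem
    (weightedHomogeneousSubmodule ℂ fun _ : Fin 3 => (1 : ℤ)) h

end Noe

open Noe

theorem noeth : stNOETH := by
  rintro V _ _ _ _ L N ⟨n, u, e, h⟩ hN hL
  obtain ⟨s, s1, s2⟩ := (Submodule.fg_span_iff_fg_span_finset_subset (R := P3)
    {c : Fin n → P3 | ∃ k, (∀ i, Hg (k - e i) (c i)) ∧ ∑ i, ev (c i) • u i ∈ N k}).1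
    (IsNoetherian.noetherian _)
  choose d d1 d2 using fun a : Fin s.card => s1 (s.equivFin.symm a).2
  refine ⟨_, fun a => ∑ i, ev ((s.equivFin.symm a).1 i) • u i, d,
    fun k => le_antisymm (fun v hv => ?_) fun v hv => ?_⟩
  · obtain ⟨c, c1, rfl⟩ := sp.1 (h k ▸ hL k hv)
    choose c c2 c3 using fun i => aa.1 (c1 i)
    simp only [← c3] at hv ⊢
    have k1 := s2.le (Submodule.subset_span ⟨k, c2, hv⟩)
    rw [← Subtype.range_coe (s := (s : Set (Fin n → P3))), ← s.equivFin.symm.surjective.range_comp] at k1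
    obtain ⟨r, hr⟩ := (Submodule.mem_span_range_iff_exists_fun _).1 k1
    refine sp.2 ⟨fun a => ev (weightedHomogeneousComponent (fun _ => (1 : ℤ)) (k - d a) (r a)),
      fun a => aa.2 ⟨_, weightedHomogeneousComponent_isWeightedHomogeneous _ _, rfl⟩, ?_⟩
    have k2 : ∀ i, c i = ∑ a, weightedHomogeneousComponent (fun _ => (1 : ℤ)) (k - d a) (r a) *
        (s.equivFin.symm a).1 i := fun i => by
      rw [← (c2 i).weightedHomogeneousComponent_same, ← hr, Finset.sum_apply, map_sum]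
      refine Finset.sum_congr rfl fun a _ => ?_
      rw [← comp_mul (d1 a i), sub_add_sub_cancel]
      rfl
    simp only [k2, Finset.smul_sum, smul_smul, map_sum, map_mul, Finset.sum_smul]
    exact Finset.sum_comm
  · obtain ⟨c, c1, rfl⟩ := sp.1 hv
    exact Submodule.sum_mem _ fun a _ => sub_add_cancel k (d a) ▸ hN _ _ _ (c1 a) _ (d2 a)

theorem mg : stMG := by
  rintro V _ _ _ _ L ⟨n, u, e, h⟩
  induction n with
  | zero => exact ⟨0, u, e, h, fun _ _ _ i => i.elim0⟩
  | succ n ih =>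
    by_contra hn
    obtain ⟨k, c, hc, i, rfl, h0⟩ : ∃ k, ∃ c ∈ Syz u e k, ∃ i, e i = k ∧ c i ≠ 0 := by
      by_contra h1
      exact hn ⟨_, u, e, h, fun k c hc i hi => by_contra fun h0 => h1 ⟨k, c, hc, i, hi, h0⟩⟩
    have c1 : ∀ l, c l ∈ AA (e i - e l) := fun l => hc.1 l trivial
    have c2 : ∑ l, c l • u l = 0 := (Fintype.linearCombination_apply K u c).symm.trans hc.2
    obtain ⟨t, ht⟩ := aa_zero (sub_self (e i) ▸ c1 i)
    rw [Fin.sum_univ_succAbove _ i, add_eq_zero_iff_eq_neg, ← eq_inv_smul_iff₀ h0] at c2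
    refine hn (ih (fun l => u (i.succAbove l)) (fun l => e (i.succAbove l)) fun j => (h j).trans
      (le_antisymm (fun v hv => ?_) fun v hv => ?_)) <;> obtain ⟨a, a1, rfl⟩ := sp.1 hv
    · refine sp.2 ⟨fun l => a (i.succAbove l) - t⁻¹ • (a i * c (i.succAbove l)), fun l =>
        sub_mem (a1 _) (Submodule.smul_mem _ _
          (sub_add_sub_cancel j (e i) _ ▸ aa_mul (a1 i) (c1 _))), ?_⟩
      rw [Fin.sum_univ_succAbove _ i, c2, ← ht]
      simp only [sub_smul, Finset.sum_sub_distrib, smul_neg, Finset.smul_sum, smul_smul,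
        Algebra.smul_def, map_inv₀, mul_left_comm (a i)]
      abel
    · refine sp.2 ⟨Fin.insertNth i 0 a, (Fin.forall_iff_succAbove i).2 ⟨?_, fun l => ?_⟩, ?_⟩
      · rw [Fin.insertNth_apply_same]; exact zero_mem _
      · rw [Fin.insertNth_apply_succAbove]; exact a1 l
      · simp only [Fin.sum_univ_succAbove _ i, Fin.insertNth_apply_same,
          Fin.insertNth_apply_succAbove, zero_smul, zero_add]

end Vale.Agent.P287Z.L
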