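import Vale.Agent.P287Z.L.Basic
import Vale.Agent.P287Z.L.Noe

/-!
The reflexive hull of a finitely generated family is a lattice.
-/

namespace Vale.Agent.P287Z.L

open MvPolynomial Vale.Agent.P287 Vale.Agent.P287.Theta

namespace Noe

variable {V : Type} [AddCommGroup V] [Module ℂ V] [Module K V] [IsScalarTower ℂ K V]

theorem ra {k : ℤ} {x : K} (h : ∀ g, HPrime g → ∃ d y, Ug g d y ∧ y * x ∈ AA (d + k)) :
    x ∈ AA k := by
  obtain ⟨d, _, ⟨b, b1, rfl, b2⟩, b3⟩ := h _ (hprime_X 0)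
  replace b2 : b ≠ 0 := fun h0 => b2 (h0 ▸ dvd_zero _)
  induction b using UniqueFactorizationMonoid.induction_on_prime generalizing d with
  | h₁ => exact absurd rfl b2
  | h₂ b hb =>
    obtain ⟨c, hc⟩ := hb.exists_right_inv
    have k1 := AA_mul (b1.quot b2 (hc ▸ hg_one)).mem b3
    rw [← mul_assoc, ← map_mul, mul_comm c, hc, map_one, one_mul] at k1
    exact AA_cast k1 (by ring)
  | h₃ a p ha hp ih =>
    obtain ⟨n, hn⟩ := b1.of_mul b2
    obtain ⟨d', _, ⟨b', k1, rfl, k2⟩, k3⟩ := h p ⟨hp, n, hn⟩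
    obtain ⟨A, k4, k5⟩ := mem_AA.1 b3
    obtain ⟨A', k6, k7⟩ := mem_AA.1 k3
    have k8 : A * b' = p * a * A' := (k4.mul k1).inj ((b1.mul k6).cast (by ring)) (by
      rw [map_mul, map_mul _ _ A', k5, k7]; ring)
    obtain ⟨B, rfl⟩ := (hp.dvd_or_dvd ⟨a * A', k8.trans (mul_assoc _ _ _)⟩).resolve_right k2
    rw [map_mul, map_mul, mul_assoc] at k5
    exact ih _ (hn.quot hp.ne_zero b1) (mem_AA.2 ⟨B, (hn.quot hp.ne_zero k4).cast (by ring),
      mul_left_cancel₀ (hn.ev_ne hp.ne_zero) k5⟩) ha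

theorem fam {L : ℤ → Submodule ℂ V} (h : FG L) : Fam L := by
  obtain ⟨n, u, e, h⟩ := h
  intro d k a ha v hv
  obtain ⟨c, c1, rfl⟩ := sp.1 (h k ▸ hv)
  exact h _ ▸ sp.2 ⟨fun i => a * c i, fun i => AA_cast (AA_mul ha (c1 i)) (by ring),
    by simp only [Finset.smul_sum, smul_smul]⟩

theorem mh {L : ℤ → Submodule ℂ V} (h : Fam L) {k : ℤ} {v : V} (hv : v ∈ hull L k) {g : P3}
    (hg : HPrime g) : LocG L g k v := by
  induction hv using Submodule.span_induction with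
  | mem x hx => exact hx g hg
  | zero => exact ⟨0, 1, ug_one hg.1, by rw [smul_zero]; exact zero_mem _⟩
  | add x y _ _ hx hy =>
    obtain ⟨d, a, a1, a2⟩ := hx
    obtain ⟨d', b, b1, b2⟩ := hy
    refine ⟨_, _, a1.mul hg.1 b1, ?_⟩
    rw [smul_add, mul_smul a b y, mul_comm a, mul_smul, add_assoc]
    exact add_mem (add_left_comm d d' k ▸ h _ _ _ b1.mem _ a2) (h _ _ _ a1.mem _ b2)
  | smul c x _ hx =>
    obtain ⟨d, a, a1, a2⟩ := hx
    refine ⟨d, a, a1, ?_⟩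
    rw [← algebraMap_smul K c x, smul_comm, algebraMap_smul]
    exact Submodule.smul_mem _ _ a2

end Noe

open Noe

theorem hull_lat (hN : stNOETH) : stHULL := by
  intro V _ _ _ _ _ L hL hF
  have f1 := fam hL
  have f2 : Fam (hull L) := fun d k a ha v hv => Submodule.subset_span fun g hg =>
    let ⟨d', y, k1, k2⟩ := mh f1 hv hg
    ⟨d', y, k1, by rw [smul_comm, add_left_comm]; exact f1 _ _ _ ha _ k2⟩
  refine ⟨f2, ?_, fun v => ?_, fun k v hv => Submodule.subset_span fun g hg => ?_⟩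
  · obtain ⟨n, u, e, h⟩ := hL
    let b := Module.finBasis K V
    obtain ⟨d, y, y0, -, hy⟩ := exists_frac_fun fun p : Fin n × Fin _ => b.repr (u p.1) p.2
    obtain ⟨m, hm⟩ := Finite.exists_le fun i => d - e i
    have k1 : ∀ k, ∀ v ∈ L k, ∀ j, y * b.repr v j ∈ AA (k + m) := fun k v hv j => by
      obtain ⟨c, c1, rfl⟩ := sp.1 (h k ▸ hv)
      rw [map_sum, Finsupp.finsetSum_apply, Finset.mul_sum]
      refine sum_mem fun i _ => ?_
      rw [map_smul, Finsupp.smul_apply, smul_eq_mul, mul_left_comm]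
      exact AA_mono (by linarith [hm i]) (AA_mul (c1 i) (hy (i, j)))
    refine hN V (Sp (fun j => y⁻¹ • b j) fun _ => -m) _ ⟨_, _, _, fun _ => rfl⟩ f2
      fun k v hv => sp.2 ⟨fun j => y * b.repr v j, fun j => ra fun g hg => ?_, ?_⟩
    · obtain ⟨d', y', k2, k3⟩ := mh f1 hv hg
      have k4 := k1 _ _ k3 j
      rw [map_smul, Finsupp.smul_apply, smul_eq_mul, mul_left_comm] at k4
      exact ⟨d', y', k2, AA_cast k4 (by ring)⟩
    · simp only [smul_smul, mul_right_comm y, mul_inv_cancel₀ y0, one_mul, b.sum_repr]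
  · obtain ⟨k, y, y0, hy⟩ := hF v
    exact ⟨k, y, y0, Submodule.subset_span fun g hg =>
      ⟨0, 1, ug_one hg.1, by rwa [one_smul, zero_add]⟩⟩
  · obtain ⟨d, y, k1, k2⟩ := hv g hg
    obtain ⟨d', y', k3, k4⟩ := mh f1 k2 hg
    exact ⟨_, _, k3.mul hg.1 k1, by rwa [mul_smul, add_assoc]⟩

end Vale.Agent.P287Z.L
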