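import Vale.Agent.P287Z.L.Basic3
import Vale.Agent.P287Z.L.ClB

/-!
The parity argument.
-/

namespace Vale.Agent.P287Z.L

open MvPolynomial Module Filter Matrix Vale.Agent.P287 Vale.Agent.P287.Theta

namespace Olm

lemma zo (x : ZMod 2) : x = 0 ∨ x = 1 := by revert x; decide

section F2

variable {T : Type*} {Q : T → ZMod 2} {b : T → T → ZMod 2} {add : T → T → T}

/-- a quadratic function that is one off a hyperplane -/
lemma f2_core (r : T → ZMod 2) (hr : ∀ x y, r (add x y) = r x + r y)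
    (hb : ∀ w x y, b w (add x y) = b w x + b w y) (hs : ∀ x y, b x y = b y x)
    (hQ : ∀ x y, Q (add x y) = Q x + Q y + b x y) (c : T) (hc : r c = 1)
    (h1 : ∀ x, r x = 1 → Q x = 1) (v w : T) (hv : Q v = 0) (hw : b w v = 1) : False := by
  have hQc := h1 c hc
  have h2 : ∀ x, r x = 0 → Q x = b c x := by
    intro x hx
    have := h1 (add c x) (by rw [hr, hx, hc, add_zero])
    rw [hQ, hQc] at this
    revert this
    generalize Q x = s
    generalize b c x = t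
    revert s t
    decide
  have h3 : ∀ x y, r x = 0 → r y = 0 → b x y = 0 := by
    intro x y hx hy
    have := h2 (add x y) (by rw [hr, hx, hy, add_zero])
    rw [hQ, hb, h2 x hx, h2 y hy] at this
    linear_combination this
  have hrv : r v = 0 := (zo _).resolve_right fun h => by
    rw [h1 v h] at hv
    exact one_ne_zero hv
  rcases zo (r w) with h | h
  · rw [h3 w v h hrv] at hw
    exact zero_ne_one hw
  · have h4 := h3 v (add w c) hrv (by rw [hr, h, hc]; decide)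
    rw [hb, hs v w, hw, hs v c, ← h2 v hrv, hv, add_zero] at h4
    exact one_ne_zero h4

lemma f2 (A ρ : T → ZMod 2) (hA : ∀ x y, A (add x y) = A x + A y)
    (hρ : ∀ x y, ρ (add x y) = ρ x + ρ y)
    (hb : ∀ w x y, b w (add x y) = b w x + b w y) (hs : ∀ x y, b x y = b y x)
    (hQ : ∀ x y, Q (add x y) = Q x + Q y + b x y) (c : T) (hc : A c = 1) (hc' : ρ c = 0)
    (η : T) (e1 : A η = 0) (e2 : ρ η = 0) (e3 : Q η = 1)
    (h1 : ∀ x, A x = 1 → ρ x = 0 → Q x = 1)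
    (h2 : ∀ u, A u = 1 → ρ u = 1 → ∃ E, A E = 1 ∧ Q E = 1 ∧ ∀ y, b y E = A y * ρ E + ρ y)
    (v w : T) (hv : Q v = 0) (hw : b w v = 1) : False := by
  by_cases h : ∃ u, A u = 1 ∧ ρ u = 1
  · obtain ⟨u, u1, u2⟩ := h
    obtain ⟨E, E1, E2, E3⟩ := h2 u u1 u2
    rcases zo (ρ E) with h0 | h0
    · have := h1 (add η E) (by rw [hA, e1, E1, zero_add]) (by rw [hρ, e2, h0, zero_add])
      rw [hQ, e3, E2, E3, e1, e2] at this
      revert this
      generalize ρ E = s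
      revert s
      decide
    · refine f2_core (fun x => A x + ρ x) (fun x y => by rw [hA, hρ]; ring) hb hs hQ c
        (by rw [hc, hc', add_zero]) (fun x hx => ?_) v w hv hw
      rcases zo (A x) with h3 | h3
      · rw [h3, zero_add] at hx
        have := h1 (add x E) (by rw [hA, h3, E1, zero_add]) (by rw [hρ, hx, h0]; decide)
        rw [hQ, E2, E3, h3, hx, h0] at this
        revert this
        generalize Q x = s
        revert s
        decide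
      · refine h1 x h3 ?_
        rw [h3] at hx
        linear_combination hx
  · refine f2_core A hA hb hs hQ c hc (fun x hx => h1 x hx ?_) v w hv hw
    exact (zo _).resolve_right fun h3 => h ⟨x, hx, h3⟩

end F2

lemma cast_eq {x y : ℤ} (h : 2 ∣ x - y) : (x : ZMod 2) = y :=
  (ZMod.intCast_eq_intCast_iff_dvd_sub x y 2).2 (by
    obtain ⟨t, ht⟩ := h
    exact ⟨-t, by push_cast; linear_combination -ht⟩)

lemma dvd_of_cast {x y : ℤ} (h : (x : ZMod 2) = y) : 2 ∣ x - y := by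
  obtain ⟨t, ht⟩ := (ZMod.intCast_eq_intCast_iff_dvd_sub x y 2).1 h
  exact ⟨-t, by push_cast at ht; linear_combination -ht⟩

/-- the steps used in the parity argument -/
structure Hyp : Prop where
  hom : stHOM
  hpx : stHPX
  sum : stSUM
  iso : stISO
  o1 : stO1
  symm : stSYMM
  h1 : stH1
  step : stSTEP
  a1a : stA1a
  a1b : stA1b
  qf : stQF
  net : stNET
  vr : stVR
  v2 : stV2
  bgg : stBGG

variable {C : Cx}

/-- the lattice with Euler form given by the first Chern class -/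
def GoodE (E : OL C) : Prop := rk E = 8 ∧ eu E E = 2 ∧
  ∀ (Y : OL C) (a : ℕ), rk Y = 8 * a → 4 ∣ 2 * eu Y E - a * c1 E.F + c1 Y.F

lemma fd_hom (X Y : OL C) : FiniteDimensional K (X.V →ₗ[C.B] Y.V) :=
  Module.Finite.of_injective (LinearMap.restrictScalarsₗ K C.B X.V Y.V K)
    (LinearMap.restrictScalars_injective K)

/-- composition with an endomorphism, linear over the function field -/
noncomputable def postK (Y : OL C) {E : OL C} (ζ : E.V →ₗ[C.B] E.V) :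
    (Y.V →ₗ[C.B] E.V) →ₗ[K] (Y.V →ₗ[C.B] E.V) where
  toFun φ := ζ ∘ₗ φ
  map_add' _ _ := LinearMap.comp_add _ _ _
  map_smul' c φ := LinearMap.ext fun v => LinearMap.map_smul_of_tower ζ c (φ v)

lemma good_of_ver (H : Hyp) (hC : Ctx C) (hn : ¬ C.Rat) {ν : K} (hν : ν ≠ 0)
    {φ : Matrix (Fin 3) (Fin 3) P3} {u : Fin 3 → Fin 4 → K} {w : Fin 4 → K}
    (hV : Ver C.M.det (ν⁻¹ • C.G) φ u w) : ∃ E : OL C, GoodE E := by
  have hG := (H.vr C ν φ u w hν hV).resolve_left hn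
  obtain ⟨E, h8, h2, ζ, hζ, hζ'⟩ := H.v2 C hC ν φ u w hν hV
  refine ⟨E, h8, h2, fun Y a ha => ?_⟩
  have := fd_hom Y E
  obtain ⟨hl, hr, -⟩ := H.hom C hC Y E
  have hp := H.hpx _ _ hl
  have h3 := H.bgg _ (HomF Y E) _ _ _ φ (fun i => postK Y (ζ i)) hV.symm hV.deg hG hl hp
    (fun i k ψ hψ j v hv => mem_cast (hζ i _ _ (hψ j v hv)) (add_assoc _ _ _))
    (fun i j ψ => LinearMap.ext fun v => hζ' i j (ψ v))
  have h4 := H.h1 C hC Y E a 1 ha h8
  have h5 : finrank K (Y.V →ₗ[C.B] E.V) = 8 * a := by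
    rw [h8, ha] at hr
    omega
  rw [h4, h5] at h3
  obtain ⟨t, ht⟩ := h3
  refine ⟨t, ?_⟩
  have h6 : 2 * (2 * eu Y E - a * c1 E.F + c1 Y.F) = 2 * (4 * t) := by
    push_cast at ht
    unfold eu
    linear_combination ht
  omega

lemma rank_one (H : Hyp) (hC : Ctx C) (hn : ¬ C.Rat) (X : OL C) (h8 : rk X = 8) :
    ∃ l : ℤ, c1 X.F = 2 * l - 14 ∧ 2 ∣ eu X X ∧ (Odd l → 4 ∣ eu X X - 2) ∧
      (Even l → ∃ E : OL C, GoodE E) := by
  obtain ⟨φ⟩ := (H.hom C hC X X).2.2.2 h8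
  obtain ⟨U, ν, l, hν, hQ, hL⟩ := H.a1a C hC X φ
  obtain ⟨h1, h2⟩ := H.a1b C hC X φ U ν l hν hQ hL
  obtain ⟨h3, h4⟩ := H.qf _ U _ l hC.hf C.disc hQ
  refine ⟨l, h1, ⟨chi U - (l ^ 2 + 3 * l) / 2, ?_⟩, fun hl => ?_, fun hl => ?_⟩
  · rw [h2]; linear_combination two_dvd_sq_add l
  · rw [h2]
    exact (h3 hl).resolve_left fun h => hn (H.net C ν hν h)
  · obtain ⟨ψ, u, w, hV⟩ := h4 hl
    exact good_of_ver H hC hn hν hV

lemma eu_O (H : Hyp) (hC : Ctx C) {P : OL C} {m : ℤ} (hP : IsO P m) (Y : OL C) :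
    eu P Y = chi Y.F + rk Y * ((m ^ 2 + 3 * m) / 2) + c1 Y.F * m := by
  rw [((H.iso C hC).2 P m hP).2.2 Y]
  exact ((H.hpx _ _ Y.lat).sh m).chi_eq

lemma eu_OO (H : Hyp) (hC : Ctx C) {P : OL C} {m : ℤ} (hP : IsO P m) : eu P P = 2 := by
  obtain ⟨h1, h2, -⟩ := (H.iso C hC).2 P m hP
  rw [eu_O H hC hP, h1, h2.chi_eq, h2.c1_eq]
  push_cast
  linear_combination 4 * two_dvd_sq_add m

lemma reduce (H : Hyp) (hC : Ctx C) (hn : ¬ C.Rat) (a : ℕ) : ∀ X : OL C, rk X = 8 * (a + 1) →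
    ∃ e : OL C, rk e = 8 ∧ 4 ∣ c1 X.F - c1 e.F ∧ 2 ∣ chi X.F - chi e.F ∧
      4 ∣ eu X X - eu e e - a * (2 + 2 * chi e.F) := by
  induction a with
  | zero => exact fun X hX => ⟨X, hX, by simp, by simp, by simp⟩
  | succ a ih =>
    intro X hX
    obtain ⟨X', P, m, μ, hP, h1, h2, h3⟩ := H.step C hC X _ hX (by omega)
    have hX' : rk X' = 8 * (a + 1) := by omega
    obtain ⟨e, e1, ⟨t₁, e2⟩, ⟨t₂, e3⟩, ⟨t₃, e4⟩⟩ := ih X' hX'
    obtain ⟨l, hl, -⟩ := rank_one H hC hn e e1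
    obtain ⟨P₀, hP₀⟩ := (H.iso C hC).1 0
    obtain ⟨p1, p2, -⟩ := (H.iso C hC).2 P m hP
    have q1 := ((H.iso C hC).2 P₀ 0 hP₀).1
    have a1 := h3 X
    have a2 := h3 P
    have a3 := h3 X'
    have a4 := h3 P₀
    rw [H.symm C hC X P, H.symm C hC X X', hX] at a1
    rw [eu_OO H hC hP, p1] at a2
    rw [H.symm C hC X' P, hX'] at a3
    rw [eu_O H hC hP₀, eu_O H hC hP₀, eu_O H hC hP₀, p2.chi_eq, q1] at a4
    have a5 := eu_O H hC hP X'
    rw [hX'] at a5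
    push_cast at a1 a2 a3 a4 a5
    refine ⟨e, e1, ⟨t₁ - 3 - 2 * m, by linear_combination h2 + e2⟩, ⟨t₂ + 2 * m ^ 2 + 1 - μ, ?_⟩,
      ⟨t₃ + t₂ + 4 * (a + 1) * ((m ^ 2 + 3 * m) / 2) + (2 * t₁ + l - 7) * m - (a + 2) * μ, ?_⟩⟩
    · have : 4 * (chi X.F - chi e.F) = 4 * (2 * (t₂ + 2 * m ^ 2 + 1 - μ)) := by
        linear_combination a4 + 4 * e3
      omega
    · have : 4 * (eu X X - eu e e - ((a + 1 : ℕ) : ℤ) * (2 + 2 * chi e.F)) =
          4 * (4 * (t₃ + t₂ + 4 * (a + 1) * ((m ^ 2 + 3 * m) / 2) + (2 * t₁ + l - 7) * m -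
            (a + 2) * μ)) := by
        push_cast
        linear_combination a1 + a2 + a3 + 8 * a5 + 4 * e4 + 8 * e3 + 8 * m * e2 + 8 * m * hl
      exact mul_left_cancel₀ (by norm_num) this

lemma eu_sum (H : Hyp) (hC : Ctx C) {X Y S : OL C} (h : ∀ W, eu W S = eu W X + eu W Y) :
    eu S S = eu X X + eu Y Y + 2 * eu X Y := by
  rw [h S, H.symm C hC S X, H.symm C hC S Y, h X, h Y, H.symm C hC Y X]
  ring

lemma evens (H : Hyp) (hC : Ctx C) (hn : ¬ C.Rat) (X : OL C) : 2 ∣ c1 X.F ∧ 2 ∣ eu X X := by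
  obtain ⟨P, hP⟩ := (H.iso C hC).1 0
  obtain ⟨p1, p2, -⟩ := (H.iso C hC).2 P 0 hP
  obtain ⟨S, s1, s2, s3⟩ := H.sum C hC X P
  obtain ⟨a, ha⟩ := (H.hom C hC X X).2.2.1
  obtain ⟨e, e1, e2, -, ⟨t, e4⟩⟩ := reduce H hC hn a S (by omega)
  obtain ⟨l, hl, ⟨s, hs⟩, -⟩ := rank_one H hC hn e e1
  have h1 := eu_sum H hC s3
  rw [eu_OO H hC hP] at h1
  rw [p2.c1_eq] at s2
  refine ⟨by omega, ⟨2 * t + s + a * (1 + chi e.F) - 1 - eu X P, ?_⟩⟩
  linear_combination e4 + hs - h1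

lemma comb_one (H : Hyp) (hC : Ctx C) (X : OL C) (n : ℕ) (S : OL C) :
    ∃ S' : OL C, ∀ W, eu W S' = eu W S + n * eu W X := by
  induction n with
  | zero => exact ⟨S, fun W => by simp⟩
  | succ n ih =>
    obtain ⟨S', h⟩ := ih
    obtain ⟨S'', -, -, h'⟩ := H.sum C hC S' X
    exact ⟨S'', fun W => by rw [h', h]; push_cast; ring⟩

lemma comb (H : Hyp) (hC : Ctx C) {ι : Type} (X : ι → OL C) (v : ι → ℤ) (s : Finset ι) :
    ∃ S : OL C, ∀ W, 4 ∣ eu W S - ∑ i ∈ s, v i * eu W (X i) := by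
  classical
  induction s using Finset.induction_on with
  | empty =>
    obtain ⟨P, -⟩ := (H.iso C hC).1 0
    obtain ⟨S, h⟩ := comb_one H hC P 3 P
    exact ⟨S, fun W => ⟨eu W P, by rw [h, Finset.sum_empty]; push_cast; ring⟩⟩
  | insert i s hi ih =>
    obtain ⟨S, h⟩ := ih
    obtain ⟨S', h'⟩ := comb_one H hC (X i) (v i % 4).toNat S
    refine ⟨S', fun W => ?_⟩
    obtain ⟨t, ht⟩ := h W
    refine ⟨t - v i / 4 * eu W (X i), ?_⟩
    rw [h', Finset.sum_insert hi, Int.toNat_of_nonneg (Int.emod_nonneg _ (by norm_num))]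
    linear_combination ht + eu W (X i) * Int.emod_add_mul_ediv (v i) 4

theorem core (H : Hyp) (hC : Ctx C) (hn : ¬ C.Rat) (v w : OL C) (hv : 4 ∣ eu v v)
    (hw : Odd (eu w v)) : False := by
  choose add s1 s2 s3 using H.sum C hC
  have h8 : ∀ X : OL C, 8 ∣ rk X := fun X => (H.hom C hC X X).2.2.1
  choose a ha using h8
  choose ρ hρ using fun X : OL C => (evens H hC hn X).1
  choose q hq using fun X : OL C => (evens H hC hn X).2
  obtain ⟨P, hP⟩ := (H.iso C hC).1 0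
  obtain ⟨p1, p2, -⟩ := (H.iso C hC).2 P 0 hP
  obtain ⟨P₁, r1, r2⟩ := H.o1 C hC
  have one : ∀ X : OL C, rk X = 8 → a X = 1 := fun X h => by have := ha X; omega
  have red : ∀ X : OL C, (((a X : ℕ) : ℤ) : ZMod 2) = 1 → ∃ (e : OL C) (l : ℤ),
      2 ∣ ρ X - l - 1 ∧ 4 ∣ eu X X - eu e e ∧ (Odd l → 4 ∣ eu e e - 2) ∧
        (Even l → ∃ E : OL C, GoodE E) := by
    intro X hX
    obtain ⟨t, ht⟩ := dvd_of_cast (y := 1) (by rw [hX, Int.cast_one])
    obtain ⟨n, hn'⟩ : ∃ n, a X = n + 1 := ⟨a X - 1, by omega⟩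
    obtain ⟨e, e1, e2, -, ⟨s, e4⟩⟩ := reduce H hC hn n X (by rw [ha, hn'])
    obtain ⟨l, hl, -, h3, h4⟩ := rank_one H hC hn e e1
    have := hρ X
    refine ⟨e, l, by omega, ⟨s + t * (1 + chi e.F), ?_⟩, h3, h4⟩
    have h5 : (n : ℤ) = 2 * t := by omega
    linear_combination e4 + (2 + 2 * chi e.F) * h5
  have hAA : ∀ X : OL C, (((a X : ℕ) : ℤ) : ZMod 2) = 1 → (ρ X : ZMod 2) = 0 →
      (q X : ZMod 2) = 1 := by
    intro X h1 h2
    obtain ⟨e, l, k1, k2, k3, -⟩ := red X h1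
    have k4 := dvd_of_cast (y := 0) (by rw [h2, Int.cast_zero])
    have k5 := k3 (by rw [Int.odd_iff]; omega)
    have := hq X
    rw [← Int.cast_one]
    exact cast_eq (by omega)
  have hQ : ∀ X Y, (q (add X Y) : ZMod 2) = q X + q Y + eu X Y := by
    intro X Y
    have h1 := eu_sum H hC (s3 X Y)
    rw [hq, hq X, hq Y] at h1
    rw [← Int.cast_add, ← Int.cast_add]
    exact cast_eq (by omega)
  have hA : ∀ X Y, (((a (add X Y) : ℕ) : ℤ) : ZMod 2) = ((a X : ℕ) : ℤ) + ((a Y : ℕ) : ℤ) := by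
    intro X Y
    have h1 := s1 X Y
    rw [ha, ha X, ha Y] at h1
    rw [← Int.cast_add]
    exact cast_eq (by omega)
  have hR : ∀ X Y, (ρ (add X Y) : ZMod 2) = ρ X + ρ Y := by
    intro X Y
    have h1 := s2 X Y
    rw [hρ, hρ X, hρ Y] at h1
    rw [← Int.cast_add]
    exact cast_eq (by omega)
  have aP : (((a P : ℕ) : ℤ) : ZMod 2) = 1 := by rw [one P p1]; rfl
  have aP₁ : (((a P₁ : ℕ) : ℤ) : ZMod 2) = 1 := by rw [one P₁ r1]; rfl
  have ρP : (ρ P : ZMod 2) = 0 := by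
    have := hρ P
    rw [p2.c1_eq] at this
    rw [← Int.cast_zero]
    exact cast_eq (by omega)
  have ρP₁ : (ρ P₁ : ZMod 2) = 0 := by
    have := hρ P₁
    rw [r2.c1_eq] at this
    rw [← Int.cast_zero]
    exact cast_eq (by omega)
  refine f2 (Q := fun X => (q X : ZMod 2)) (b := fun X Y => (eu X Y : ZMod 2)) (add := add)
    (fun X => (((a X : ℕ) : ℤ) : ZMod 2)) (fun X => (ρ X : ZMod 2)) hA hR
    (fun W X Y => by rw [s3, Int.cast_add]) (fun X Y => by rw [H.symm C hC]) hQ P aP ρP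
    (add P P₁) (by rw [hA, aP, aP₁]; decide) (by rw [hR, ρP, ρP₁, add_zero]) ?_ hAA ?_ v w ?_ ?_
  · rw [hQ, hAA P aP ρP, hAA P₁ aP₁ ρP₁, eu_O H hC hP, r2.chi_eq]
    simp only [ne_eq, OfNat.ofNat_ne_zero, not_false_eq_true, zero_pow, mul_zero, add_zero,
      EuclideanDomain.zero_div]
    decide
  · intro u h1 h2
    obtain ⟨e, l, k1, -, -, k3⟩ := red u h1
    have k4 := dvd_of_cast (y := 1) (by rw [h2, Int.cast_one])
    obtain ⟨E, E1, E2, E3⟩ := k3 (by rw [Int.even_iff]; omega)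
    refine ⟨E, by rw [one E E1]; rfl, ?_, fun Y => ?_⟩
    · have := hq E
      rw [← Int.cast_one]
      exact cast_eq (by omega)
    · obtain ⟨t, ht⟩ := E3 Y (a Y) (ha Y)
      rw [hρ E, hρ Y] at ht
      rw [← Int.cast_mul, ← Int.cast_add]
      refine cast_eq ⟨t - ρ Y, ?_⟩
      have : 2 * (eu Y E - (a Y * ρ E + ρ Y)) = 2 * (2 * (t - ρ Y)) := by linear_combination ht
      exact mul_left_cancel₀ (by norm_num) this
  · have := hq v
    rw [← Int.cast_zero]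
    exact cast_eq (by omega)
  · rw [← Int.cast_one]
    rw [Int.odd_iff] at hw
    exact cast_eq (by omega)

end Olm

open Olm in
theorem olm (hX : stCTX) (H : Hyp) : stOLM := by
  intro C ι _ X v w hv hw
  by_contra hn
  have hC := hX C
  obtain ⟨V, hV⟩ := comb H hC X v Finset.univ
  obtain ⟨W, hW⟩ := comb H hC X w Finset.univ
  have key : ∀ (S : OL C) (s : ι → ℤ), (∀ Y, 4 ∣ eu Y S - ∑ i, s i * eu Y (X i)) →
      4 ∣ eu S V - ∑ i, ∑ j, s i * v j * eu (X i) (X j) := by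
    intro S s hS
    have h1 := hS V
    have h2 : 4 ∣ ∑ i, s i * (eu (X i) V - ∑ j, v j * eu (X i) (X j)) :=
      Finset.dvd_sum fun i _ => (hV (X i)).mul_left _
    have h3 : eu S V - ∑ i, ∑ j, s i * v j * eu (X i) (X j) =
        (eu V S - ∑ i, s i * eu V (X i)) +
          ∑ i, s i * (eu (X i) V - ∑ j, v j * eu (X i) (X j)) := by
      simp only [mul_sub, Finset.sum_sub_distrib, Finset.mul_sum, mul_assoc, H.symm C hC V]
      ring
    rw [h3]
    exact dvd_add h1 h2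
  have k1 := key V v hV
  have k2 := key W w hW
  refine core H hC hn V W (by omega) ?_
  rw [Int.odd_iff] at hw ⊢
  omega

end Vale.Agent.P287Z.L
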