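import Vale.Agent.P287Z.L.Sk

/-!
Two anticommuting elements of the even Clifford order which are units at given points.
-/

namespace Vale.Agent.P287Z.L

open MvPolynomial Module Matrix Vale.Agent.P287 Vale.Agent.P287.Theta

namespace Ort

section ring

variable {R S : Type} [CommRing R] [CommRing S] {n : ℕ}

/-- orthogonal projection without division -/
def gs (M : Matrix (Fin n) (Fin n) R) (a : Fin n → R) : (Fin n → R) →ₗ[R] (Fin n → R) :=
  (a ⬝ᵥ M *ᵥ a) • LinearMap.id - (Matrix.toLinearMap₂' R M a).smulRight a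

theorem gs_apply (M : Matrix (Fin n) (Fin n) R) (a x : Fin n → R) :
    gs M a x = (a ⬝ᵥ M *ᵥ a) • x - (a ⬝ᵥ M *ᵥ x) • a := by
  simp [gs, Matrix.toLinearMap₂'_apply']

theorem dot_gs (M : Matrix (Fin n) (Fin n) R) (b a x : Fin n → R) :
    b ⬝ᵥ M *ᵥ gs M a x = (a ⬝ᵥ M *ᵥ a) * (b ⬝ᵥ M *ᵥ x) - (a ⬝ᵥ M *ᵥ x) * (b ⬝ᵥ M *ᵥ a) := by
  rw [gs_apply, mulVec_sub, mulVec_smul, mulVec_smul, dotProduct_sub, dotProduct_smul,
    dotProduct_smul, smul_eq_mul, smul_eq_mul]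

theorem dot_comm {M : Matrix (Fin n) (Fin n) R} (h : M.IsSymm) (x y : Fin n → R) :
    x ⬝ᵥ M *ᵥ y = y ⬝ᵥ M *ᵥ x := by
  rw [dotProduct_mulVec, ← mulVec_transpose, h.eq, dotProduct_comm]

theorem map_dot (φ : R →+* S) (M : Matrix (Fin n) (Fin n) R) (x y : Fin n → R) :
    φ (x ⬝ᵥ M *ᵥ y) = (φ ∘ x) ⬝ᵥ M.map φ *ᵥ (φ ∘ y) := by
  simp [dotProduct, mulVec]

theorem map_gs (φ : R →+* S) (M : Matrix (Fin n) (Fin n) R) (a x : Fin n → R) :
    φ ∘ gs M a x = gs (M.map φ) (φ ∘ a) (φ ∘ x) := by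
  rw [gs_apply, gs_apply, ← map_dot, ← map_dot]
  ext i
  simp

end ring

/-- finitely many non-zero quadratic forms have a common non-zero -/
theorem common {κ : Type} {n : ℕ} (Z : Finset κ) (B : κ → LinearMap.BilinForm ℂ (Fin n → ℂ))
    (h : ∀ z ∈ Z, ∃ c, B z c c ≠ 0) : ∃ c, ∀ z ∈ Z, B z c c ≠ 0 := by
  let p : κ → MvPolynomial (Fin n) ℂ := fun z =>
    X ⬝ᵥ (LinearMap.toMatrix₂' ℂ (B z)).map C *ᵥ X
  have hp : ∀ z c, eval c (p z) = B z c c := by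
    intro z c
    have e1 : (eval c : MvPolynomial (Fin n) ℂ → ℂ) ∘ X = c := funext fun i => eval_X i
    have e2 : ((LinearMap.toMatrix₂' ℂ (B z)).map (C : ℂ → MvPolynomial (Fin n) ℂ)).map (eval c) =
        LinearMap.toMatrix₂' ℂ (B z) := by
      ext i j
      exact eval_C _
    rw [map_dot, e1, e2, ← Matrix.toLinearMap₂'_apply', Matrix.toLinearMap₂'_toMatrix']
  have h0 : ∏ z ∈ Z, p z ≠ 0 := Finset.prod_ne_zero_iff.2 fun z hz k => by
    obtain ⟨c, hc⟩ := h z hz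
    exact hc (by rw [← hp, k, map_zero])
  by_contra hn
  refine h0 (MvPolynomial.funext fun c => ?_)
  rw [map_prod, map_zero]
  by_contra k
  exact hn ⟨c, fun z hz => hp z c ▸ Finset.prod_ne_zero_iff.1 k z hz⟩

/-- the complement of two orthogonal vectors is not totally isotropic -/
theorem aniso {M : Matrix (Fin 4) (Fin 4) ℂ} (hs : M.IsSymm) (hM : M.adjugate ≠ 0)
    (a n : Fin 4 → ℂ) (h : ∀ v, ∃ s t : ℂ, a ⬝ᵥ M *ᵥ (v - s • a - t • n) = 0 ∧
      n ⬝ᵥ M *ᵥ (v - s • a - t • n) = 0) :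
    ∃ c, a ⬝ᵥ M *ᵥ c = 0 ∧ n ⬝ᵥ M *ᵥ c = 0 ∧ c ⬝ᵥ M *ᵥ c ≠ 0 := by
  by_contra hn
  let ψ : (Fin 4 → ℂ) →ₗ[ℂ] ℂ × ℂ :=
    (Matrix.toLinearMap₂' ℂ M a).prod (Matrix.toLinearMap₂' ℂ M n)
  have hm : ∀ c, c ∈ LinearMap.ker ψ ↔ a ⬝ᵥ M *ᵥ c = 0 ∧ n ⬝ᵥ M *ᵥ c = 0 := fun c => by
    simp [ψ, Matrix.toLinearMap₂'_apply']
  have h0 : ∀ c ∈ LinearMap.ker ψ, c ⬝ᵥ M *ᵥ c = 0 := fun c hc => by
    by_contra k
    exact hn ⟨c, ((hm c).1 hc).1, ((hm c).1 hc).2, k⟩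
  have hd : 2 ≤ finrank ℂ (LinearMap.ker ψ) := by
    have e1 := LinearMap.finrank_range_add_finrank_ker ψ
    have e2 := Submodule.finrank_le (LinearMap.range ψ)
    simp only [finrank_prod, finrank_self, finrank_fintype_fun_eq_card, Fintype.card_fin] at e1 e2
    omega
  refine hM (H925.adjugate_eq_zero M _ hd fun w hw => ?_)
  refine dotProduct_eq_zero _ fun v => ?_
  obtain ⟨s, t, hv⟩ := h v
  have k1 := h0 _ ((hm _).2 hv)
  have k2 := h0 _ hw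
  have k3 := h0 _ (Submodule.add_mem _ hw ((hm _).2 hv))
  rw [mulVec_add, add_dotProduct, dotProduct_add, dotProduct_add, k1, k2, dot_comm hs w,
    sub_dotProduct, sub_dotProduct, smul_dotProduct, smul_dotProduct, ((hm w).1 hw).1,
    ((hm w).1 hw).2, smul_zero, smul_zero] at k3
  rw [dotProduct_comm]
  linear_combination k3 / 2

/-- the rank is at least three at every point -/
theorem adj_ne {M : Matrix (Fin 4) (Fin 4) P3} (h : SmoothP M.det) {z : Fin 3 → ℂ} (hz : z ≠ 0) :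
    (M.map (eval z)).adjugate ≠ 0 := by
  intro h0
  have ha : ∀ i j, eval z (M.adjugate i j) = 0 := fun i j => by
    have := congrFun (congrFun (RingHom.map_adjugate (eval z) M) i) j
    exact this.trans (congrFun (congrFun h0 i) j)
  have hd : (M.map (eval z)).det = 0 := by
    have := congrFun (congrFun (mul_adjugate (M.map (eval z))) 0) 0
    rw [h0, Matrix.mul_zero] at this
    simpa using this.symm
  refine hz (h z fun l => ?_)
  have e : M.map (eval z) * (M.adjugate.map fun p => eval z (pderiv l p)) =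
      eval z (pderiv l M.det) • (1 : Matrix (Fin 4) (Fin 4) ℂ) := by
    ext i j
    have := congrArg (fun p => eval z (pderiv l p)) (congrFun (congrFun (mul_adjugate M) i) j)
    simp only [Matrix.mul_apply, map_sum, Derivation.leibniz, smul_eq_mul, map_add, map_mul, ha,
      zero_mul, add_zero, Matrix.smul_apply, Matrix.one_apply] at this
    simp only [Matrix.mul_apply, Matrix.map_apply, Matrix.smul_apply, Matrix.one_apply, this]
    split_ifs <;> simp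
  have := congrArg Matrix.det e
  rw [det_mul, hd, zero_mul, det_smul, det_one, mul_one] at this
  exact pow_eq_zero_iff (by simp) |>.1 this.symm

/-- three successive choices -/
theorem choice {κ : Type} (Z : Finset κ) (M : κ → Matrix (Fin 4) (Fin 4) ℂ) (d : κ → Fin 4 → ℂ)
    (hs : ∀ z, (M z).IsSymm) (hM : ∀ z ∈ Z, (M z).adjugate ≠ 0) (hd : ∀ z ∈ Z, ∀ i, d z i ≠ 0) :
    ∃ c c' c'' : Fin 4 → ℂ, ∀ z ∈ Z, (c * d z) ⬝ᵥ M z *ᵥ (c * d z) ≠ 0 ∧
      gs (M z) (c * d z) (c' * d z) ⬝ᵥ M z *ᵥ gs (M z) (c * d z) (c' * d z) ≠ 0 ∧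
      gs (M z) (gs (M z) (c * d z) (c' * d z)) (gs (M z) (c * d z) (c'' * d z)) ⬝ᵥ M z *ᵥ
        gs (M z) (gs (M z) (c * d z) (c' * d z)) (gs (M z) (c * d z) (c'' * d z)) ≠ 0 := by
  have step : ∀ T : κ → (Fin 4 → ℂ) →ₗ[ℂ] (Fin 4 → ℂ),
      (∀ z ∈ Z, ∃ x, T z x ⬝ᵥ M z *ᵥ T z x ≠ 0) →
      ∃ c, ∀ z ∈ Z, T z (c * d z) ⬝ᵥ M z *ᵥ T z (c * d z) ≠ 0 := by
    intro T hT
    obtain ⟨c, hc⟩ := common Z (fun z => (Matrix.toLinearMap₂' ℂ (M z)).compl₁₂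
      (T z ∘ₗ LinearMap.mulRight ℂ (d z)) (T z ∘ₗ LinearMap.mulRight ℂ (d z))) fun z hz => by
      obtain ⟨x, hx⟩ := hT z hz
      have e : x / d z * d z = x := funext fun i => div_mul_cancel₀ _ (hd z hz i)
      refine ⟨x / d z, ?_⟩
      simp only [LinearMap.compl₁₂_apply, LinearMap.comp_apply, LinearMap.mulRight_apply, e,
        Matrix.toLinearMap₂'_apply']
      exact hx
    refine ⟨c, fun z hz => ?_⟩
    simpa only [LinearMap.compl₁₂_apply, LinearMap.comp_apply, LinearMap.mulRight_apply,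
      Matrix.toLinearMap₂'_apply'] using hc z hz
  obtain ⟨c, hc⟩ := step (fun _ => LinearMap.id) fun z hz => by
    obtain ⟨x, -, -, hx⟩ := aniso (hs z) (hM z hz) 0 0 fun v => ⟨0, 0, by simp, by simp⟩
    exact ⟨x, hx⟩
  simp only [LinearMap.id_apply] at hc
  obtain ⟨c', hc'⟩ := step (fun z => gs (M z) (c * d z)) fun z hz => by
    have h0 := hc z hz
    generalize c * d z = a at h0 ⊢
    obtain ⟨x, h1, -, hx⟩ := aniso (hs z) (hM z hz) a 0 fun v =>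
      ⟨(a ⬝ᵥ M z *ᵥ v) / (a ⬝ᵥ M z *ᵥ a), 0, by
        rw [zero_smul, sub_zero, mulVec_sub, mulVec_smul, dotProduct_sub, dotProduct_smul,
          smul_eq_mul, div_mul_cancel₀ _ h0, sub_self], by simp⟩
    refine ⟨x, ?_⟩
    rw [gs_apply, h1, zero_smul, sub_zero, mulVec_smul, smul_dotProduct, dotProduct_smul]
    exact mul_ne_zero h0 (mul_ne_zero h0 hx)
  obtain ⟨c'', hc''⟩ := step
    (fun z => gs (M z) (gs (M z) (c * d z) (c' * d z)) ∘ₗ gs (M z) (c * d z)) fun z hz => by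
    have h0 := hc z hz
    have h0' := hc' z hz
    have o : (c * d z) ⬝ᵥ M z *ᵥ gs (M z) (c * d z) (c' * d z) = 0 := by
      rw [dot_gs, mul_comm, sub_self]
    generalize gs (M z) (c * d z) (c' * d z) = b at h0' o ⊢
    generalize c * d z = a at h0 o ⊢
    obtain ⟨x, h1, h2, hx⟩ := aniso (hs z) (hM z hz) a b fun v =>
      ⟨(a ⬝ᵥ M z *ᵥ v) / (a ⬝ᵥ M z *ᵥ a), (b ⬝ᵥ M z *ᵥ v) / (b ⬝ᵥ M z *ᵥ b), by
        simp only [mulVec_sub, mulVec_smul, dotProduct_sub, dotProduct_smul, smul_eq_mul,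
          div_mul_cancel₀ _ h0, o, mul_zero, sub_self], by
        simp only [mulVec_sub, mulVec_smul, dotProduct_sub, dotProduct_smul, smul_eq_mul,
          div_mul_cancel₀ _ h0', dot_comm (hs z) b a, o, mul_zero, sub_zero, sub_self]⟩
    refine ⟨x, ?_⟩
    rw [LinearMap.comp_apply, gs_apply _ a, h1, zero_smul, sub_zero, map_smul, gs_apply, h2,
      zero_smul, sub_zero, smul_smul, mulVec_smul, smul_dotProduct, dotProduct_smul]
    exact mul_ne_zero (mul_ne_zero h0 h0') (mul_ne_zero (mul_ne_zero h0 h0') hx)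
  exact ⟨c, c', c'', fun z hz => ⟨hc z hz, hc' z hz, hc'' z hz⟩⟩

section cl

variable {F V A : Type} [Field F] [AddCommGroup V] [Module F V] [Ring A] [Algebra F A]
  {Q : QuadraticForm F V} (f : CliffordAlgebra.EvenHom Q A)

theorem swap {a b : V} (h : QuadraticMap.polar Q a b = 0) : f.bilin a b = -f.bilin b a := by
  have e := f.contract (a + b)
  have e' : Q (a + b) = Q a + Q b := by
    rw [QuadraticMap.polar] at h
    linear_combination h
  simp only [map_add, LinearMap.add_apply, f.contract, e'] at e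
  rw [eq_neg_iff_add_eq_zero]
  linear_combination (norm := abel1) e

theorem sq {a b : V} (h : QuadraticMap.polar Q a b = 0) :
    f.bilin a b * f.bilin a b = algebraMap F A (-(Q a * Q b)) := by
  nth_rw 2 [swap f h]
  rw [mul_neg, f.contract_mid, f.contract, Algebra.smul_def, ← map_mul, mul_comm, map_neg]

theorem anti {a b c : V} (h1 : QuadraticMap.polar Q a b = 0) (h2 : QuadraticMap.polar Q a c = 0)
    (h3 : QuadraticMap.polar Q b c = 0) :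
    f.bilin a b * f.bilin a c = -(f.bilin a c * f.bilin a b) := by
  have e1 : f.bilin a b * f.bilin a c = -(Q a • f.bilin b c) := by
    rw [swap f h1, neg_mul, f.contract_mid]
  have e2 : f.bilin a c * f.bilin a b = -(Q a • f.bilin c b) := by
    rw [swap f h2, neg_mul, f.contract_mid]
  rw [e1, e2, swap f h3, smul_neg]

end cl

/-- vectors of forms of degree `m` -/
def HV (m : ℤ) (U : Fin 4 → P3) : Prop := ∀ i, Hg (m - wz i) (U i)

theorem hg_cast {k k' : ℤ} {p : P3} (h : Hg k p) (e : k = k') : Hg k' p := e ▸ h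

theorem hg_dot {M : Matrix (Fin 4) (Fin 4) P3} (hM : ∀ i j, Hg (1 + wz i + wz j) (M i j))
    {m m' : ℤ} {U U' : Fin 4 → P3} (h : HV m U) (h' : HV m' U') :
    Hg (m + m' + 1) (U ⬝ᵥ M *ᵥ U') := by
  refine IsWeightedHomogeneous.sum _ _ _ fun i _ => ?_
  refine hg_cast (IsWeightedHomogeneous.mul (h i) (n := m' + 1 + wz i)
    (IsWeightedHomogeneous.sum _ _ _ fun j _ => ?_)) (by ring)
  exact hg_cast (IsWeightedHomogeneous.mul (hM i j) (h' j)) (by ring)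

theorem hv_gs {M : Matrix (Fin 4) (Fin 4) P3} (hM : ∀ i j, Hg (1 + wz i + wz j) (M i j))
    {m m' : ℤ} {U U' : Fin 4 → P3} (h : HV m U) (h' : HV m' U') :
    HV (2 * m + 1 + m') (gs M U U') := by
  intro i
  rw [gs_apply]
  exact (weightedHomogeneousSubmodule ℂ (fun _ : Fin 3 => (1 : ℤ)) _).sub_mem
    (hg_cast (IsWeightedHomogeneous.mul (hg_dot hM h h) (h' i)) (by ring))
    (hg_cast (IsWeightedHomogeneous.mul (hg_dot hM h h') (h i)) (by ring))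

theorem mm_mem {C : Cx} (H : Ctx C) {m m' : ℤ} {U U' : Fin 4 → P3} (h : HV m U) (h' : HV m' U')
    {k : ℤ} (hk : m + m' + 1 = k) : mm C.G (ev ∘ U) (ev ∘ U') ∈ C.O k := by
  subst hk
  have e : ∀ v : Fin 4 → K, v = ∑ i, v i • e4 i := fun v => by
    ext j
    simp [e4, Pi.single_apply]
  rw [e (ev ∘ U), e (ev ∘ U'), LinearMap.map_sum₂]
  refine Submodule.sum_mem _ fun i _ => ?_
  rw [map_sum]
  refine Submodule.sum_mem _ fun j _ => ?_
  rw [map_smul, LinearMap.map_smul₂, smul_smul]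
  have k := H.tab.lat.fam (m' - wz j + (m - wz i)) _ ((ev ∘ U') j * (ev ∘ U) i)
    ⟨U' j * U i, IsWeightedHomogeneous.mul (h' j) (h i), map_mul ev _ _⟩ _ (H.tab.mem i j)
  rw [inv_one, one_smul, show m' - wz j + (m - wz i) + (wz i + wz j + 1) = m + m' + 1 by ring] at k
  exact k

theorem qf_apply (G : Matrix (Fin 4) (Fin 4) K) (v : Fin 4 → K) : qf4 G v = v ⬝ᵥ G *ᵥ v :=
  Matrix.toLinearMap₂'_apply' G v v

theorem polar_zero {G : Matrix (Fin 4) (Fin 4) K} (h : G.IsSymm) {u v : Fin 4 → K}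
    (h0 : u ⬝ᵥ G *ᵥ v = 0) : QuadraticMap.polar (qf4 G) u v = 0 := by
  rw [QuadraticMap.polar, qf_apply, qf_apply, qf_apply, mulVec_add, add_dotProduct, dotProduct_add,
    dotProduct_add, dot_comm h v u, h0]
  ring

theorem ex_vec {M : Matrix (Fin 4) (Fin 4) P3} (hs : M.IsSymm) (hd : SmoothP M.det)
    (hM : ∀ i j, Hg (1 + wz i + wz j) (M i j)) (Z : Finset (Fin 3 → ℂ)) (hZ : ∀ z ∈ Z, z ≠ 0) :
    ∃ N0 N1 N2 : Fin 4 → P3, HV 1 N0 ∧ HV 4 N1 ∧ HV 13 N2 ∧ N0 ⬝ᵥ M *ᵥ N1 = 0 ∧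
      N0 ⬝ᵥ M *ᵥ N2 = 0 ∧ N1 ⬝ᵥ M *ᵥ N2 = 0 ∧ ∀ z ∈ Z, eval z (N0 ⬝ᵥ M *ᵥ N0) ≠ 0 ∧
        eval z (N1 ⬝ᵥ M *ᵥ N1) ≠ 0 ∧ eval z (N2 ⬝ᵥ M *ᵥ N2) ≠ 0 := by
  obtain ⟨l, hl⟩ := common Z (fun z => (LinearMap.mul ℂ ℂ).compl₁₂ (dotProductBilin ℂ ℂ z)
    (dotProductBilin ℂ ℂ z)) fun z hz => by
    obtain ⟨i, hi⟩ := Function.ne_iff.1 (hZ z hz)
    exact ⟨Pi.single i 1, by simpa using hi⟩
  let L : P3 := ∑ i, C (l i) * X i
  have hL : Hg 1 L := IsWeightedHomogeneous.sum _ _ _ fun i _ =>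
    hg_cast (IsWeightedHomogeneous.mul (isWeightedHomogeneous_C _ (l i))
      (isWeightedHomogeneous_X ℂ _ i)) (zero_add 1)
  let D : Fin 4 → P3 := ![L, L, L, 1]
  have hD : ∀ c : Fin 4 → ℂ, HV 1 (fun i => C (c i) * D i) := by
    intro c i
    refine hg_cast (IsWeightedHomogeneous.mul (isWeightedHomogeneous_C _ (c i)) (n := 1 - wz i) ?_)
      (zero_add _)
    fin_cases i
    · exact hL
    · exact hL
    · exact hL
    · exact isWeightedHomogeneous_one ℂ _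
  have hE : ∀ (z : Fin 3 → ℂ) (c : Fin 4 → ℂ),
      eval z ∘ (fun i => C (c i) * D i) = c * fun i => eval z (D i) := by
    intro z c
    ext i
    simp
  obtain ⟨c, c', c'', hc⟩ := choice Z (fun z => M.map (eval z)) (fun z i => eval z (D i))
    (fun z => hs.map _) (fun z hz => adj_ne hd (hZ z hz)) fun z hz i => by
    have k : eval z L ≠ 0 := by
      have := hl z hz
      simp only [LinearMap.compl₁₂_apply, LinearMap.mul_apply', dotProductBilin_apply_apply,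
        ne_eq, mul_self_eq_zero] at this
      simpa [L, dotProduct, mul_comm] using this
    fin_cases i
    · exact k
    · exact k
    · exact k
    · exact (map_one (eval z)).trans_ne one_ne_zero
  have d0 := hD c
  have d1 := hv_gs hM d0 (hD c')
  have d2 := hv_gs hM d1 (hv_gs hM d0 (hD c''))
  simp only [← hE, ← map_gs, ← map_dot] at hc
  have o1 : ∀ a x, a ⬝ᵥ M *ᵥ gs M a x = 0 := fun a x => by rw [dot_gs, mul_comm, sub_self]
  refine ⟨_, _, _, d0, d1, d2, o1 _ _, ?_, o1 _ _, hc⟩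
  rw [dot_gs, o1, o1, mul_zero, mul_zero, sub_zero]

theorem ev_dot (M : Matrix (Fin 4) (Fin 4) P3) (x y : Fin 4 → P3) :
    ev (x ⬝ᵥ M *ᵥ y) = (ev ∘ x) ⬝ᵥ M.map ev *ᵥ (ev ∘ y) := map_dot (ev : P3 →+* K) M x y

theorem mm_sq {G : Matrix (Fin 4) (Fin 4) K} (h : G.IsSymm) {u v : Fin 4 → K}
    (h0 : u ⬝ᵥ G *ᵥ v = 0) :
    mm G u v * mm G u v = algebraMap K (BB G) (-(u ⬝ᵥ G *ᵥ u * v ⬝ᵥ G *ᵥ v)) := by
  rw [← qf_apply, ← qf_apply]
  exact sq (CliffordAlgebra.even.ι (qf4 G)) (polar_zero h h0)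

theorem mm_anti {G : Matrix (Fin 4) (Fin 4) K} (h : G.IsSymm) {u v w : Fin 4 → K}
    (h1 : u ⬝ᵥ G *ᵥ v = 0) (h2 : u ⬝ᵥ G *ᵥ w = 0) (h3 : v ⬝ᵥ G *ᵥ w = 0) :
    mm G u v * mm G u w = -(mm G u w * mm G u v) :=
  anti (CliffordAlgebra.even.ι (qf4 G)) (polar_zero h h1) (polar_zero h h2) (polar_zero h h3)

theorem hg_neg {M : Matrix (Fin 4) (Fin 4) P3} (hM : ∀ i j, Hg (1 + wz i + wz j) (M i j))
    {m m' : ℤ} {x y : Fin 4 → P3} (h : HV m x) (h' : HV m' y) :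
    Hg (2 * (m + m' + 1)) (-(x ⬝ᵥ M *ᵥ x * y ⬝ᵥ M *ᵥ y)) :=
  (weightedHomogeneousSubmodule ℂ (fun _ : Fin 3 => (1 : ℤ)) _).neg_mem
    (hg_cast (IsWeightedHomogeneous.mul (hg_dot hM h h) (hg_dot hM h' h')) (by ring))

end Ort

open Ort in
theorem ort : stORT := by
  intro C H Z hZ
  obtain ⟨N0, N1, N2, d0, d1, d2, o1, o2, o3, hc⟩ := ex_vec C.symm C.disc H.degM Z hZ
  have p : ∀ {x y : Fin 4 → P3}, x ⬝ᵥ C.M *ᵥ y = 0 → (ev ∘ x) ⬝ᵥ C.G *ᵥ (ev ∘ y) = 0 := fun h => by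
    rw [← ev_dot, h, map_zero]
  have s : ∀ {x y : Fin 4 → P3}, x ⬝ᵥ C.M *ᵥ y = 0 →
      mm C.G (ev ∘ x) (ev ∘ y) * mm C.G (ev ∘ x) (ev ∘ y) =
        algebraMap K C.B (ev (-(x ⬝ᵥ C.M *ᵥ x * y ⬝ᵥ C.M *ᵥ y))) := fun h => by
    rw [map_neg, map_mul, ev_dot, ev_dot]
    exact mm_sq H.symm (p h)
  refine ⟨mm C.G (ev ∘ N0) (ev ∘ N1), mm C.G (ev ∘ N0) (ev ∘ N2), 6, 15, _, _,
    mm_mem H d0 d1 (by norm_num), mm_mem H d0 d2 (by norm_num),
    mm_anti H.symm (p o1) (p o2) (p o3), s o1, s o2, hg_cast (hg_neg H.degM d0 d1) (by norm_num),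
    hg_cast (hg_neg H.degM d0 d2) (by norm_num), fun z hz => ?_⟩
  obtain ⟨k0, k1, k2⟩ := hc z hz
  rw [map_neg, map_neg, map_mul, map_mul]
  exact ⟨neg_ne_zero.2 (mul_ne_zero k0 k1), neg_ne_zero.2 (mul_ne_zero k0 k2)⟩

end Vale.Agent.P287Z.L
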