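import Vale.Agent.P287Z.L.SndA

/-!
The sandwich and the norm in the even Clifford algebra.
-/

namespace Vale.Agent.P287Z.L

open Module Matrix Vale.Agent.P287 Vale.Agent.P287.Theta
open CliffordAlgebra (ι reverse evenOdd)

namespace SndH

variable {G : Matrix (Fin 4) (Fin 4) K} {v : Fin 4 → K}

/-- a parametrisation of the even Clifford algebra -/
noncomputable def Ph (G : Matrix (Fin 4) (Fin 4) K) (v : Fin 4 → K) :
    ((Fin 4 → K) × (Fin 4 → K)) →ₗ[K] BB G :=
  LinearMap.coprod ((mm G).flip v) (LinearMap.mulLeft K (del G) ∘ₗ (mm G).flip v)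

theorem Ph_apply (u w : Fin 4 → K) : Ph G v (u, w) = mm G u v + del G * mm G w v := rfl

theorem key (hG : G.IsSymm) (hd : G.det ≠ 0) (A : Alg G) (hv : v ⬝ᵥ G *ᵥ v ≠ 0)
    {p : (Fin 4 → K) × (Fin 4 → K)} (h : ∀ y, lam G (Ph G v p * y) = 0) : p = 0 := by
  obtain ⟨u, w⟩ := p
  have e : ∀ c, Ph G v (u, w) * mm G v c = (v ⬝ᵥ G *ᵥ v) • (mm G u c + del G * mm G w c) :=
    fun c => by rw [Ph_apply, add_mul, mul_assoc, mm_mid, mm_mid, mul_smul_comm, smul_add]
  have h1 : w = 0 := nondeg hd fun c => by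
    have := h (mm G v c)
    rw [e, map_smul, map_add, A.lam_mm, lam_del_mm hG A, zero_add, smul_eq_mul,
      be_comm hG w c] at this
    exact (mul_eq_zero.1 this).resolve_left hv
  have h2 : u = 0 := nondeg hd fun c => by
    have := h (mm G v c * del G)
    rw [← mul_assoc, e, h1, map_zero, LinearMap.zero_apply, mul_zero, add_zero, smul_mul_assoc,
      ← A.cen, map_smul, lam_del_mm hG A, smul_eq_mul, be_comm hG u c] at this
    exact (mul_eq_zero.1 this).resolve_left hv
  rw [h1, h2]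
  rfl

theorem ex_Ph (hG : G.IsSymm) (hd : G.det ≠ 0) (A : Alg G) :
    ∃ (v : Fin 4 → K) (e : ((Fin 4 → K) × (Fin 4 → K)) ≃ₗ[K] BB G), v ⬝ᵥ G *ᵥ v ≠ 0 ∧
      ∀ p, e p = Ph G v p := by
  obtain ⟨v, hv⟩ := ex_aniso hG hd
  refine ⟨v, (Ph G v).linearEquivOfInjective ((injective_iff_map_eq_zero _).2 fun p hp =>
    key hG hd A hv fun y => by rw [hp, zero_mul, map_zero]) ?_, hv, fun _ => rfl⟩
  rw [finrank_prod, A.rank, finrank_fin_fun]

theorem cancel (hv : v ⬝ᵥ G *ᵥ v ≠ 0) {x y : CliffordAlgebra (qf4 G)}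
    (h : x * ι (qf4 G) v = y * ι (qf4 G) v) : x = y := by
  have := congrArg (· * ι (qf4 G) v) h
  simp only [mul_assoc, ι_sq, mul_smul_comm, mul_one] at this
  exact smul_right_injective _ hv this

theorem odd' (hG : G.IsSymm) (hd : G.det ≠ 0) (A : Alg G) (x : CliffordAlgebra (qf4 G))
    (hx : x ∈ evenOdd (qf4 G) 1) (hr : reverse (Q := qf4 G) x = x) : ∃ u, x = ι (qf4 G) u := by
  obtain ⟨v, e, hv, he⟩ := ex_Ph hG hd A
  have hm : x * ι (qf4 G) v ∈ evenOdd (qf4 G) (1 + 1) :=
    SetLike.mul_mem_graded hx (CliffordAlgebra.ι_mem_evenOdd_one _ v)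
  obtain ⟨y, hy⟩ : ∃ y : BB G, inc G y = x * ι (qf4 G) v :=
    ⟨(⟨_, hm⟩ : ↥(CliffordAlgebra.even (qf4 G))), rfl⟩
  obtain ⟨⟨u, w⟩, rfl⟩ := e.surjective y
  rw [he, Ph_apply, map_add, map_mul, inc_mm, inc_mm, ← mul_assoc, ← add_mul] at hy
  have h1 := cancel hv hy
  rw [← h1, map_add, CliffordAlgebra.reverse_ι, CliffordAlgebra.reverse.map_mul,
    CliffordAlgebra.reverse_ι, ← inc_tau, A.tau_del] at hr
  have h2 : (2 : K) • (inc G (del G) * ι (qf4 G) w) = 0 := by
    rw [two_smul]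
    exact (congrArg₂ (· + ·) (A.anti w) (add_left_cancel hr).symm).trans (neg_add_cancel _)
  exact ⟨u, by rw [← h1, (smul_eq_zero.1 h2).resolve_left two_ne, add_zero]⟩

/-- the central elements -/
noncomputable def ce (G : Matrix (Fin 4) (Fin 4) K) (a b : K) : BB G := a • 1 + b • del G

theorem fix (hG : G.IsSymm) (hd : G.det ≠ 0) (A : Alg G) {x : BB G} (hx : tau G x = x) :
    ∃ a b : K, x = ce G a b := by
  obtain ⟨v, e, -, he⟩ := ex_Ph hG hd A
  obtain ⟨⟨u, w⟩, rfl⟩ := e.surjective x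
  rw [he, Ph_apply] at hx ⊢
  refine ⟨u ⬝ᵥ G *ᵥ v, w ⬝ᵥ G *ᵥ v, smul_right_injective _ two_ne ?_⟩
  have h1 := mm_swap hG u v
  have h2 := congrArg (del G * ·) (mm_swap hG w v)
  rw [tau_add, tau_mul, tau_mm, tau_mm, A.tau_del, ← A.cen] at hx
  simp only [mul_add, mul_smul_comm, mul_one] at h2
  simp only [ce, smul_add, smul_smul]
  rw [← h1, ← h2, two_smul, two_smul]
  linear_combination (norm := abel1) -hx

theorem gen_mul {F B : Type} [Field F] [Ring B] [Algebra F B] {d : B} {D : F} (a b : F)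
    (h : d * d = algebraMap F B D) :
    (a • 1 + b • d) * (a • 1 + (-b) • d) = (a ^ 2 - b ^ 2 * D) • (1 : B) := by
  simp only [mul_add, add_mul, smul_mul_assoc, mul_smul_comm, mul_one, one_mul, h,
    Algebra.algebraMap_eq_smul_one]
  module

theorem gen_ce {F B : Type} [Field F] [Ring B] [Algebra F B] {d : B} {D : F} (a b : F)
    (h : d * d = algebraMap F B D) (hc : ∀ z, d * z = z * d) (x y : B) :
    (x + d * y) * (a • 1 + b • d) = a • x + (b * D) • y + d * (b • x + a • y) := by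
  have h1 : d * y * d = D • y := by rw [mul_assoc, ← hc, ← mul_assoc, h, Algebra.smul_def]
  simp only [mul_add, add_mul, mul_smul_comm, mul_one, h1, ← hc x]
  module

theorem ce_mul (A : Alg G) (a b : K) :
    ce G a b * ce G a (-b) = (a ^ 2 - b ^ 2 * G.det) • (1 : BB G) := gen_mul a b A.sq

theorem ι_ce (A : Alg G) (a b : K) (u : Fin 4 → K) :
    ι (qf4 G) u * inc G (ce G a b) = inc G (ce G a (-b)) * ι (qf4 G) u := by
  simp only [ce, map_add, map_smul, map_one, mul_add, add_mul, smul_mul_assoc, mul_smul_comm,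
    mul_one, one_mul, A.anti]
  rw [smul_neg, neg_smul, neg_neg]

theorem Ph_ce (A : Alg G) (a b : K) (u w : Fin 4 → K) :
    Ph G v (u, w) * ce G a b = Ph G v (a • u + (b * G.det) • w, b • u + a • w) := by
  simp only [Ph_apply, map_add, map_smul, LinearMap.add_apply, LinearMap.smul_apply]
  exact gen_ce a b A.sq A.cen _ _

theorem det_ce (hG : G.IsSymm) (hd : G.det ≠ 0) (A : Alg G) (a b : K) :
    LinearMap.det (LinearMap.mulRight K (ce G a b)) =
      LinearMap.det (LinearMap.mulRight K (ce G a (-b))) := by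
  obtain ⟨v, e, -, he⟩ := ex_Ph hG hd A
  refine det_eq_of (e.symm.trans (((LinearEquiv.refl K _).prodCongr (LinearEquiv.neg K)).trans e))
    fun x => ?_
  obtain ⟨⟨u, w⟩, rfl⟩ := e.surjective x
  have h : ∀ u w, (e.symm.trans (((LinearEquiv.refl K _).prodCongr (LinearEquiv.neg K)).trans e))
      (Ph G v (u, w)) = Ph G v (u, -w) := fun u w => by
    rw [← he, ← he, LinearEquiv.trans_apply, e.symm_apply_apply]
    rfl
  rw [he, LinearMap.mulRight_apply, LinearMap.mulRight_apply, Ph_ce A, h, h, Ph_ce A]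
  simp only [neg_mul, neg_smul, smul_neg, neg_neg, neg_add]

theorem det_tau (hG : G.IsSymm) (hd : G.det ≠ 0) (A : Alg G) (a : BB G) :
    LinearMap.det (LinearMap.mulRight K (tau G a)) = LinearMap.det (LinearMap.mulRight K a) := by
  obtain ⟨v, e, hv, he⟩ := ex_Ph hG hd A
  have h1 : LinearMap.det (LinearMap.mulLeft K a) =
      LinearMap.det (LinearMap.mulRight K (tau G a)) :=
    det_eq_of (LinearEquiv.ofInvolutive (tauL G) tau_tau) fun x => tau_mul a x
  have h2 : Function.Injective ((LinearMap.mul K (BB G)).compr₂ (lam G)) :=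
    (injective_iff_map_eq_zero _).2 fun x hx => by
      obtain ⟨p, rfl⟩ := e.surjective x
      rw [key hG hd A hv (p := p) fun y => he p ▸ LinearMap.congr_fun hx y, map_zero]
  rw [← h1, ← LinearMap.det_dualMap]
  refine (det_eq_of (LinearMap.linearEquivOfInjective _ h2 Subspace.dual_finrank_eq.symm)
    fun x => LinearMap.ext fun y => ?_).symm
  exact congrArg (lam G) (mul_assoc x a y)

theorem root {d m : K} (h : d ^ 4 = m ^ 4) : ∃ c : ℂ, c ≠ 0 ∧ d = algebraMap ℂ K c * m := by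
  have hi : algebraMap ℂ K Complex.I ^ 2 = -1 := by rw [← map_pow, Complex.I_sq, map_neg, map_one]
  have h1 : (d - m) * (d + m) * ((d - algebraMap ℂ K Complex.I * m) *
      (d + algebraMap ℂ K Complex.I * m)) = 0 := by
    linear_combination h - (d ^ 2 - m ^ 2) * m ^ 2 * hi
  rcases mul_eq_zero.1 h1 with h2 | h2 <;> rcases mul_eq_zero.1 h2 with h3 | h3
  · exact ⟨1, one_ne_zero, by rw [map_one, one_mul, sub_eq_zero.1 h3]⟩
  · exact ⟨-1, by simp, by rw [map_neg, map_one, neg_one_mul, eq_neg_of_add_eq_zero_left h3]⟩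
  · exact ⟨Complex.I, Complex.I_ne_zero, sub_eq_zero.1 h3⟩
  · exact ⟨-Complex.I, by simp, by rw [map_neg, neg_mul, eq_neg_of_add_eq_zero_left h3]⟩

theorem sand (A : Alg G) {a : BB G} {s t : K} (hN : a * tau G a = ce G s t)
    {u u' w w' : Fin 4 → K} (hu : Sand G a u u') (hw : Sand G a w w') :
    a * mm G u' w' = (s ^ 2 - t ^ 2 * G.det) • (mm G u w * a) := by
  have h1 : inc G a * inc G (tau G a) = inc G (ce G s t) := by rw [← map_mul, hN]
  have h2 : inc G (ce G s t) * inc G (ce G s (-t)) = (s ^ 2 - t ^ 2 * G.det) • 1 := by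
    rw [← map_mul, ce_mul A, map_smul, map_one]
  refine inc_inj ?_
  rw [map_mul, map_smul, map_mul, inc_mm, inc_mm, hu, hw]
  calc _ = inc G a * inc G (tau G a) * (ι (qf4 G) u * (inc G a * inc G (tau G a))) *
        ι (qf4 G) w * inc G a := by simp only [mul_assoc]
    _ = _ := by
      rw [h1, ι_ce A, ← mul_assoc (inc G _), h2]
      simp only [smul_mul_assoc, one_mul]

end SndH

open SndH in
theorem snd : stSND := by
  intro G hG hd A
  refine ⟨odd' hG hd A, fun a u => (odd' hG hd A _ ?_ ?_).imp fun _ h => h.symm, fun a => ?_⟩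
  · have h : inc G (tau G a) * ι (qf4 G) u * inc G a ∈ evenOdd (qf4 G) (0 + 1 + 0) :=
      SetLike.mul_mem_graded (SetLike.mul_mem_graded (inc_mem _)
        (CliffordAlgebra.ι_mem_evenOdd_one _ u)) (inc_mem _)
    exact h
  · rw [CliffordAlgebra.reverse.map_mul, CliffordAlgebra.reverse.map_mul,
      CliffordAlgebra.reverse_ι, ← inc_tau, ← inc_tau, tau_tau, mul_assoc]
  obtain ⟨s, t, hN⟩ := fix hG hd A (x := a * tau G a) (by rw [tau_mul, tau_tau])
  have : Nontrivial (BB G) := nontrivial_of_finrank_pos (R := K) (by rw [A.rank]; norm_num)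
  refine ⟨s ^ 2 - t ^ 2 * G.det, fun u u' w w' hu hw => ⟨sand A hN hu hw, ?_⟩, root ?_⟩
  · by_cases ha : a = 0
    · have h1 := ce_mul A s t
      rw [← hN, ha, zero_mul, zero_mul] at h1
      have h2 := mm_swap hG u' w'
      have h3 : ι (qf4 G) u' = 0 := by rw [hu, ha, map_zero (inc G), mul_zero]
      rw [show mm G u' w' = 0 from inc_inj (by rw [inc_mm, h3, zero_mul, map_zero]),
        show mm G w' u' = 0 from inc_inj (by rw [inc_mm, h3, mul_zero, map_zero]), add_zero] at h2
      rw [(smul_eq_zero.1 h1.symm).resolve_right one_ne_zero, zero_mul]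
      exact (mul_eq_zero.1 ((smul_eq_zero.1 h2.symm).resolve_right one_ne_zero)).resolve_left two_ne
    · have h1 := congrArg₂ (· + ·) (sand A hN hu hw) (sand A hN hw hu)
      simp only [← mul_add, ← smul_add, ← add_mul, mm_swap hG, mul_smul_comm, smul_mul_assoc,
        mul_one, one_mul, smul_smul] at h1
      refine mul_left_cancel₀ two_ne ((smul_left_injective K ha h1).trans ?_)
      ring
  · have h1 := congrArg (fun x => LinearMap.det (LinearMap.mulRight K x)) hN
    have h2 := congrArg (fun x => LinearMap.det (LinearMap.mulRight K x)) (ce_mul A s t)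
    have h3 : LinearMap.mulRight K ((s ^ 2 - t ^ 2 * G.det) • (1 : BB G)) =
        (s ^ 2 - t ^ 2 * G.det) • LinearMap.id := LinearMap.ext fun x => by
      rw [LinearMap.mulRight_apply, mul_smul_comm, mul_one, LinearMap.smul_apply,
        LinearMap.id_apply]
    simp only [LinearMap.mulRight_mul, LinearMap.det_comp, det_tau hG hd A, h3,
      LinearMap.det_smul, LinearMap.det_id, A.rank, ← det_ce hG hd A s t] at h1 h2
    rw [← h1] at h2
    linear_combination h2

end Vale.Agent.P287Z.L
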