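import Vale.Agent.P287Z.L.Basic

/-!
The resolution of a reflexive family splits at every point.
-/

namespace Vale.Agent.P287Z.L

open MvPolynomial Module Matrix Vale.Agent.P287 Vale.Agent.P287.Theta

namespace Spl

variable {V : Type} [AddCommGroup V] [Module ℂ V] [Module K V] [IsScalarTower ℂ K V]
  {L : ℤ → Submodule ℂ V} {n₀ n₁ : ℕ} {u : Fin n₀ → V} {e : Fin n₀ → ℤ}
  {S : Matrix (Fin n₀) (Fin n₁) P3} {d : Fin n₁ → ℤ} {k : ℤ}

theorem sp_iff {ι : Type} [Fintype ι] {u : ι → V} {e : ι → ℤ} {v : V} : v ∈ Sp u e k ↔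
    ∃ t : ι → P3, (∀ i, Hg (k - e i) (t i)) ∧ ∑ i, ev (t i) • u i = v := by
  refine ⟨fun ⟨c, hc, h⟩ => ?_, fun ⟨t, ht, h⟩ => ⟨fun i => ev (t i), fun i _ => (ht i).mem, h⟩⟩
  choose t h1 h2 using fun i => mem_AA.1 (hc i trivial)
  exact ⟨t, h1, by simp only [h2]; exact h⟩

theorem hg_single {ι : Type} [DecidableEq ι] (e : ι → ℤ) (j a : ι) :
    Hg (e j - e a) ((Pi.single j 1 : ι → P3) a) := by
  rcases eq_or_ne a j with rfl | ha
  · rw [Pi.single_eq_same, sub_self]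
    exact hg_one
  · rw [Pi.single_eq_of_ne ha]
    exact hg_zero _

omit [Module ℂ V] [IsScalarTower ℂ K V] in
theorem sum_single {ι : Type} [Fintype ι] [DecidableEq ι] (u : ι → V) (j : ι) :
    ∑ a, ev ((Pi.single j 1 : ι → P3) a) • u a = u j := by
  rw [Finset.sum_eq_single j (fun a _ ha => by rw [Pi.single_eq_of_ne ha, map_zero, zero_smul])
    (fun h => absurd (Finset.mem_univ j) h), Pi.single_eq_same, map_one, one_smul]

theorem col (h : Rs L u e S d) (j : Fin n₁) : ∑ i, ev (S i j) • u i = 0 := by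
  have h1 : (fun i => ev (S i j)) ∈ Syz u e (d j) := by
    rw [h.syz]
    exact sp_iff.2 ⟨_, hg_single d j, sum_single _ j⟩
  exact h1.2

theorem ev_mulVec {ι κ : Type} [Fintype κ] (S : Matrix ι κ P3) (c : κ → P3) (i : ι) :
    ev ((S *ᵥ c) i) = ∑ j, ev (c j) * ev (S i j) := by
  simp only [mulVec, dotProduct, map_sum, map_mul, mul_comm]

theorem hg_mulVec (h : Rs L u e S d) {c : Fin n₁ → P3} (hc : ∀ j, Hg (k - d j) (c j)) (i) :
    Hg (k - e i) ((S *ᵥ c) i) := hg_sum _ fun j _ => ((h.deg i j).mul (hc j)).cast (by ring)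

theorem cols (h : Rs L u e S d) (c : Fin n₁ → P3) : ∑ i, ev ((S *ᵥ c) i) • u i = 0 := by
  simp only [ev_mulVec, Finset.sum_smul, mul_smul]
  rw [Finset.sum_comm]
  exact Finset.sum_eq_zero fun j _ => by rw [← Finset.smul_sum, col h, smul_zero]

theorem syz (h : Rs L u e S d) {t : Fin n₀ → P3} (ht : ∀ i, Hg (k - e i) (t i))
    (h0 : ∑ i, ev (t i) • u i = 0) : ∃ c, (∀ j, Hg (k - d j) (c j)) ∧ t = S *ᵥ c := by
  have h1 : (fun i => ev (t i)) ∈ Syz u e k := ⟨fun i _ => (ht i).mem, h0⟩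
  rw [h.syz] at h1
  obtain ⟨c, h2, h3⟩ := sp_iff.1 h1
  refine ⟨c, h2, funext fun i => (ht i).inj (hg_mulVec h h2 i) ?_⟩
  rw [ev_mulVec, ← congrFun h3 i, Finset.sum_apply]
  rfl

theorem inj (h : Rs L u e S d) {c : Fin n₁ → P3} (hc : ∀ j, Hg (k - d j) (c j))
    (h0 : S *ᵥ c = 0) (j) : c j = 0 :=
  (hc j).eq_zero_of_ev (Fintype.linearIndependent_iff.1 h.li (fun j => ev (c j)) (funext fun i => by
    rw [Finset.sum_apply, Pi.zero_apply, ← map_zero ev]
    exact (ev_mulVec S c i).symm.trans (congrArg ev (congrFun h0 i))) j)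

variable {p : Fin 3 → ℂ} {i : Fin 3}

/-- forms with a given value -/
theorem lift (hp : p ≠ 0) {ι : Type} [Fintype ι] (e : ι → ℤ) : ∃ k, ∀ c : ι → ℂ,
    ∃ t : ι → P3, (∀ j, Hg (k - e j) (t j)) ∧ ∀ j, eval p (t j) = c j := by
  obtain ⟨i, hi⟩ := Function.ne_iff.1 hp
  obtain ⟨k, hk⟩ := Finite.exists_le e
  refine ⟨k, fun c => ⟨fun j => C (c j / p i ^ (k - e j).toNat) * X i ^ (k - e j).toNat,
    fun j => (((hg_X i).pow _).C_mul _).cast ?_, fun j => ?_⟩⟩
  · rw [mul_one, Int.toNat_of_nonneg (sub_nonneg.2 (hk j))]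
  · rw [map_mul, map_pow, eval_C, eval_X, div_mul_cancel₀ _ (pow_ne_zero _ hi)]

/-- the linear forms through the point `p` -/
noncomputable def ll (p : Fin 3 → ℂ) (i : Fin 3) (a : Fin 2) : P3 :=
  X (i.succAbove a) - C (p (i.succAbove a) / p i) * X i

theorem ll_hg (a : Fin 2) : Hg 1 (ll p i a) := (hg_X _).sub ((hg_X _).C_mul _)

theorem ll_ev (a b : Fin 2) :
    eval (Pi.single (i.succAbove b) 1) (ll p i a) = if a = b then 1 else 0 := by
  simp [ll, Pi.single_apply, (Fin.succAbove_ne i b).symm]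

theorem ll_ne (a : Fin 2) : ll p i a ≠ 0 := fun h => by simpa [h] using ll_ev (p := p) (i := i) a a

theorem ll_cop {g : P3} (hg : Prime g) (h1 : g ∣ ll p i 1) : ¬ g ∣ ll p i 0 := fun h0 => by
  have h3 : Irreducible (ll p i 0) := irreducible_of_totalDegree_eq_one
    ((hg_nat.1 (ll_hg 0)).totalDegree (ll_ne 0)) fun x hx => isUnit_iff_ne_zero.2 fun h =>
      ll_ne 0 (MvPolynomial.ext _ _ fun m => zero_dvd_iff.1 (h ▸ hx m))
  obtain ⟨q, hq⟩ := ((h3.dvd_iff.1 h0).resolve_left hg.not_isUnit).dvd.trans h1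
  simpa [hq, ll_ev] using ll_ev (p := p) (i := i) 1 1

theorem ll_ex (hi : p i ≠ 0) {w : P3} (hw : Hg k w) (h0 : eval p w = 0) :
    ∃ g : Fin 2 → P3, (∀ a, Hg (k - 1) (g a)) ∧ w = ll p i 0 * g 0 + ll p i 1 * g 1 := by
  let φ : P3 →ₐ[ℂ] P3 := aeval fun j => C (p j / p i) * X i
  have h1 : (Ideal.Quotient.mkₐ ℂ (Ideal.span (Set.range (ll p i)))).comp φ =
      Ideal.Quotient.mkₐ ℂ _ := algHom_ext fun j => by
    rw [AlgHom.comp_apply, aeval_X]
    rcases Fin.eq_self_or_eq_succAbove i j with rfl | ⟨a, rfl⟩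
    · rw [div_self hi, C_1, one_mul]
    · exact (Ideal.Quotient.eq.2 (show ll p i a ∈ Ideal.span (Set.range (ll p i)) from
        Ideal.subset_span ⟨a, rfl⟩)).symm
  have h2 : φ w = 0 := MvPolynomial.funext fun x => by
    have h3 : (aeval x).comp φ = aeval ((x i / p i) • p) := algHom_ext fun j => by
      simp only [φ, AlgHom.comp_apply, aeval_X, map_mul, aeval_C, Pi.smul_apply, smul_eq_mul,
        Algebra.algebraMap_self, RingHom.id_apply]
      ring
    rw [map_zero]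
    exact (AlgHom.congr_fun h3 w).trans ((hw.eval_smul _ p).trans (by rw [h0, mul_zero]))
  have h4 := AlgHom.congr_fun h1 w
  rw [AlgHom.comp_apply, h2, map_zero] at h4
  obtain ⟨c, hc'⟩ := Ideal.mem_span_range_iff_exists_fun.1 (Ideal.Quotient.eq_zero_iff_mem.1 h4.symm)
  refine ⟨fun a => hc (k - 1) (c a), fun a => hg_hc _ _, ?_⟩
  rw [← (ll_hg 0).hc_mul, ← (ll_hg 1).hc_mul, ← map_add, mul_comm, mul_comm (ll p i 1),
    ← Fin.sum_univ_two fun a => c a * ll p i a, hc', hw.hc_self]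

end Spl

open Spl in
theorem split : stSPLIT := by
  intro V _ _ _ _ L n₀ n₁ u e S d hL h p hp
  refine (injective_iff_map_eq_zero (S.map (eval p)).mulVecLin).2 fun c hc => ?_
  obtain ⟨i, hi⟩ := Function.ne_iff.1 hp
  obtain ⟨k, hk⟩ := lift hp d
  obtain ⟨t, ht, et⟩ := hk c
  choose g hg eg using fun a => ll_ex (i := i) hi (hg_mulVec h ht a) (by
    rw [RingHom.map_mulVec, funext (f := eval p ∘ t) et]
    exact congrFun hc a)
  have hn : ∀ b, ∑ a, ev (g a b) • u a ∈ L (1 + (k - 2)) := fun b => by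
    rw [h.gen]
    exact sp_iff.2 ⟨_, fun a => (hg a b).cast (by ring), rfl⟩
  have h0 := cols h t
  simp only [eg, map_add, map_mul, add_smul, mul_smul, Finset.sum_add_distrib,
    ← Finset.smul_sum] at h0
  have h1 := (ll_hg (p := p) (i := i) 1).ev_ne (ll_ne 1)
  set v := (ev (ll p i 1))⁻¹ • ∑ a, ev (g a 0) • u a with hv
  have v1 : ev (ll p i 1) • v = ∑ a, ev (g a 0) • u a := smul_inv_smul₀ h1 _
  have v0 : ev (ll p i 0) • v = -∑ a, ev (g a 1) • u a := smul_right_injective V h1 (by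
    beta_reduce
    rw [smul_comm, v1, smul_neg, eq_neg_iff_add_eq_zero, h0])
  have h2 : v ∈ L (k - 2) := hL _ _ fun q hq => by
    by_cases h3 : q ∣ ll p i 1
    · exact ⟨1, _, ⟨_, ll_hg 0, rfl, ll_cop hq.1 h3⟩, v0 ▸ neg_mem (hn 1)⟩
    · exact ⟨1, _, ⟨_, ll_hg 1, rfl, h3⟩, v1 ▸ hn 0⟩
  rw [h.gen] at h2
  obtain ⟨γ, hγ, eγ⟩ := sp_iff.1 h2
  obtain ⟨c0, a0, b0⟩ := syz (k := k - 1) h (t := fun a => g a 0 - ll p i 1 * γ a)
    (fun a => ((hg a 0).cast (by ring)).sub (((ll_hg 1).mul (hγ a)).cast (by ring))) (by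
      simp only [map_sub, map_mul, sub_smul, mul_smul, Finset.sum_sub_distrib, ← Finset.smul_sum]
      rw [eγ, v1, sub_self])
  obtain ⟨c1, a1, b1⟩ := syz (k := k - 1) h (t := fun a => g a 1 + ll p i 0 * γ a)
    (fun a => ((hg a 1).cast (by ring)).add (((ll_hg 0).mul (hγ a)).cast (by ring))) (by
      simp only [map_add, map_mul, add_smul, mul_smul, Finset.sum_add_distrib, ← Finset.smul_sum]
      rw [eγ, v0, add_neg_cancel])
  funext j
  have h3 := inj (k := k) h (c := t - ll p i 0 • c0 - ll p i 1 • c1) (fun j => ((ht j).sub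
    (((ll_hg 0).mul (a0 j)).cast (by ring))).sub (((ll_hg 1).mul (a1 j)).cast (by ring))) (by
      rw [mulVec_sub, mulVec_sub, mulVec_smul, mulVec_smul, ← b0, ← b1]
      funext a
      simp only [Pi.sub_apply, Pi.smul_apply, smul_eq_mul, eg, Pi.zero_apply]
      ring) j
  have h4 : ∀ a, eval p (ll p i a) = 0 := fun a => by
    rw [ll, map_sub, map_mul, eval_X, eval_X, eval_C, div_mul_cancel₀ _ hi, sub_self]
  simpa [h4, et] using congrArg (eval p) h3

end Vale.Agent.P287Z.L
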