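import Vale.Agent.P287Z.L.Basic3
import Vale.Agent.P287Z.L.Sk

/-!
The induction step: splitting off a free lattice of rank one.
-/

namespace Vale.Agent.P287Z.L

open Module Filter

namespace StepA

theorem exact_dim {F A B D : Type} [Field F] [AddCommGroup A] [Module F A] [AddCommGroup B]
    [Module F B] [AddCommGroup D] [Module F D] (i : A →ₗ[F] B) (π : B →ₗ[F] D)
    (hi : Function.Injective i) (hex : ∀ x, π x = 0 ↔ ∃ y, i y = x) (S : Submodule F A)
    (T : Submodule F B) [FiniteDimensional F T] (h : ∀ x, i x ∈ T ↔ x ∈ S) :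
    finrank F T = finrank F S + finrank F (T.map π) := by
  have k := LinearMap.finrank_range_add_finrank_ker (π.domRestrict T)
  rw [LinearMap.range_domRestrict, LinearMap.ker_domRestrict] at k
  have e : (LinearMap.ker π).comap T.subtype = (S.map i).comap T.subtype := by
    ext x
    exact ⟨fun a => let ⟨y, b⟩ := (hex _).1 a; ⟨y, (h y).1 (b ▸ x.2), b⟩,
      fun ⟨y, _, b⟩ => (hex _).2 ⟨y, b⟩⟩
  rw [e, (Submodule.comapSubtypeEquivOfLe (Submodule.map_le_iff_le_comap.2 fun y a =>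
    (h y).2 a)).finrank_eq, ← (Submodule.equivMapOfInjective i hi S).finrank_eq] at k
  omega

variable {C : Cx}

instance (X Y : OL C) : FiniteDimensional K (X.V →ₗ[C.B] Y.V) :=
  FiniteDimensional.of_injective (LinearMap.restrictScalarsₗ K C.B X.V Y.V K)
    (LinearMap.restrictScalars_injective K)

/-- the quotient by a submodule -/
noncomputable def quo (h : stHULL) (X : OL C) (S : Submodule C.B X.V) : OL C :=
  have := FiniteDimensional.of_surjective (S.mkQ.restrictScalars K) S.mkQ_surjective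
  have f := X.lat.fg.map (S.mkQ.restrictScalars K)
  { V := X.V ⧸ S
    F := hull fun k => (X.F k).map (S.mkQ.restrictScalars ℂ)
    lat := h _ _ f fun w => by
      obtain ⟨v, rfl⟩ := S.mkQ_surjective w
      obtain ⟨k, y, h0, hv⟩ := X.lat.full v
      exact ⟨k, y, h0, _, hv, rfl⟩
    stab := fun j k b hb v hv => (mem_hull f.fam).2 fun g hg => by
      obtain ⟨d, y, h1, w, h2, h3⟩ := (mem_hull f.fam).1 hv g hg
      refine ⟨d, y, h1, b • w, mem_cast (X.stab _ _ b hb w h2) (by ring), ?_⟩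
      rw [smul_comm y b v, ← h3]
      rfl }

end StepA

open StepA

theorem step (hU : stUNI) (hP : stPTS) (hH : stHULL) (hM : stHOM) (hI : stISO) (hX : stHPX) :
    stSTEP := by
  intro C c X a ha h2
  obtain ⟨m, v, v1, v0, v2⟩ := hU C c X a ha h2
  obtain ⟨P, φ, hφ⟩ := (hI C c).1 m
  obtain ⟨p1, p2, -⟩ := (hI C c).2 P m ⟨φ, hφ⟩
  let S := LinearMap.range (LinearMap.toSpanSingleton C.B X.V v)
  let X' := quo hH X S
  let π : X.V →ₗ[C.B] X'.V := S.mkQ
  let i : P.V →ₗ[C.B] X.V := LinearMap.toSpanSingleton C.B X.V v ∘ₗ φ.toLinearMap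
  have i1 : Function.Injective i := (injective_iff_map_eq_zero i).2 fun x e => by
    by_contra k
    exact v0 ((c.div _ (φ.map_ne_zero_iff.2 k)).smul_eq_zero.1 e)
  have i2 : ∀ x, π x = 0 ↔ ∃ y, i y = x := fun x => (Submodule.Quotient.mk_eq_zero S).trans
    ⟨fun ⟨b, e⟩ => ⟨φ.symm b, e ▸ congrArg (· • v) (φ.apply_symm_apply b)⟩, fun ⟨y, e⟩ => ⟨φ y, e⟩⟩
  have i3 : ∀ k x, i x ∈ X.F k ↔ x ∈ P.F k := fun k x => (Iff.trans
    ⟨fun e => v2 _ _ (mem_cast e (sub_add_cancel k m).symm),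
      fun e => mem_cast (X.stab _ _ _ e v v1) (sub_add_cancel k m)⟩ (hφ k x).symm)
  obtain ⟨μ, m1, m2⟩ := hP C c X X' π (fun k x e => le_hull _ k ⟨x, e, rfl⟩) fun g hg k x e =>
    (mem_hull (X.lat.fg.map (S.mkQ.restrictScalars K)).fam).1 e g hg
  have r := exact_dim (i.restrictScalars K) (π.restrictScalars K) i1 i2 ⊤ ⊤ fun _ => Iff.rfl
  rw [Submodule.map_top, (LinearMap.range_eq_top (f := π.restrictScalars K)).2 S.mkQ_surjective,
    finrank_top, finrank_top, finrank_top] at r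
  refine ⟨X', P, m, μ, ⟨φ, hφ⟩, r.trans ((congrArg (· + _) p1).trans (add_comm _ _)), ?_,
    fun Y => ?_⟩
  · have := quad_zero (a := rk X - rk X' - 8) (b := 3 * (rk X - rk X' - 8) +
      2 * (c1 X.F - c1 X'.F + 12 + 8 * m)) (c := 2 * (chi X.F - chi X'.F - (4 * m ^ 2 + 2)) + 4 * μ)
      (by
        filter_upwards [hX _ _ X.lat, hX _ _ X'.lat, p2, m1] with k k1 k2 k3 k4
        have := X.lat.fg.finite k
        have k5 := exact_dim (i.restrictScalars ℂ) (π.restrictScalars ℂ) i1 i2 _ _ (i3 k)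
        zify at k4 k5
        linear_combination k3 + k2 - k1 + 2 * k5 - 2 * k4)
    omega
  · obtain ⟨R, c', h1⟩ : ∃ R c', HP (HomF Y X) R c' (eu Y X) := ⟨_, _, hX _ _ (hM C c Y X).1⟩
    obtain ⟨R', c'', h2⟩ : ∃ R c', HP (HomF Y X') R c' (eu Y X') := ⟨_, _, hX _ _ (hM C c Y X').1⟩
    obtain ⟨R₀, c₀, h3⟩ : ∃ R c', HP (HomF Y P) R c' (eu Y P) := ⟨_, _, hX _ _ (hM C c Y P).1⟩
    have := quad_zero (a := 4 * (R - R' - R₀)) (b := 12 * (R - R' - R₀) + 8 * (c' - c'' - c₀))
      (c := 8 * (eu Y X - eu Y X' - eu Y P) + 2 * (rk Y * μ)) (by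
        filter_upwards [h1, h2, h3, m2 Y] with k k1 k2 k3 k4
        have := (hM C c Y X).1.fg.finite k
        have k5 := exact_dim (post Y i) (post Y π) (fun a b e => LinearMap.ext fun x =>
          i1 (LinearMap.congr_fun e x)) (fun ψ => ⟨fun e =>
            have a : ∀ x, ψ x ∈ LinearMap.range i := fun x => (i2 _).1 (LinearMap.congr_fun e x)
            ⟨(LinearEquiv.ofInjective i i1).symm.toLinearMap ∘ₗ ψ.codRestrict _ a,
              LinearMap.ext fun x => LinearEquiv.ofInjective_symm_apply i (h := i1) ⟨_, a x⟩⟩,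
            fun ⟨χ, e⟩ => LinearMap.ext fun x =>
              (i2 _).2 ⟨χ x, LinearMap.congr_fun e x⟩⟩) (HomF Y P k) (HomF Y X k) fun ψ =>
          forall₃_congr fun j x _ => i3 _ _
        zify at k4 k5
        linear_combination 4 * k3 + 4 * k2 - 4 * k1 + 8 * k5 - 2 * k4)
    omega

end Vale.Agent.P287Z.L
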