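import Vale.Agent.P287Z.L.SymC

/-!
The discriminant module of a quadratic lattice has a symmetric presentation.
-/

namespace Vale.Agent.P287Z.L

open MvPolynomial Module Filter Matrix Vale.Agent.P287 Vale.Agent.P287.Theta

namespace Sym

variable {f γ : P3} {U : ℤ → Submodule ℂ (Fin 4 → K)} {G : Matrix (Fin 4) (Fin 4) K}
  {l m j k d : ℤ} {w₀ w w' : Fin 4 → K} {x y : P3}

lemma mem_sharp : w ∈ sharp G U l k ↔ ∀ j, ∀ v ∈ U j, v ⬝ᵥ G *ᵥ w ∈ AA (j + (k + l)) := by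
  simp only [← Matrix.toLinearMap₂'_apply']
  rfl

lemma sharp_smul {a : K} (ha : a ∈ AA d) (hw : w ∈ sharp G U l k) :
    a • w ∈ sharp G U l (d + k) := mem_sharp.2 fun j v hv => by
  rw [Matrix.mulVec_smul, dotProduct_smul, smul_eq_mul]
  exact AA_cast (AA_mul ha (mem_sharp.1 hw j v hv)) (by ring)

lemma pair (Q : QD f U G l m w₀ γ) (hw : w ∈ sharp G U l j) (hw' : w' ∈ sharp G U l k) :
    ∃ b, Hg (6 + j + k + l) b ∧ ev b = ev f * (w ⬝ᵥ G *ᵥ w') := by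
  have := mem_sharp.1 hw' _ _ (Q.ann j w hw)
  rw [smul_dotProduct, smul_eq_mul] at this
  exact AA_cast this (by ring)

lemma cong (hf : Hg 6 f) (hG : G.IsSymm) (Q : QD f U G l m w₀ γ) (hw : w ∈ sharp G U l j)
    (hw' : w' ∈ sharp G U l k) {b : P3} (hx : Hg (6 + j + m + l) x)
    (hx' : ev x = ev f * (w ⬝ᵥ G *ᵥ w₀)) (hy : Hg (6 + k + m + l) y)
    (hy' : ev y = ev f * (w' ⬝ᵥ G *ᵥ w₀)) (hb : Hg (6 + j + k + l) b)
    (hb' : ev b = ev f * (w ⬝ᵥ G *ᵥ w')) : f ∣ γ * b - x * y := by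
  have h1 : ev γ • w - ev x • w₀ ∈ sharp G U l (6 + 2 * m + l + j) :=
    Submodule.sub_mem _ (sharp_smul Q.deg.mem hw)
      (show 6 + j + m + l + m = 6 + 2 * m + l + j by ring ▸ sharp_smul hx.mem Q.mem)
  have h2 := Q.inj _ _ h1 (by
    rw [sub_dotProduct, smul_dotProduct, smul_dotProduct, Q.val, hx', smul_eq_mul, smul_eq_mul,
      mul_right_comm, sub_self]
    exact Submodule.zero_mem _)
  obtain ⟨c, hc1, hc2⟩ := mem_AA.1 (mem_sharp.1 hw' _ _ h2)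
  have h3 : w₀ ⬝ᵥ G *ᵥ w' = w' ⬝ᵥ G *ᵥ w₀ := by
    rw [Matrix.dotProduct_mulVec, ← Matrix.mulVec_transpose, hG.eq, dotProduct_comm]
  rw [sub_dotProduct, smul_dotProduct, smul_dotProduct, smul_eq_mul, smul_eq_mul, h3] at hc2
  refine ⟨c, Hg.inj (k := 6 + 2 * m + l + (6 + j + k + l)) ((Q.deg.mul hb).sub
    ((hx.mul hy).cast (by ring))) ((hf.mul hc1).cast (by ring)) ?_⟩
  rw [map_sub, map_mul, map_mul, map_mul, hc2, hb', hy']
  ring

/-- the values of degree `k` -/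
def Val (f : P3) (U : ℤ → Submodule ℂ (Fin 4 → K)) (G : Matrix (Fin 4) (Fin 4) K) (l m : ℤ)
    (w₀ : Fin 4 → K) (k : ℤ) (x : P3) : Prop :=
  Hg (k + (6 + m + l)) x ∧ ∃ w ∈ sharp G U l k, ∃ a ∈ AA (k + m + l),
    ev x = ev f * (w ⬝ᵥ G *ᵥ w₀) + ev f * a

/-- the ideal of the values -/
noncomputable def idV (f : P3) (U : ℤ → Submodule ℂ (Fin 4 → K)) (G : Matrix (Fin 4) (Fin 4) K) (l m : ℤ)
    (w₀ : Fin 4 → K) : Ideal P3 := Ideal.span {x | ∃ k, Val f U G l m w₀ k x}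

lemma Val.mem (h : Val f U G l m w₀ k x) : x ∈ idV f U G l m w₀ := Ideal.subset_span ⟨k, h⟩

lemma val_of (hx : Hg (6 + k + m + l) x) (hw : w ∈ sharp G U l k)
    (h : ev x = ev f * (w ⬝ᵥ G *ᵥ w₀)) : Val f U G l m w₀ k x :=
  ⟨hx.cast (by ring), w, hw, 0, Submodule.zero_mem _, by rw [h, mul_zero, add_zero]⟩

lemma val_hc (h : x ∈ idV f U G l m w₀) (r : P3) (k : ℤ) :
    Val f U G l m w₀ k (hc (k + (6 + m + l)) (r * x)) := by
  induction h using Submodule.span_induction generalizing r with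
  | mem x hx =>
    obtain ⟨j, hx, w, hw, a, ha, h⟩ := hx
    have h1 := (hg_hc (k - j) r).mem
    refine ⟨hg_hc _ _, _, show k - j + j = k by ring ▸ sharp_smul h1 hw, _,
      AA_cast (AA_mul h1 ha) (by ring), ?_⟩
    rw [hx.mul_hc, show k + (6 + m + l) - (j + (6 + m + l)) = k - j by ring, map_mul, h,
      smul_dotProduct, smul_eq_mul]
    ring
  | zero =>
    rw [mul_zero, map_zero]
    exact val_of (hg_zero _) (Submodule.zero_mem _) (by simp)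
  | add x y _ _ hx hy =>
    obtain ⟨-, w, hw, a, ha, h⟩ := hx r
    obtain ⟨-, w', hw', a', ha', h'⟩ := hy r
    refine ⟨hg_hc _ _, _, Submodule.add_mem _ hw hw', _, Submodule.add_mem _ ha ha', ?_⟩
    rw [mul_add, map_add, map_add, h, h', add_dotProduct]
    ring
  | smul a x _ hx =>
    rw [smul_eq_mul, ← mul_assoc]
    exact hx _

lemma val_of_mem (h : x ∈ idV f U G l m w₀) (hx : Hg (k + (6 + m + l)) x) :
    Val f U G l m w₀ k x := by
  have := val_hc h 1 k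
  rwa [one_mul, hx.hc_self] at this

lemma Val.split (hf : Hg 6 f) (Q : QD f U G l m w₀ γ) (h : Val f U G l m w₀ k x) :
    ∃ w ∈ sharp G U l k, ∃ y q, Hg (6 + k + m + l) y ∧ ev y = ev f * (w ⬝ᵥ G *ᵥ w₀) ∧
      x = y + f * q := by
  obtain ⟨hx, w, hw, a, ha, h⟩ := h
  obtain ⟨q, hq, rfl⟩ := mem_AA.1 ha
  obtain ⟨y, hy, hy'⟩ := pair Q hw Q.mem
  refine ⟨w, hw, y, q, hy, hy', hx.inj ((hy.cast (by ring)).add ((hf.mul hq).cast (by ring))) ?_⟩
  rw [map_add, map_mul, h, hy']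

lemma dat (hf : Hg 6 f) (hs : SmoothP f) (hG : G.IsSymm) (Q : QD f U G l m w₀ γ) :
    Dat f γ (idV f U G l m w₀) where
  hf := hf
  pf := prime_of_smoothP (d := 6) (hg_nat.1 hf) (by norm_num) hs
  nd := Q.ndvd
  fI := Val.mem (k := -m - l) ⟨hf.cast (by ring), 0, Submodule.zero_mem _, 1,
    AA_cast AA_one (by ring), by simp⟩
  γI := (val_of (Q.deg.cast (by ring)) Q.mem Q.val).mem
  hom x hx k := by
    have := (val_hc hx 1 (k - (6 + m + l))).mem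
    rwa [one_mul, sub_add_cancel] at this
  mul x hx y hy := by
    have h1 := Ideal.mul_mem_mul hx hy
    rw [idV, Ideal.span_mul_span'] at h1
    refine Ideal.span_le.2 ?_ h1
    rintro _ ⟨x, ⟨j, hx⟩, y, ⟨k, hy⟩, rfl⟩
    obtain ⟨w, hw, x', q, h2, h3, rfl⟩ := hx.split hf Q
    obtain ⟨w', hw', y', q', h4, h5, rfl⟩ := hy.split hf Q
    obtain ⟨b, hb, hb'⟩ := pair Q hw hw'
    obtain ⟨z, hz⟩ := cong hf hG Q hw hw' h2 h3 h4 h5 hb hb'
    exact Ideal.mem_span_pair.2 ⟨b, x' * q' + q * y' + q * f * q' - z, by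
      linear_combination hz⟩
  perf p hp := by
    obtain ⟨j, w, hw, b, hb, hb', h0⟩ := Q.perf p hp
    obtain ⟨a, ha, ha'⟩ := pair Q hw Q.mem
    exact ⟨a, (val_of ha hw ha').mem, b, h0,
      cong hf hG Q hw hw ha ha' ha ha' (hb.cast (by ring)) hb'⟩

end Sym

open Vale.Agent.P287Z.L.Sym in
theorem sym : stNOETH → stMG → stRES → stDUAL → stVAN → stSYM := by
  intro _ _ hR _ _ f U G l m w₀ γ hf hs L Q
  obtain ⟨n, d, ψ, Λ, α, h1, h2, h3, h4, h5, h6⟩ := core hR (dat hf hs L.symm Q) Q.deg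
  refine ⟨n, d, ψ, Λ, α, h1, h2, h3, h4, h6.1, h5, fun k w hw => ?_, ?_⟩
  · obtain ⟨a, ha, ha'⟩ := pair Q hw Q.mem
    obtain ⟨c, hc'⟩ := h6.2.2 a (le_sat (val_of ha hw ha').mem)
    obtain ⟨c', q, h7, h8, h9⟩ := hom_comb (k := k) hf h6.1 (ha.cast (by ring)) hc'
    refine ⟨fun i => ev (c' i), mem_Fr'.2 fun i => (h7 i).mem, ev q,
      (h8.cast (by ring)).mem, ?_⟩
    rw [← ha', h9]
    simp [dotProduct, mul_comm]
  · obtain ⟨N, hN⟩ := sat_unif h6.2.1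
    refine ⟨N, fun i j => ?_⟩
    obtain ⟨-, w, hw, a, ha, h⟩ := val_of_mem (k := d i + N) (hN i j)
      ((((hg_X j).pow N).mul (h6.1 i)).cast (by ring))
    exact ⟨w, hw, a, ha, by rw [← h, map_mul, map_pow, ev_X]⟩

end Vale.Agent.P287Z.L
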