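import Mathlib

/-!
The trace pairing on homomorphisms of free modules over a symmetric algebra.
-/

set_option linter.unusedSectionVars false

namespace Vale.Agent.P287Z.L.SymA

open Module

theorem det_adj {F V W : Type} [Field F] [AddCommGroup V] [Module F V] [FiniteDimensional F V]
    [AddCommGroup W] [Module F W] [FiniteDimensional F W] (β : V →ₗ[F] W →ₗ[F] F)
    (h1 : ∀ v, (∀ w, β v w = 0) → v = 0) (h2 : ∀ w, (∀ v, β v w = 0) → w = 0) (f : V →ₗ[F] V)
    (g : W →ₗ[F] W) (h : ∀ v w, β (f v) w = β v (g w)) : LinearMap.det f = LinearMap.det g := by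
  have i1 : Function.Injective β :=
    (injective_iff_map_eq_zero β).2 fun v hv => h1 v fun w => by rw [hv]; rfl
  have i2 : Function.Injective β.flip :=
    (injective_iff_map_eq_zero β.flip).2 fun w hw => h2 w fun v => LinearMap.congr_fun hw v
  have d : finrank F V = finrank F (Dual F W) := by
    have a1 := LinearMap.finrank_le_finrank_of_injective i1
    have a2 := LinearMap.finrank_le_finrank_of_injective i2
    have a3 : finrank F (V →ₗ[F] F) = finrank F V := Subspace.dual_finrank_eq
    have a4 : finrank F (W →ₗ[F] F) = finrank F W := Subspace.dual_finrank_eq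
    change _ = finrank F (W →ₗ[F] F)
    omega
  let e : V ≃ₗ[F] Dual F W := LinearMap.linearEquivOfInjective β i1 d
  rw [← LinearMap.det_conj f e, ← LinearMap.det_dualMap g]
  congr 1
  refine LinearMap.ext fun x => ?_
  obtain ⟨v, rfl⟩ := e.surjective x
  rw [LinearMap.comp_apply, LinearMap.comp_apply, LinearEquiv.coe_coe, LinearEquiv.coe_coe,
    e.symm_apply_apply]
  exact LinearMap.ext fun w => h v w

variable {F B X Y : Type} [Field F] [Ring B] [Algebra F B] [AddCommGroup X] [Module B X]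
  [Module F X] [IsScalarTower F B X] [AddCommGroup Y] [Module B Y] [Module F Y]
  [IsScalarTower F B Y] {ι κ σ : Type} [Fintype ι] [Fintype κ] [Fintype σ] (lam : B →ₗ[F] F)

/-- the trace pairing -/
noncomputable def pair (v : Basis ι B X) : (X →ₗ[B] Y) →ₗ[F] (Y →ₗ[B] X) →ₗ[F] F :=
  LinearMap.mk₂ F (fun φ ψ => ∑ i, lam (v.coord i (ψ (φ (v i)))))
    (fun _ _ _ => by simp only [LinearMap.add_apply, map_add, Finset.sum_add_distrib])
    (fun _ _ _ => by
      simp only [LinearMap.smul_apply, LinearMap.map_smul_of_tower, Finset.smul_sum])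
    (fun _ _ _ => by simp only [LinearMap.add_apply, map_add, Finset.sum_add_distrib])
    (fun _ _ _ => by
      simp only [LinearMap.smul_apply, LinearMap.map_smul_of_tower, Finset.smul_sum])

theorem pair_apply (v : Basis ι B X) (φ : X →ₗ[B] Y) (ψ : Y →ₗ[B] X) :
    pair lam v φ ψ = ∑ i, lam (v.coord i (ψ (φ (v i)))) := rfl

variable {lam}

theorem pair_comm (hc : ∀ x y, lam (x * y) = lam (y * x)) (v : Basis ι B X) (w : Basis κ B Y)
    (φ : X →ₗ[B] Y) (ψ : Y →ₗ[B] X) : pair lam v φ ψ = pair lam w ψ φ := by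
  have k1 : ∀ i, v.coord i (ψ (φ (v i))) = ∑ j, w.coord j (φ (v i)) * v.coord i (ψ (w j)) :=
    fun i => by
      conv_lhs => rw [← w.sum_repr (φ (v i))]
      simp only [map_sum, map_smul, smul_eq_mul, Basis.coord_apply]
  have k2 : ∀ j, w.coord j (φ (ψ (w j))) = ∑ i, v.coord i (ψ (w j)) * w.coord j (φ (v i)) :=
    fun j => by
      conv_lhs => rw [← v.sum_repr (ψ (w j))]
      simp only [map_sum, map_smul, smul_eq_mul, Basis.coord_apply]
  simp only [pair_apply, k1, k2, map_sum]
  rw [Finset.sum_comm]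
  exact Finset.sum_congr rfl fun j _ => Finset.sum_congr rfl fun i _ => hc _ _

theorem pair_indep {ι' : Type} [Fintype ι'] (hc : ∀ x y, lam (x * y) = lam (y * x))
    (v : Basis ι B X) (v' : Basis ι' B X) (φ : X →ₗ[B] Y) (ψ : Y →ₗ[B] X) :
    pair lam v φ ψ = pair lam v' φ ψ := pair_comm hc v v' LinearMap.id (ψ ∘ₗ φ)

/-- the elementary maps -/
noncomputable def el (v : Basis ι B X) (i : ι) (y : Y) : X →ₗ[B] Y := (v.coord i).smulRight y

theorem el_apply (v : Basis ι B X) (i : ι) (y : Y) (x : X) : el v i y x = v.coord i x • y := rfl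

theorem pair_el (v : Basis ι B X) (i : ι) (y : Y) (ψ : Y →ₗ[B] X) :
    pair lam v (el v i y) ψ = lam (v.coord i (ψ y)) := by
  classical
  rw [pair_apply, Finset.sum_eq_single i (fun j _ h => ?_) fun h => absurd (Finset.mem_univ i) h]
  · simp [el_apply]
  · simp [el_apply, h]

theorem pair_right (hn : ∀ x, (∀ y, lam (y * x) = 0) → x = 0) (v : Basis ι B X) (ψ : Y →ₗ[B] X)
    (h : ∀ φ, pair lam v φ ψ = 0) : ψ = 0 := by
  refine LinearMap.ext fun y => v.forall_coord_eq_zero_iff.1 fun i => hn _ fun b => ?_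
  have := h (el v i (b • y))
  rwa [pair_el, map_smul, map_smul, smul_eq_mul] at this

theorem pair_left (hc : ∀ x y, lam (x * y) = lam (y * x))
    (hn : ∀ x, (∀ y, lam (y * x) = 0) → x = 0) (v : Basis ι B X) (w : Basis κ B Y)
    (φ : X →ₗ[B] Y) (h : ∀ ψ, pair lam v φ ψ = 0) : φ = 0 :=
  pair_right hn w φ fun ψ => (pair_comm hc v w φ ψ).symm.trans (h ψ)

theorem fd_hom [FiniteDimensional F X] [FiniteDimensional F Y] :
    FiniteDimensional F (X →ₗ[B] Y) :=
  Module.Finite.of_injective (LinearMap.restrictScalarsₗ F B X Y F)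
    (LinearMap.restrictScalars_injective F)

theorem det_post [FiniteDimensional F Y] (v : Basis ι B X) (g : Y →ₗ[B] Y) :
    LinearMap.det (g.compRight F : (X →ₗ[B] Y) →ₗ[F] X →ₗ[B] Y) =
      LinearMap.det (g.restrictScalars F) ^ Fintype.card ι := by
  rw [← Finset.card_univ, ← Finset.prod_const, ← LinearMap.det_pi,
    ← LinearMap.det_conj _ (v.constr (M' := Y) F).symm]
  congr 1
  refine LinearMap.ext fun f => funext fun i => ?_
  exact congrArg g (v.constr_basis F f i)

theorem det_pre [FiniteDimensional F X] [FiniteDimensional F Y]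
    (hc : ∀ x y, lam (x * y) = lam (y * x)) (hn : ∀ x, (∀ y, lam (y * x) = 0) → x = 0)
    (v : Basis ι B X) (w : Basis κ B Y) (g : X →ₗ[B] X) :
    LinearMap.det (LinearMap.lcomp F Y g) =
      LinearMap.det (g.restrictScalars F) ^ Fintype.card κ := by
  have := fd_hom (F := F) (B := B) (X := X) (Y := Y)
  have := fd_hom (F := F) (B := B) (X := Y) (Y := X)
  rw [← det_post w g]
  refine det_adj (pair lam v) (pair_left hc hn v w) (pair_right hn v) _ _ fun φ ψ => ?_
  exact pair_comm hc v v g (ψ ∘ₗ φ)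

/-- the basis of the space of homomorphisms -/
noncomputable def hb (o : Basis σ F B) (v : Basis ι B X) (w : Basis κ B Y) :
    Basis (Σ _ : ι, σ × κ) F (X →ₗ[B] Y) :=
  (Pi.basis fun _ : ι => o.smulTower w).map (v.constr F)

theorem hb_apply (o : Basis σ F B) (v : Basis ι B X) (w : Basis κ B Y) (t : Σ _ : ι, σ × κ) :
    hb o v w t = el v t.1 (o t.2.1 • w t.2.2) := by
  classical
  refine v.ext fun i => ?_
  rw [hb, Basis.map_apply, Pi.basis_apply, Basis.constr_basis, el_apply, Basis.smulTower_apply]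
  by_cases h : i = t.1
  · subst h
    simp
  · simp [h]

theorem hb_repr (o : Basis σ F B) (v : Basis ι B X) (w : Basis κ B Y) (ψ : X →ₗ[B] Y)
    (t : Σ _ : ι, σ × κ) : (hb o v w).repr ψ t = o.repr (w.coord t.2.2 (ψ (v t.1))) t.2.1 := by
  simp [hb]

theorem det_tower [DecidableEq ι] [DecidableEq σ] (o : Basis σ F B) (v₀ v : Basis ι B X) :
    (o.smulTower v₀).det (fun s => o s.1 • v s.2) =
      LinearMap.det ((v₀.equiv v (Equiv.refl ι) : X →ₗ[B] X).restrictScalars F) := by
  have e : (fun s : σ × ι => o s.1 • v s.2) =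
      (v₀.equiv v (Equiv.refl ι) : X →ₗ[B] X).restrictScalars F ∘ o.smulTower v₀ :=
    funext fun s => by simp
  rw [e, Basis.det_comp, Basis.det_self, mul_one]

theorem det_hb [DecidableEq ι] [DecidableEq κ] [DecidableEq σ] [FiniteDimensional F X]
    [FiniteDimensional F Y] (hc : ∀ x y, lam (x * y) = lam (y * x))
    (hn : ∀ x, (∀ y, lam (y * x) = 0) → x = 0) (o : Basis σ F B) (v₀ v : Basis ι B X)
    (w₀ w : Basis κ B Y) :
    (o.smulTower v₀).det (fun s => o s.1 • v s.2) ^ Fintype.card κ * (hb o v₀ w₀).det (hb o v w) =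
      (o.smulTower w₀).det (fun s => o s.1 • w s.2) ^ Fintype.card ι := by
  rw [det_tower, det_tower, ← det_pre hc hn v w, ← det_post v, ← Basis.det_comp,
    ← mul_one (LinearMap.det _), ← (hb o v₀ w₀).det_self, ← Basis.det_comp]
  congr 1
  refine funext fun t => v₀.ext fun i => ?_
  by_cases h : i = t.1 <;> simp [hb_apply, el_apply, h]

end Vale.Agent.P287Z.L.SymA
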