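import Vale.Agent.P287Z.L.SndA
import Vale.Agent.P287Z.L.Basic2

/-!
The multiplication table of the order attached to four vectors.
-/

namespace Vale.Agent.P287Z.L

open Module Matrix Vale.Agent.P287 Vale.Agent.P287.Theta

namespace TabH

open SndH

theorem sort4 {R : Fin 4 → Fin 4 → Fin 4 → Fin 4 → Prop}
    (s1 : ∀ a b c d, R a b c d → R b a c d) (s2 : ∀ a b c d, R a b c d → R a c b d)
    (s3 : ∀ a b c d, R a b c d → R a b d c) (e : ∀ a b d, R a b b d)
    (h0 : R 0 1 2 3 ∨ ∃ b, ∀ j k n, R b j k n) : ∀ a b c d, R a b c d := by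
  have h1 : R 0 1 2 3 := by
    rcases h0 with h | ⟨b, h⟩
    · exact h
    · fin_cases b
      · exact h _ _ _
      · exact s1 _ _ _ _ (h _ _ _)
      · exact s2 _ _ _ _ (s1 _ _ _ _ (h _ _ _))
      · exact s3 _ _ _ _ (s2 _ _ _ _ (s1 _ _ _ _ (h _ _ _)))
  have h2 : ∀ a b c d, a ≤ b → b ≤ c → c ≤ d → R a b c d := fun a b c d k1 k2 k3 => by
    rcases k1.eq_or_lt with rfl | k1
    · exact s2 _ _ _ _ (s1 _ _ _ _ (e _ _ _))
    rcases k2.eq_or_lt with rfl | k2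
    · exact e _ _ _
    rcases k3.eq_or_lt with rfl | k3
    · exact s2 _ _ _ _ (s3 _ _ _ _ (e a c b))
    obtain rfl : a = 0 := by omega
    obtain rfl : b = 1 := by omega
    obtain rfl : c = 2 := by omega
    obtain rfl : d = 3 := by omega
    exact h1
  have h3 : ∀ a b c d, b ≤ c → c ≤ d → R a b c d := fun a b c d k2 k3 => by
    rcases le_total a b with k | k
    · exact h2 _ _ _ _ k k2 k3
    rcases le_total a c with k' | k'
    · exact s1 _ _ _ _ (h2 _ _ _ _ k k' k3)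
    rcases le_total a d with k'' | k''
    · exact s1 _ _ _ _ (s2 _ _ _ _ (h2 _ _ _ _ k2 k' k''))
    · exact s1 _ _ _ _ (s2 _ _ _ _ (s3 _ _ _ _ (h2 _ _ _ _ k2 k3 k'')))
  have h4 : ∀ a b c d, c ≤ d → R a b c d := fun a b c d k3 => by
    rcases le_total b c with k | k
    · exact h3 _ _ _ _ k k3
    rcases le_total b d with k' | k'
    · exact s2 _ _ _ _ (h3 _ _ _ _ k k')
    · exact s2 _ _ _ _ (s3 _ _ _ _ (h3 _ _ _ _ k3 k'))
  intro a b c d
  rcases le_total c d with k | k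
  · exact h4 _ _ _ _ k
  · exact s3 _ _ _ _ (h4 _ _ _ _ k)

/-- the hypotheses -/
structure Hy (G : Matrix (Fin 4) (Fin 4) K) (ν : K) (u : Fin 4 → Fin 4 → K) (h : Fin 4 → ℤ)
    (l : ℤ) (c : ℂ) : Prop where
  sym : G.IsSymm
  alg : Alg G
  ν0 : ν ≠ 0
  c0 : c ≠ 0
  det : (Matrix.of u).det = algebraMap ℂ K c * ν ^ 2
  deg : 2 * ∑ i, h i + 4 * l = 6
  int : ∀ i j, ν⁻¹ * (u i ⬝ᵥ G *ᵥ u j) ∈ AA (h i + h j + l)

section Def
variable (G : Matrix (Fin 4) (Fin 4) K) (ν : K) (u : Fin 4 → Fin 4 → K)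

/-- the scaled products -/
noncomputable def m (i j : Fin 4) : BB G := ν⁻¹ • mm G (u i) (u j)

/-- the scaled alternating products -/
noncomputable def w (i j : Fin 4) : BB G := ν⁻¹ • wd G (u i) (u j)

/-- the scaled Gram matrix -/
noncomputable def g (i j : Fin 4) : K := ν⁻¹ * (u i ⬝ᵥ G *ᵥ u j)

end Def

/-- the sign of a permutation, zero for a repetition -/
def sg (a b c d : Fin 4) : ℤ :=
  ((b : ℤ) - a) * ((c : ℤ) - a) * ((d : ℤ) - a) * ((c : ℤ) - b) * ((d : ℤ) - b) * ((d : ℤ) - c) / 12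

variable {G : Matrix (Fin 4) (Fin 4) K} {ν : K} {u : Fin 4 → Fin 4 → K} {h : Fin 4 → ℤ} {l : ℤ}
  {c : ℂ} {S : ℤ → Submodule ℂ (BB G)}

theorem Hy.deg' (H : Hy G ν u h l c) : h 0 + h 1 + h 2 + h 3 + 2 * l = 3 := by
  have := H.deg
  rw [Fin.sum_univ_four] at this
  omega

theorem Hy.g1 (H : Hy G ν u h l c) (i j : Fin 4) : g G ν u i j ∈ AA (h i + h j + l) := H.int i j

theorem Hy.g2 (H : Hy G ν u h l c) (i j : Fin 4) : 2 * g G ν u i j ∈ AA (h i + h j + l) := by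
  rw [two_mul]
  exact add_mem (H.int i j) (H.int i j)

theorem Hy.c1 (H : Hy G ν u h l c) : algebraMap ℂ K c ≠ 0 := (_root_.map_ne_zero _).2 H.c0

theorem Hy.w_eq (H : Hy G ν u h l c) (i j : Fin 4) :
    w G ν u i j = m G ν u i j - g G ν u i j • 1 := by
  rw [w, wd_eq H.sym, smul_sub, smul_smul]
  rfl

theorem Hy.m_swap (H : Hy G ν u h l c) (i j : Fin 4) :
    m G ν u j i = (2 * g G ν u i j) • 1 - m G ν u i j := by
  rw [m, eq_sub_of_add_eq' (mm_swap H.sym (u i) (u j)), smul_sub, smul_smul, mul_left_comm]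
  rfl

theorem m_mid (a b d : Fin 4) : m G ν u a b * m G ν u b d = g G ν u b b • m G ν u a d := by
  rw [m, m, smul_mul_smul_comm, mm_mid, m, smul_smul, smul_smul, g, mul_right_comm]

theorem Hy.m_mid' (H : Hy G ν u h l c) (a b d e : Fin 4) :
    m G ν u a d * m G ν u b e = (2 * g G ν u b d) • m G ν u a e - m G ν u a b * m G ν u d e := by
  rw [eq_sub_iff_add_eq', m, m, m, m, smul_mul_smul_comm, smul_mul_smul_comm, ← smul_add,
    mm_mid' H.sym, m, smul_smul, smul_smul, g, mul_right_comm, mul_left_comm ν⁻¹]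

theorem Hy.e1 (H : Hy G ν u h l c) (a b d e : Fin 4) :
    m G ν u b a * m G ν u d e = (2 * g G ν u a b) • m G ν u d e - m G ν u a b * m G ν u d e := by
  rw [H.m_swap a b, sub_mul, smul_mul_assoc, one_mul]

theorem Hy.e3 (H : Hy G ν u h l c) (a b d e : Fin 4) :
    m G ν u a b * m G ν u e d = (2 * g G ν u d e) • m G ν u a b - m G ν u a b * m G ν u d e := by
  rw [H.m_swap d e, mul_sub, mul_smul_comm, mul_one]

theorem Hy.four (H : Hy G ν u h l c) (hS : Fam S) (h2 : ∀ i j, m G ν u i j ∈ S (h i + h j + l))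
    (h0 : m G ν u 0 1 * m G ν u 2 3 ∈ S 3 ∨
      ∃ b, ∀ j k n, m G ν u b j * m G ν u k n ∈ S (h b + h j + l + (h k + h n + l))) :
    ∀ a b d e, m G ν u a b * m G ν u d e ∈ S (h a + h b + l + (h d + h e + l)) := by
  refine sort4 (fun a b d e k => ?_) (fun a b d e k => ?_) (fun a b d e k => ?_)
    (fun a b d => ?_) (h0.imp_left fun k => mem_cast k (by have := H.deg'; omega))
  · rw [H.e1]
    exact sub_mem (hS.smul (H.g2 _ _) (h2 _ _) (by ring)) (mem_cast k (by ring))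
  · rw [H.m_mid']
    exact sub_mem (hS.smul (H.g2 _ _) (h2 _ _) (by ring)) (mem_cast k (by ring))
  · rw [H.e3]
    exact sub_mem (hS.smul (H.g2 _ _) (h2 _ _) (by ring)) (mem_cast k (by ring))
  · rw [m_mid]
    exact hS.smul (H.g1 _ _) (h2 _ _) (by ring)

theorem Hy.del_eq (H : Hy G ν u h l c) : del G = algebraMap ℂ K (c⁻¹ * 6⁻¹) •
    (w G ν u 0 1 * w G ν u 2 3 - w G ν u 0 2 * w G ν u 1 3 + w G ν u 0 3 * w G ν u 1 2 +
      w G ν u 1 2 * w G ν u 0 3 - w G ν u 1 3 * w G ν u 0 2 + w G ν u 2 3 * w G ν u 0 1) := by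
  have h1 := congrArg (((algebraMap ℂ K c)⁻¹ * (ν⁻¹ * ν⁻¹)) • ·) (H.alg.dl_eq u)
  have h2 : (algebraMap ℂ K c)⁻¹ * (ν⁻¹ * ν⁻¹) * (algebraMap ℂ K c * ν ^ 2) = 1 := by
    rw [mul_mul_mul_comm, inv_mul_cancel₀ H.c1, one_mul, ← mul_inv, ← sq,
      inv_mul_cancel₀ (pow_ne_zero 2 H.ν0)]
  simp only [H.det, smul_smul, h2, one_smul, dl] at h1
  simp only [w, smul_mul_smul_comm, ← smul_sub, ← smul_add, smul_smul]
  rw [← h1, map_mul, map_inv₀, map_inv₀, map_ofNat, mul_right_comm]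

theorem Hy.le_of (H : Hy G ν u h l c) (hS : Fam S) (h1 : 1 ∈ S 0)
    (h2 : ∀ i j, m G ν u i j ∈ S (h i + h j + l))
    (h4 : ∀ a b d e, m G ν u a b * m G ν u d e ∈ S (h a + h b + l + (h d + h e + l))) (k : ℤ) :
    Ord G ν u h l k ≤ S k := by
  have k2 : ∀ i j, w G ν u i j ∈ S (h i + h j + l) := fun i j => by
    rw [H.w_eq]
    exact sub_mem (h2 i j) (hS.smul (H.g1 i j) h1 (add_zero _))
  have k4 : ∀ a b d e, h a + h b + l + (h d + h e + l) = 3 → w G ν u a b * w G ν u d e ∈ S 3 :=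
    fun a b d e k => by
      rw [H.w_eq a b, sub_mul, smul_mul_assoc, one_mul]
      refine sub_mem ?_ (hS.smul (H.g1 a b) (k2 d e) k)
      rw [H.w_eq, mul_sub, mul_smul_comm, mul_one]
      exact sub_mem (mem_cast (h4 a b d e) k) (hS.smul (H.g1 d e) (h2 a b) (by omega))
  have k7 : del G ∈ S 3 := by
    have := H.deg'
    rw [H.del_eq]
    exact hS.smul (AA_const _) (add_mem (sub_mem (add_mem (add_mem (sub_mem
      (k4 _ _ _ _ (by omega)) (k4 _ _ _ _ (by omega))) (k4 _ _ _ _ (by omega)))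
      (k4 _ _ _ _ (by omega))) (k4 _ _ _ _ (by omega))) (k4 _ _ _ _ (by omega))) (zero_add _)
  refine Sp_le hS (fun s => ?_) k
  fin_cases s
  exacts [h1, k2 0 1, k2 0 2, k2 1 2, k2 0 3, k2 1 3, k2 2 3, k7]

theorem fam : Fam (Ord G ν u h l) := fam_Sp _ _

theorem ob_mem (s : Fin 8) : ob G ν u s ∈ Ord G ν u h l (od h l s) := self_mem_Sp _ _ s

theorem one_mem : (1 : BB G) ∈ Ord G ν u h l 0 := ob_mem 0

theorem Hy.mem (H : Hy G ν u h l c) (i j : Fin 4) :
    m G ν u i j ∈ Ord G ν u h l (h i + h j + l) := by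
  have h1 : ∀ i j, i < j → m G ν u i j ∈ Ord G ν u h l (h i + h j + l) := fun i j k => by
    rw [eq_add_of_sub_eq (H.w_eq i j).symm]
    refine add_mem ?_ (fam.smul (H.g1 i j) one_mem (add_zero _))
    fin_cases i <;> fin_cases j <;> first | exact absurd k (by decide) | skip
    exacts [ob_mem 1, ob_mem 2, ob_mem 4, ob_mem 3, ob_mem 5, ob_mem 6]
  rcases lt_trichotomy i j with k | rfl | k
  · exact h1 i j k
  · rw [m, mm_self, smul_smul]
    exact fam.smul (H.g1 i i) one_mem (add_zero _)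
  · rw [H.m_swap]
    exact sub_mem (fam.smul (H.g2 j i) one_mem (by ring)) (mem_cast (h1 j i k) (by ring))

theorem Hy.lam_m (H : Hy G ν u h l c) (i j : Fin 4) : lam G (m G ν u i j) = 0 := by
  rw [m, map_smul, H.alg.lam_mm, smul_zero]

theorem Hy.lam_D (H : Hy G ν u h l c) : lam G (m G ν u 0 1 * m G ν u 2 3) = algebraMap ℂ K c := by
  have h1 : ![u 0, u 1, u 2, u 3] = u := funext fun i => by fin_cases i <;> rfl
  rw [m, m, smul_mul_smul_comm, map_smul, H.alg.lam_four, h1, H.det, smul_eq_mul, mul_left_comm,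
    ← mul_inv, ← sq, inv_mul_cancel₀ (pow_ne_zero 2 H.ν0), mul_one]

theorem Hy.mem4 (H : Hy G ν u h l c) (a b d e : Fin 4) :
    m G ν u a b * m G ν u d e ∈ Ord G ν u h l (h a + h b + l + (h d + h e + l)) := by
  refine H.four fam H.mem (Or.inl ?_) a b d e
  let π : BB G →ₗ[K] BB G :=
    LinearMap.id - (lam G).smulRight ((algebraMap ℂ K c)⁻¹ • (m G ν u 0 1 * m G ν u 2 3))
  have hπ : ∀ x, π x = x - lam G x • (algebraMap ℂ K c)⁻¹ • (m G ν u 0 1 * m G ν u 2 3) :=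
    fun _ => rfl
  have hS := (fam (G := G) (ν := ν) (u := u) (h := h) (l := l)).comap π
  have h2 : ∀ i j, π (m G ν u i j) ∈ Ord G ν u h l (h i + h j + l) := fun i j => by
    rw [hπ, H.lam_m, zero_smul, sub_zero]
    exact H.mem i j
  have h7 : π (del G) ∈ Ord G ν u h l 3 := H.le_of hS
    (show π 1 ∈ Ord G ν u h l 0 by rw [hπ, H.alg.lam_one, zero_smul, sub_zero]; exact one_mem) h2
    (H.four hS h2 (Or.inl (show π _ ∈ Ord G ν u h l 3 by
      rw [hπ, H.lam_D, smul_inv_smul₀ H.c1, sub_self]; exact zero_mem _))) 3 (ob_mem 7)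
  have h8 := fam.smul (AA_const c) (sub_mem (ob_mem (h := h) (l := l) 7) h7) (zero_add 3)
  rwa [hπ, H.alg.lam_del, one_smul, show ob G ν u 7 = del G from rfl, sub_sub_cancel,
    smul_inv_smul₀ H.c1] at h8

theorem Hy.mul_mem (H : Hy G ν u h l c) (a b : Fin 4) (k : ℤ) (y : BB G)
    (hy : y ∈ Ord G ν u h l k) : m G ν u a b * y ∈ Ord G ν u h l (k + (h a + h b + l)) := by
  have hS := ((fam (G := G) (ν := ν) (u := u) (h := h) (l := l)).sh (h a + h b + l)).comap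
    (LinearMap.mulLeft K (m G ν u a b))
  have h2 : ∀ i j, m G ν u a b * m G ν u i j ∈
      Ord G ν u h l (h i + h j + l + (h a + h b + l)) := fun i j =>
    mem_cast (H.mem4 a b i j) (add_comm _ _)
  refine H.le_of hS (show m G ν u a b * 1 ∈ Ord G ν u h l (0 + _) from ?_) h2
    (H.four hS h2 (Or.inr ⟨b, fun j k n => show m G ν u a b * (_ * _) ∈ Ord G ν u h l (_ + _)
      from ?_⟩)) k hy
  · rw [mul_one, zero_add]
    exact H.mem a b
  · rw [← mul_assoc, m_mid, smul_mul_assoc]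
    exact fam.smul (H.g1 b b) (H.mem4 a j k n) (by ring)

theorem Hy.lam4 (H : Hy G ν u h l c) :
    ∀ a b d e, lam G (m G ν u a b * m G ν u d e) = algebraMap ℂ K (c * sg a b d e) := by
  refine sort4 (fun a b d e k => ?_) (fun a b d e k => ?_) (fun a b d e k => ?_)
    (fun a b d => ?_) (Or.inl ?_)
  · rw [H.e1, map_sub, map_smul, H.lam_m, smul_zero, zero_sub, k, ← map_neg,
      (by decide : ∀ a b d e, sg b a d e = -sg a b d e), Int.cast_neg, mul_neg, neg_neg]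
  · rw [H.m_mid', map_sub, map_smul, H.lam_m, smul_zero, zero_sub, k, ← map_neg,
      (by decide : ∀ a b d e, sg a d b e = -sg a b d e), Int.cast_neg, mul_neg, neg_neg]
  · rw [H.e3, map_sub, map_smul, H.lam_m, smul_zero, zero_sub, k, ← map_neg,
      (by decide : ∀ a b d e, sg a b e d = -sg a b d e), Int.cast_neg, mul_neg, neg_neg]
  · rw [m_mid, map_smul, H.lam_m, smul_zero, (by decide : ∀ a b d, sg a b b d = 0), Int.cast_zero,
      mul_zero, map_zero]
  · rw [H.lam_D, (by decide : sg 0 1 2 3 = 1), Int.cast_one, mul_one]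

theorem Hy.lam_w (H : Hy G ν u h l c) (i j : Fin 4) : lam G (w G ν u i j) = 0 := by
  rw [H.w_eq, map_sub, map_smul, H.lam_m, H.alg.lam_one, smul_zero, sub_zero]

theorem Hy.lam_dw (H : Hy G ν u h l c) (i j : Fin 4) : lam G (del G * w G ν u i j) = 0 := by
  rw [w, mul_smul_comm, map_smul, H.alg.lam_del_wd, smul_zero]

theorem Hy.lam_ww (H : Hy G ν u h l c) (a b d e : Fin 4) :
    lam G (w G ν u a b * w G ν u d e) = algebraMap ℂ K (c * sg a b d e) := by
  rw [H.w_eq a b, sub_mul, smul_mul_assoc, one_mul, map_sub, map_smul, H.lam_w, smul_zero,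
    sub_zero, H.w_eq, mul_sub, mul_smul_comm, mul_one, map_sub, map_smul, H.lam_m, smul_zero,
    sub_zero, H.lam4]

/-- the first index -/
def iA : Fin 8 → Fin 4 := ![0, 0, 0, 1, 0, 1, 2, 0]

/-- the second index -/
def iB : Fin 8 → Fin 4 := ![0, 1, 2, 2, 3, 3, 3, 0]

theorem ob_cases (s : Fin 8) : (s = 0 ∧ ob G ν u s = 1) ∨ (s = 7 ∧ ob G ν u s = del G) ∨
    (s ≠ 0 ∧ s ≠ 7) ∧ ob G ν u s = w G ν u (iA s) (iB s) := by
  fin_cases s
  · exact Or.inl ⟨rfl, rfl⟩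
  all_goals first
    | exact Or.inr (Or.inr ⟨by decide, rfl⟩)
    | exact Or.inr (Or.inl ⟨rfl, rfl⟩)

theorem Hy.gram0 (H : Hy G ν u h l c) {s t : Fin 8} (k : s ≠ t.rev) :
    lam G (ob G ν u s * ob G ν u t) = 0 := by
  rcases ob_cases (G := G) (ν := ν) (u := u) s with ⟨a, e⟩ | ⟨a, e⟩ | ⟨a, e⟩ <;>
    rcases ob_cases (G := G) (ν := ν) (u := u) t with ⟨b, f⟩ | ⟨b, f⟩ | ⟨b, f⟩ <;> rw [e, f]
  · rw [one_mul, H.alg.lam_one]
  · exact absurd (a.trans (by rw [b]; rfl)) k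
  · rw [one_mul, H.lam_w]
  · exact absurd (a.trans (by rw [b]; rfl)) k
  · rw [H.alg.sq, Algebra.algebraMap_eq_smul_one, map_smul, H.alg.lam_one, smul_zero]
  · exact H.lam_dw _ _
  · rw [mul_one, H.lam_w]
  · rw [← H.alg.cen, H.lam_dw]
  · rw [H.lam_ww, (by decide : ∀ s t : Fin 8, s ≠ 0 ∧ s ≠ 7 → t ≠ 0 ∧ t ≠ 7 → s ≠ t.rev →
      sg (iA s) (iB s) (iA t) (iB t) = 0) s t a b k, Int.cast_zero, mul_zero, map_zero]

theorem Hy.gram1 (H : Hy G ν u h l c) (s : Fin 8) :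
    ∃ e : ℂ, e ≠ 0 ∧ lam G (ob G ν u s * ob G ν u s.rev) = algebraMap ℂ K e := by
  rcases ob_cases (G := G) (ν := ν) (u := u) s with ⟨rfl, -⟩ | ⟨rfl, -⟩ | ⟨a, e⟩
  · exact ⟨1, one_ne_zero, (congrArg _ (one_mul _)).trans (H.alg.lam_del.trans (map_one _).symm)⟩
  · exact ⟨1, one_ne_zero, (congrArg _ (mul_one _)).trans (H.alg.lam_del.trans (map_one _).symm)⟩
  rcases ob_cases (G := G) (ν := ν) (u := u) s.rev with ⟨b, -⟩ | ⟨b, -⟩ | ⟨b, f⟩
  · exact absurd (Fin.rev_eq_iff.1 b) a.2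
  · exact absurd (Fin.rev_eq_iff.1 b) a.1
  · exact ⟨_, mul_ne_zero H.c0 (Int.cast_ne_zero.2 ((by decide : ∀ s : Fin 8, s ≠ 0 ∧ s ≠ 7 →
      sg (iA s) (iB s) (iA s.rev) (iB s.rev) ≠ 0) s a)), by rw [e, f, H.lam_ww]⟩

theorem Hy.od_rev (H : Hy G ν u h l c) (s : Fin 8) : od h l s + od h l s.rev = 3 := by
  have := H.deg'
  fin_cases s
  · exact zero_add 3
  · show h 0 + h 1 + l + (h 2 + h 3 + l) = 3
    omega
  · show h 0 + h 2 + l + (h 1 + h 3 + l) = 3
    omega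
  · show h 1 + h 2 + l + (h 0 + h 3 + l) = 3
    omega
  · show h 0 + h 3 + l + (h 1 + h 2 + l) = 3
    omega
  · show h 1 + h 3 + l + (h 0 + h 2 + l) = 3
    omega
  · show h 2 + h 3 + l + (h 0 + h 1 + l) = 3
    omega
  · exact add_zero 3

theorem Hy.li (H : Hy G ν u h l c) : LinearIndependent K (ob G ν u) :=
  H.alg.li ν u H.ν0 (by rw [H.det]; exact mul_ne_zero H.c1 (pow_ne_zero 2 H.ν0))

theorem Hy.span (H : Hy G ν u h l c) : Submodule.span K (Set.range (ob G ν u)) = ⊤ :=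
  H.li.span_eq_top_of_card_eq_finrank (by rw [H.alg.rank, Fintype.card_fin])

theorem Hy.dual (H : Hy G ν u h l c) (k : ℤ) (x : BB G)
    (hx : ∀ j, ∀ y ∈ Ord G ν u h l j, lam G (x * y) ∈ AA (j + k - 3)) : x ∈ Ord G ν u h l k := by
  obtain ⟨a, rfl⟩ := (Submodule.mem_span_range_iff_exists_fun K).1
    (H.span ▸ Submodule.mem_top : x ∈ Submodule.span K (Set.range (ob G ν u)))
  refine mem_Sp.2 ⟨a, fun s => ?_, rfl⟩
  obtain ⟨e, e0, he⟩ := H.gram1 s
  have h1 := AA_mul (hx _ _ (ob_mem s.rev)) (AA_const e⁻¹)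
  rw [Finset.sum_mul, map_sum, Finset.sum_eq_single s (fun t _ ht => by
      rw [smul_mul_assoc, map_smul, H.gram0 (by rwa [Fin.rev_rev]), smul_zero])
    (fun k => absurd (Finset.mem_univ s) k), smul_mul_assoc, map_smul, he, smul_eq_mul, mul_assoc,
    ← map_mul, mul_inv_cancel₀ e0, map_one, mul_one] at h1
  exact AA_cast h1 (by have := H.od_rev s; omega)

end TabH

open TabH SndH in
theorem tab : stTAB := by
  intro G ν u h l c hG _ A ν0 c0 hd hh hi
  have H : Hy G ν u h l c := ⟨hG, A, ν0, c0, hd, hh, hi⟩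
  have F : Fam (Ord G ν u h l) := fam
  refine ⟨lat_Sp H.li H.span _, fun j k x hx y hy => ?_, H.mem, fun k x hx => ?_,
    fun k x hx => ?_, H.dual, fun S hS h1 hm => ?_⟩
  · refine H.le_of ((F.sh k).comap (LinearMap.mulRight K y))
      (show 1 * y ∈ Ord G ν u h l (0 + k) by rwa [one_mul, zero_add])
      (fun a b => mem_cast (H.mul_mem a b k y hy) (add_comm _ _))
      (fun a b d e => show _ * _ * y ∈ Ord G ν u h l (_ + k) from ?_) j hx
    rw [mul_assoc]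
    exact mem_cast (H.mul_mem a b _ _ (H.mul_mem d e k y hy)) (by ring)
  · have e : ∀ i j, tau G (m G ν u i j) = m G ν u j i := fun i j => by
      rw [m, tau_smul, tau_mm, m]
    refine H.le_of (F.comap (tauL G)) (show tau G 1 ∈ Ord G ν u h l 0 from ?_)
      (fun a b => show tau G _ ∈ Ord G ν u h l _ from ?_)
      (fun a b d f => show tau G _ ∈ Ord G ν u h l _ from ?_) k hx
    · rw [tau_one]
      exact one_mem
    · rw [e]
      exact mem_cast (H.mem b a) (by ring)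
    · rw [tau_mul, e, e]
      exact mem_cast (H.mem4 _ _ _ _) (by ring)
  · have hS := (fam_AA.sh (-3)).comap (lam G)
    have h2 : ∀ i j, lam G (m G ν u i j) ∈ AA (h i + h j + l + -3) := fun i j => by
      rw [H.lam_m]
      exact zero_mem _
    exact AA_cast (H.le_of hS (show lam G 1 ∈ AA _ by rw [A.lam_one]; exact zero_mem _) h2
      (H.four hS h2 (Or.inl (show lam G _ ∈ AA 0 by rw [H.lam_D]; exact AA_const c))) k hx)
      (by ring)
  · have h2 : ∀ i j, m G ν u i j ∈ S (h i + h j + l) := fun i j => by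
      have := hm i j 0 1 h1
      rwa [mul_one, add_zero] at this
    exact H.le_of hS h1 h2 fun a b d e => hm a b _ _ (h2 d e)

end Vale.Agent.P287Z.L
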