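import Vale.Agent.P287Z.L.Basic3
import Vale.Agent.P287Z.L.Sk

/-!
Vectors which are unimodular in codimension one.
-/

namespace Vale.Agent.P287Z.L

open MvPolynomial Module Filter Matrix UniqueFactorizationMonoid Vale.Agent.P287.Theta

namespace UniA

theorem pts {N : P3} (h : N ≠ 0) : ∃ Z : Finset (Fin 3 → ℂ), (∀ z ∈ Z, z ≠ 0) ∧
    ∀ g, HPrime g → g ∣ N → ∃ z ∈ Z, eval z g = 0 := by
  classical
  have k : ∀ q : P3, ∃ z : Fin 3 → ℂ, z ≠ 0 ∧ ((∃ z, z ≠ 0 ∧ eval z q = 0) → eval z q = 0) :=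
    fun q => (em (∃ z, z ≠ 0 ∧ eval z q = 0)).elim (fun ⟨z, a, b⟩ => ⟨z, a, fun _ => b⟩)
      fun a => ⟨1, one_ne_zero, fun b => absurd b a⟩
  choose z z1 z2 using k
  refine ⟨(factors N).toFinset.image z, fun _ a => ?_, fun g hg d => ?_⟩
  · obtain ⟨q, -, rfl⟩ := Finset.mem_image.1 a
    exact z1 q
  · obtain ⟨q, q1, q2⟩ := exists_mem_factors_of_dvd h hg.1.irreducible d
    obtain ⟨p, p1, p2⟩ := exists_point hg
    exact ⟨z q, Finset.mem_image_of_mem z (Multiset.mem_toFinset.2 q1), zero_dvd_iff.1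
      (z2 q ⟨p, p1, zero_dvd_iff.1 (p2 ▸ map_dvd (eval p) q2.dvd)⟩ ▸ map_dvd _ q2.symm.dvd)⟩

section det
variable {R ι : Type} [CommRing R] [Fintype ι] [DecidableEq ι] {g c : R} (M : Matrix ι ι R)

theorem dvd_det : g ∣ (M + c • (1 : Matrix ι ι R)).det ↔
    (-M.map (Ideal.Quotient.mk (Ideal.span {g}))).charpoly.eval (Ideal.Quotient.mk _ c) = 0 := by
  rw [← Ideal.mem_span_singleton, ← Ideal.Quotient.eq_zero_iff_mem, RingHom.map_det,
    Matrix.eval_charpoly, sub_neg_eq_add, add_comm (scalar ι _), map_add]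
  refine Eq.congr_left (congrArg (fun T => det (_ + T)) (Matrix.ext fun i j => ?_))
  by_cases k : i = j <;> simp [k]

theorem ndvd_det (hg : Prime g) (hc : ¬ g ∣ c) {H : R} (hH : g ∣ H) :
    ¬ g ∣ (H • M + c • (1 : Matrix ι ι R)).det := by
  have k : (H • M).map (Ideal.Quotient.mk (Ideal.span {g})) = 0 := Matrix.ext fun i j =>
    Ideal.Quotient.eq_zero_iff_mem.2 (Ideal.mem_span_singleton.2 (hH.mul_right _))
  rw [dvd_det, k, neg_zero, Matrix.charpoly_zero, Polynomial.eval_pow, Polynomial.eval_X, ← map_pow,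
    Ideal.Quotient.eq_zero_iff_mem, Ideal.mem_span_singleton]
  exact fun a => hc (hg.dvd_of_dvd_pow a)

end det

theorem gen {ι : Type} [Fintype ι] [DecidableEq ι] {N : P3} (h : N ≠ 0) (c : P3)
    (M : Matrix ι ι P3) : ∃ t : ℂ, ∀ g, Prime g → g ∣ N → ¬ g ∣ c →
      ¬ g ∣ (M + (C t * c) • (1 : Matrix ι ι P3)).det := by
  have k : ∀ g : P3, {t : ℂ | Prime g ∧ ¬ g ∣ c ∧
      g ∣ (M + (C t * c) • (1 : Matrix ι ι P3)).det}.Finite := fun g => by
    refine (em (Prime g ∧ ¬ g ∣ c)).elim (fun a => ?_) fun a =>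
      Set.finite_empty.subset fun t b => a ⟨b.1, b.2.1⟩
    have := (Ideal.Quotient.isDomain_iff_prime _).2
      ((Ideal.span_singleton_prime a.1.ne_zero).2 a.1)
    refine ((Polynomial.finite_setOfPred_isRoot (Matrix.charpoly_monic
      (-M.map (Ideal.Quotient.mk (Ideal.span {g})))).ne_zero).preimage
      (f := fun t : ℂ => Ideal.Quotient.mk (Ideal.span {g}) (C t * c)) fun t _ t' _ e => ?_).subset
      fun t b => (dvd_det M).1 b.2.2
    by_contra ne
    have e' := Ideal.mem_span_singleton.1 (Ideal.Quotient.eq.1 e)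
    rw [← sub_mul, ← C_sub] at e'
    exact a.2 (((Ne.isUnit (sub_ne_zero.2 ne)).map C).dvd_mul_left.1 e')
  obtain ⟨t, ht⟩ := ((factors N).finite_toSet.biUnion fun q _ => k q).exists_notMem
  refine ⟨t, fun g hg d n e => ht ?_⟩
  obtain ⟨q, q1, q2⟩ := exists_mem_factors_of_dvd h hg.irreducible d
  exact Set.mem_biUnion q1 ⟨q2.prime hg, fun a => n (q2.dvd.trans a), q2.symm.dvd.trans e⟩

variable {C : Cx} {k e : ℤ} {b b' : C.B} {M M' : Matrix (Fin 8) (Fin 8) P3} {g y : P3}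

/-- `M` is the matrix of the multiplication by `b` -/
structure Mx (k : ℤ) (b : C.B) (M : Matrix (Fin 8) (Fin 8) P3) : Prop where
  deg : ∀ s t, Hg (oz s + k - oz t) (M s t)
  val : ∀ s, b * C.o s = ∑ t, ev (M s t) • C.o t

theorem Mx.ex (c : Ctx C) (h : b ∈ C.O k) : ∃ M, Mx k b M := by
  choose a a1 a2 using fun s => mem_Sp.1 (c.tab.mul _ _ b h _ (self_mem_Sp C.o oz s))
  choose M m1 m2 using fun s t => mem_AA.1 (a1 s t)
  exact ⟨.of M, fun s t => (m1 s t).cast (by ring), fun s => by simp only [of_apply, m2, a2]⟩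

theorem Mx.smul (h : Mx k b M) (hy : Hg e y) : Mx (e + k) (ev y • b) (y • M) :=
  ⟨fun s t => (hy.mul (h.deg s t)).cast (by ring), fun s => by
    simp only [smul_mul_assoc, h.val, Finset.smul_sum, Matrix.smul_apply, smul_eq_mul, map_mul, mul_smul]⟩

theorem Mx.add (h : Mx k b M) (hy : Hg k y) :
    Mx k (b + ev y • 1) (M + y • (1 : Matrix (Fin 8) (Fin 8) P3)) := by
  refine ⟨fun s t => (h.deg s t).add ?_, fun s => ?_⟩
  · by_cases a : s = t
    · rw [a, Matrix.smul_apply, one_apply_eq, smul_eq_mul, mul_one]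
      exact hy.cast (by ring)
    · rw [Matrix.smul_apply, one_apply_ne a, smul_zero]
      exact hg_zero _
  · simp [add_mul, h.val, add_smul, Finset.sum_add_distrib, one_apply, apply_ite ev]

theorem li (c : Ctx C) : LinearIndependent K C.o :=
  c.alg.li 1 e4 one_ne_zero (by
    rw [show Matrix.of e4 = 1 from Matrix.ext fun i j => by simp [e4, Pi.single_apply, one_apply,
      eq_comm], det_one]; exact one_ne_zero)

theorem Mx.comb (h : Mx k b M) (t : Fin 8 → K) :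
    b * ∑ s, t s • C.o s = ∑ s, (t ᵥ* M.map ev) s • C.o s := by
  simp only [Finset.mul_sum, mul_smul_comm, h.val, Finset.smul_sum, smul_smul, vecMul, dotProduct,
    Finset.sum_smul, map_apply]
  exact Finset.sum_comm

theorem Mx.ne (c : Ctx C) (h : Mx k b M) (hb : b ≠ 0) : M.det ≠ 0 := fun a => by
  obtain ⟨t, t0, t1⟩ := (exists_vecMul_eq_zero_iff (M := M.map ev)).2
    ((ev.map_det M).symm.trans (by rw [a, map_zero]))
  have k := h.comb t
  simp only [t1, Pi.zero_apply, zero_smul, Finset.sum_const_zero] at k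
  exact t0 (funext (Fintype.linearIndependent_iff.1 (li c) t ((c.div b hb).mul_right_eq_zero.1 k)))

theorem Mx.loc (c : Ctx C) (h : Mx e b' M) (hg : ¬ g ∣ M.det) (hb : b * b' ∈ C.O (k + e)) :
    LocG C.O g k b := by
  have d : ∀ s t, Hg (-oz t - (-oz s - e)) (M s t) := fun s t => (h.deg s t).cast (by ring)
  have k1 := h.comb fun s => ev (M.adjugate 0 s)
  have k2 : (fun s => ev (M.adjugate 0 s)) ᵥ* M.map ev = Pi.single 0 (ev M.det) := funext fun t => by
    have := congrArg ev (congrFun (congrFun (adjugate_mul M) 0) t)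
    rw [mul_apply, map_sum] at this
    simp only [map_mul] at this
    refine this.trans ?_
    by_cases a : t = 0 <;> simp [a, one_apply, eq_comm]
  rw [k2, ← Fintype.linearCombination_apply (v := C.o) (f := Pi.single _ _),
    Fintype.linearCombination_apply_single] at k1
  refine ⟨_, _, ⟨_, hg_det M _ _ d, rfl, hg⟩, ?_⟩
  rw [show ev M.det • b = b * (ev M.det • C.o 0) from
    ((mul_smul_comm _ _ _).trans (congrArg _ (mul_one b))).symm, ← k1, ← mul_assoc]
  refine mem_cast (c.tab.mul _ _ _ hb _ (mem_Sp.2 ⟨_, fun s => (hg_adj M _ _ d 0 s).mem |> fun a =>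
    AA_cast (j := (∑ i, -oz i - ∑ i, (-oz i - e) - e) - oz s) a ?_, rfl⟩)) (by ring)
  rw [show oz 0 = 0 from rfl]
  ring

variable {X : OL C} {a : ℕ} {w : Fin a → X.V} {h : Fin a → ℤ} {p : Fin 3 → ℂ}

theorem comb (w : Fin a → X.V) (t : Fin 8 × Fin a → K) :
    ∑ s, t s • C.o s.1 • w s.2 = ∑ i, (∑ s, t (s, i) • C.o s) • w i := by
  simp only [Fintype.sum_prod_type_right, Finset.sum_smul, smul_assoc]

theorem OB.uniq (c : Ctx C) (o : OB X p w h) {β β' : Fin a → C.B}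
    (e : ∑ i, β i • w i = ∑ i, β' i • w i) : β = β' := by
  have sp := fun b : C.B => (Submodule.mem_span_range_iff_exists_fun K).1
    ((Gen.span (fun _ => rfl) c.tab.lat.full).ge (Submodule.mem_top (x := b)))
  choose t ht using sp
  have k := Fintype.linearIndependent_iffₛ.1 o.li (fun s => t (β s.2) s.1) (fun s => t (β' s.2) s.1)
    (by rw [comb, comb]; simpa only [ht] using e)
  exact funext fun i => by
    rw [← ht (β i), ← ht (β' i), show t (β i) = t (β' i) from funext fun s => k (s, i)]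

theorem OB.mem' (o : OB X p w h) (i : Fin a) : w i ∈ X.F (h i) := by
  simpa only [show C.o 0 = 1 from rfl, one_smul, show oz 0 = 0 from rfl, zero_add] using o.mem (0, i)

theorem OB.co (c : Ctx C) (o : OB X p w h) : ∃ d H, Hg d H ∧ eval p H ≠ 0 ∧
    (∀ k, ∀ x ∈ X.F k, ∃ β : Fin a → C.B, (∀ i, β i ∈ C.O (d + k - h i)) ∧
      ev H • x = ∑ i, β i • w i) ∧ ∀ (v : X.V) (β : Fin a → C.B), ev H • v = ∑ i, β i • w i →
      ∀ (b : C.B) k, b • v ∈ X.F k → ∀ i, b * β i ∈ C.O (d + k - h i) := by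
  obtain ⟨d, _, ⟨H, h1, rfl, h2⟩, h3⟩ := o.loc
  have k : ∀ k, ∀ x ∈ X.F k, ∃ β : Fin a → C.B, (∀ i, β i ∈ C.O (d + k - h i)) ∧
      ev H • x = ∑ i, β i • w i := fun k x hx => by
    obtain ⟨t, t1, t2⟩ := mem_Sp.1 (h3 k x hx)
    exact ⟨_, fun i => mem_Sp.2 ⟨_, fun s => AA_cast (t1 (s, i)) (by ring), rfl⟩,
      t2.symm.trans (comb w t)⟩
  refine ⟨d, H, h1, h2, k, fun v β e b j hb i => ?_⟩
  obtain ⟨γ, g1, g2⟩ := k _ _ hb
  rw [smul_comm, e, Finset.smul_sum] at g2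
  simp only [smul_smul] at g2
  exact congrFun (OB.uniq c o g2) i ▸ g1 i

end UniA

open UniA

theorem uni (hL : stLF) : stUNI := by
  classical
  intro C c X a ha h2
  obtain ⟨w, hw, o⟩ := hL C c X a ha {1} (by simp)
  obtain ⟨d, H, h1, h0, k1, k2⟩ := OB.co c (o 1 (by simp))
  have H0 : H ≠ 0 := fun e => h0 (by rw [e, map_zero])
  obtain ⟨Z, z1, z2⟩ := pts H0
  have z3 : ∀ z ∈ insert 1 Z, z ≠ 0 := Finset.forall_mem_insert .. |>.2 ⟨one_ne_zero, z1⟩
  obtain ⟨u, h, o'⟩ := hL C c X a ha _ z3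
  obtain ⟨l₀, l1, l2⟩ := exists_lin _ z3
  let i₀ : Fin a := ⟨0, by omega⟩
  have u1 := OB.mem' (o' 1 (Finset.mem_insert_self _ _)) i₀
  obtain ⟨β, b1, b2⟩ := k1 _ _ u1
  obtain ⟨i, hi⟩ : ∃ i, β i ≠ 0 := by
    by_contra! e
    simp only [e, zero_smul, Finset.sum_const_zero, smul_eq_zero, h1.ev_ne H0, false_or] at b2
    exact (o' 1 (Finset.mem_insert_self _ _)).li.ne_zero (0, i₀) (by rw [b2, smul_zero])
  have : Nontrivial (Fin a) := Fin.nontrivial_iff_two_le.2 h2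
  obtain ⟨j, hj⟩ := exists_ne i
  obtain ⟨e₀, e₂, he⟩ : ∃ e₀ e₂ : ℕ, e₀ + h i₀ = d + e₂ + hw j :=
    ⟨(d + hw j - h i₀).toNat, (h i₀ - d - hw j).toNat, by omega⟩
  have y0 : Hg e₀ (l₀ ^ e₀) := (l1.pow e₀).cast (mul_one _)
  have y1 : ev (l₀ ^ e₀) ≠ 0 := y0.ev_ne (pow_ne_zero _ fun e =>
    l2 1 (Finset.mem_insert_self _ _) (by rw [e, map_zero]))
  obtain ⟨Mi, mi⟩ := Mx.ex c (c.tab.lat.fam _ _ _ y0.mem _ (b1 i))
  obtain ⟨Mj, mj⟩ := Mx.ex c (c.tab.lat.fam _ _ _ y0.mem _ (b1 j))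
  have N0 := mi.ne c (smul_ne_zero y1 hi)
  obtain ⟨Z', z4, z5⟩ := pts N0
  obtain ⟨l₂, l3, l4⟩ := exists_lin _ z4
  obtain ⟨t, ht⟩ := gen N0 (H * (H * l₂ ^ e₂)) Mj
  have y2 : Hg e₂ (MvPolynomial.C t * l₂ ^ e₂) := ((l3.pow e₂).cast (mul_one _)).C_mul t
  set y := MvPolynomial.C t * l₂ ^ e₂
  have w1 := OB.mem' (o 1 (by simp)) j
  have hv : ev H • (ev (l₀ ^ e₀) • u i₀ + ev (H * y) • w j) = ∑ s, (ev (l₀ ^ e₀) • β s +
      (Pi.single j (ev (H * (H * y)) • 1) : Fin a → C.B) s) • w s := by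
    simp only [add_smul, Finset.sum_add_distrib, smul_assoc, ← Finset.smul_sum, ← b2, smul_add]
    rw [smul_comm, ← Fintype.linearCombination_apply, Fintype.linearCombination_apply_single,
      smul_assoc, one_smul, smul_smul (ev H), ← map_mul]
  refine ⟨e₀ + h i₀, ev (l₀ ^ e₀) • u i₀ + ev (H * y) • w j, add_mem (X.lat.fam.smul y0.mem u1 rfl)
    (X.lat.fam.smul (h1.mul y2).mem w1 he.symm), fun e => ?_,
    fun b k hb => c.tab.lat.refl _ _ fun g hg => ?_⟩
  · rw [e, smul_zero] at hv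
    have := congrFun (OB.uniq c (o 1 (by simp)) (β := 0)
      ((Finset.sum_eq_zero fun s _ => zero_smul _ _).trans hv)) i
    rw [Pi.single_eq_of_ne hj.symm, add_zero] at this
    exact smul_ne_zero y1 hi this.symm
  by_cases gH : g ∣ H
  · obtain ⟨z, a1, a2⟩ := z2 g hg gH
    have a3 := Finset.mem_insert_of_mem (b := 1) a1
    obtain ⟨d', H', h3, h4, k3, k4⟩ := OB.co c (o' z a3)
    obtain ⟨γ, g1, g2⟩ := k3 _ _ w1
    obtain ⟨M, m⟩ := Mx.ex c (c.tab.lat.fam _ _ _ y2.mem _ (g1 i₀))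
    have k5 := k4 (ev (l₀ ^ e₀) • u i₀ + ev (H * y) • w j) (fun s => ev H • ev y • γ s +
      (Pi.single i₀ (ev (H' * l₀ ^ e₀) • 1) : Fin a → C.B) s) (by
        simp only [add_smul, Finset.sum_add_distrib, smul_assoc, ← Finset.smul_sum, ← g2, smul_add]
        rw [← Fintype.linearCombination_apply, Fintype.linearCombination_apply_single,
          smul_assoc, one_smul, add_comm, smul_smul (ev H'), smul_smul (ev H'), ← map_mul,
          smul_smul, smul_smul, map_mul, map_mul, mul_comm (ev H'), map_mul ev H']) b _ hb i₀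
    rw [Pi.single_eq_same] at k5
    refine ((m.smul h1).add ((h3.mul y0).cast (by omega))).loc c (ndvd_det _ hg.1 (fun e => ?_) gH)
      (mem_cast k5 (by omega))
    have := zero_dvd_iff.1 (a2 ▸ map_dvd (eval z) e)
    rw [map_mul, map_pow] at this
    exact mul_ne_zero h4 (pow_ne_zero _ (l2 z a3)) this
  by_cases gN : g ∣ Mi.det
  · have k5 := k2 _ _ hv b _ hb j
    rw [Pi.single_eq_same] at k5
    obtain ⟨z, a1, a2⟩ := z5 g hg gN
    refine (mj.add ((h1.mul (h1.mul y2)).cast (by omega))).loc c ?_ (mem_cast k5 (by omega))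
    rw [show H * (H * y) = MvPolynomial.C t * (H * (H * l₂ ^ e₂)) by ring]
    refine ht g hg.1 gN fun e => (hg.1.dvd_or_dvd e).elim gH fun e =>
      (hg.1.dvd_or_dvd e).elim gH fun e => l4 z a1 ?_
    exact zero_dvd_iff.1 (a2 ▸ map_dvd (eval z) (hg.1.dvd_of_dvd_pow e))
  · have k5 := k2 _ _ hv b _ hb i
    rw [Pi.single_eq_of_ne hj.symm, add_zero] at k5
    exact mi.loc c gN (mem_cast k5 (by omega))

end Vale.Agent.P287Z.L
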