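import Vale.Agent.P287Z.L.Sk

/-!
The annihilator of a quotient of graded modules: the rows `VAN` and `FINZ`.
-/

namespace Vale.Agent.P287Z.L

open MvPolynomial Module Filter Matrix Vale.Agent.P287 Vale.Agent.P287.Theta

namespace VanAux

attribute [local instance] Polynomial.algebra in
/-- an ideal of `R[X]` without a common prime factor contains a constant -/
theorem elim {R : Type} [CommRing R] [IsDomain R] [UniqueFactorizationMonoid R]
    (J : Ideal (Polynomial R)) (h : ∀ g, Prime g → ∃ b ∈ J, ¬ g ∣ b) :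
    ∃ r, r ≠ 0 ∧ Polynomial.C r ∈ J := by
  by_contra hc
  push Not at hc
  let M : Submonoid (Polynomial R) := (nonZeroDivisors R).map Polynomial.C
  have : IsLocalization M (Polynomial (FractionRing R)) :=
    Polynomial.isLocalization (nonZeroDivisors R) (FractionRing R)
  have h1 : Disjoint (J : Set (Polynomial R)) M := Set.disjoint_left.2 fun a ha ⟨r, hr, e⟩ =>
    hc r (nonZeroDivisors.ne_zero hr) (by rw [e]; exact ha)
  obtain ⟨Q, hQ, hJQ, hd⟩ := J.exists_le_prime_disjoint M h1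
  have h2 : Q ≠ ⊥ := by
    rintro rfl
    obtain ⟨b, hb, hb'⟩ := h _ Polynomial.prime_X
    exact hb' (by rw [Ideal.mem_bot.1 (hJQ hb)]; exact dvd_zero _)
  obtain ⟨g, hg, hp⟩ := hQ.exists_mem_prime_of_ne_bot h2
  have h3 : Ideal.span {g} ≤ Q := (Ideal.span_singleton_le_iff_mem _).2 hg
  have h4 : (Ideal.span {g}).IsPrime := (Ideal.span_singleton_prime hp.ne_zero).2 hp
  have h5 : Disjoint (M : Set (Polynomial R)) (Ideal.span {g} : Ideal _) :=
    hd.symm.mono_right h3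
  have h6 := IsLocalization.isPrime_of_isPrime_disjoint M (Polynomial (FractionRing R)) _ h4 h5
  have h7 := IsLocalization.isPrime_of_isPrime_disjoint M (Polynomial (FractionRing R)) _ hQ hd.symm
  have k6 := IsLocalization.under_map_of_isPrime_disjoint M (Polynomial (FractionRing R)) h4 h5
  have k7 := IsLocalization.under_map_of_isPrime_disjoint M (Polynomial (FractionRing R)) hQ hd.symm
  have h8 : Ideal.map (algebraMap (Polynomial R) (Polynomial (FractionRing R)))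
      (Ideal.span {g}) ≠ ⊥ := fun e => by
    have h9 := Ideal.mem_map_of_mem (algebraMap (Polynomial R) (Polynomial (FractionRing R)))
      (Ideal.mem_span_singleton_self g)
    rw [e, Ideal.mem_bot, Polynomial.algebraMap_def, Polynomial.coe_mapRingHom,
      Polynomial.map_eq_zero_iff (IsFractionRing.injective R _)] at h9
    exact hp.ne_zero h9
  have h9 := (IsPrime.to_maximal_ideal h8).eq_of_le h7.ne_top (Ideal.map_mono h3)
  rw [h9, k7] at k6
  obtain ⟨b, hb, hb'⟩ := h g hp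
  exact hb' (Ideal.mem_span_singleton.1 (k6 ▸ hJQ hb))

theorem wt (s : Fin 3 →₀ ℕ) : Finsupp.weight (fun _ => (1 : ℤ)) s = s 0 + s 1 + s 2 := by
  rw [Finsupp.weight_apply, Finsupp.sum_fintype _ _ fun _ => by simp, Fin.sum_univ_three]
  simp

theorem hg_iff {n : ℕ} {p : P3} : Hg n p ↔ p.IsHomogeneous n := by
  have h (s : Fin 3 →₀ ℕ) : Finsupp.weight (1 : Fin 3 → ℕ) s = s 0 + s 1 + s 2 := by
    rw [Finsupp.weight_apply, Finsupp.sum_fintype _ _ fun _ => by simp, Fin.sum_univ_three]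
    simp
  refine forall₂_congr fun s _ => ?_
  rw [wt, h]
  omega

theorem hg_nat {d : ℤ} {p : P3} (h : Hg d p) (h0 : p ≠ 0) : ∃ n : ℕ, d = n := by
  obtain ⟨s, hs⟩ := ne_zero_iff.1 h0
  exact ⟨s 0 + s 1 + s 2, by rw [← h hs, wt]; push_cast; rfl⟩

theorem eval_smul {d : ℤ} {b : P3} (h : Hg d b) (t : ℂ) (p : Fin 3 → ℂ) :
    eval (t • p) b = t ^ d.toNat * eval p b := by
  induction h using IsWeightedHomogeneous.induction_on with
  | zero => simp
  | add a b _ _ ha hb => rw [map_add, map_add, ha, hb, mul_add]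
  | monomial s r hr =>
    have h1 : d.toNat = s 0 + s 1 + s 2 := by rw [wt] at hr; omega
    rw [eval_monomial, eval_monomial, Finsupp.prod_fintype _ _ fun _ => by simp,
      Finsupp.prod_fintype _ _ fun _ => by simp, Fin.prod_univ_three, Fin.prod_univ_three, h1]
    simp only [Pi.smul_apply, smul_eq_mul]
    ring

theorem elim' {A R : Type} [CommRing A] [CommRing R] [IsDomain R] [UniqueFactorizationMonoid R]
    (Φ : A ≃+* Polynomial R) (I : Ideal A) (h : ∀ g, Prime g → ∃ b ∈ I, ¬ g ∣ b) :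
    ∃ r, r ≠ 0 ∧ ∃ x ∈ I, Φ x = Polynomial.C r := by
  obtain ⟨r, hr, hr'⟩ := elim (I.comap Φ.symm) fun g hg => by
    obtain ⟨b, hb, hb'⟩ := h (Φ.symm g) ((MulEquiv.prime_iff Φ.symm).2 hg)
    refine ⟨Φ b, by simpa using hb, fun k => hb' ?_⟩
    simpa using map_dvd Φ.symm k
  exact ⟨r, hr, _, hr', Φ.apply_symm_apply _⟩

theorem ex_bin (I : Ideal P3) (h : ∀ g, Prime g → ∃ b ∈ I, ¬ g ∣ b) (σ : Equiv.Perm (Fin 3)) :
    ∃ r : MvPolynomial (Fin 2) ℂ, r ≠ 0 ∧
      ∃ x ∈ I, ∀ p : Fin 3 → ℂ, eval ![p (σ 1), p (σ 2)] r = eval p x := by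
  obtain ⟨r, hr, x, hx, h4⟩ :=
    elim' ((renameEquiv ℂ σ.symm).trans (finSuccEquiv ℂ 2)).toRingEquiv I h
  refine ⟨r, hr, x, hx, fun p => ?_⟩
  have h3 := eval_eq_eval_mv_eval' ![p (σ 1), p (σ 2)] (p (σ 0)) (rename σ.symm x)
  have h5 : (Fin.cons (p (σ 0)) ![p (σ 1), p (σ 2)] : Fin 3 → ℂ) ∘ σ.symm = p := by
    have : (Fin.cons (p (σ 0)) ![p (σ 1), p (σ 2)] : Fin 3 → ℂ) = p ∘ σ := by
      funext i; fin_cases i <;> rfl
    rw [this]; funext i; simp
  rw [AlgEquiv.coe_ringEquiv, AlgEquiv.trans_apply, renameEquiv_apply] at h4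
  rw [h4, eval_rename, h5, Polynomial.map_C, Polynomial.eval_C] at h3
  exact h3.symm

theorem ex_perm : ∀ i j : Fin 3, ¬ i = j → ∃ σ : Equiv.Perm (Fin 3), σ 1 = i ∧ σ 2 = j := by
  decide

/-- a cone cut out by an ideal without a common prime factor is a finite union of lines -/
theorem fin_cone (I : Ideal P3) (h : ∀ g, Prime g → ∃ b ∈ I, ¬ g ∣ b) (W : Set (Fin 3 → ℂ))
    (hW : ∀ p ∈ W, ∀ b ∈ I, eval p b = 0) (hc : ∀ p ∈ W, ∀ t : ℂ, t • p ∈ W)
    (σ : Equiv.Perm (Fin 3)) : {c | ∃ p ∈ W, p (σ 2) = 1 ∧ p (σ 1) = c}.Finite := by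
  obtain ⟨r, hr, x, hx, hx'⟩ := ex_bin I h σ
  have h1 : ∀ p ∈ W, eval ![p (σ 1), p (σ 2)] r = 0 := fun p hp => (hx' p).trans (hW p hp x hx)
  by_contra hi
  have h2 : ∀ c t : ℂ, eval ![c, t] (aeval ![X 0 * X 1, X 1] r : MvPolynomial (Fin 2) ℂ) =
      eval ![c * t, t] r := fun c t => by
    rw [aeval_def, eval_eval₂]
    congr 1
    · ext x; simp
    · funext i; fin_cases i <;> simp
  have h3 : (aeval ![X 0 * X 1, X 1] r : MvPolynomial (Fin 2) ℂ) = 0 := by
    refine funext_set ![{c | ∃ p ∈ W, p (σ 2) = 1 ∧ p (σ 1) = c}, Set.univ]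
      (fun i => by fin_cases i; exacts [hi, Set.infinite_univ]) fun x hx => ?_
    obtain ⟨p, hp, k1, k2⟩ := hx 0 trivial
    have h4 := h1 _ (hc p hp (x 1))
    have h5 : x = ![x 0, x 1] := by funext i; fin_cases i <;> rfl
    rw [h5, h2, map_zero, ← h4, Pi.smul_apply, Pi.smul_apply, k1, k2, smul_eq_mul, smul_eq_mul,
      mul_one, mul_comm]
  refine hr (funext_set ![Set.univ, {0}ᶜ] (fun i => by
    fin_cases i; exacts [Set.infinite_univ, (Set.finite_singleton 0).infinite_compl])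
    fun x hx => ?_)
  have h4 : x 1 ≠ 0 := hx 1 trivial
  have h5 : x = ![x 0 / x 1 * x 1, x 1] := by
    rw [div_mul_cancel₀ _ h4]; funext i; fin_cases i <;> rfl
  rw [h5, ← h2, h3, map_zero, map_zero]

section

variable {V : Type} [AddCommGroup V] [Module ℂ V] [Module K V] [IsScalarTower ℂ K V]
  {N N' : ℤ → Submodule ℂ V}

/-- the form `b` of degree `d` maps `N'` to `N` -/
def Gd (N N' : ℤ → Submodule ℂ V) (d : ℤ) (b : P3) : Prop :=
  Hg d b ∧ ∀ k, ∀ v ∈ N' k, ev b • v ∈ N (d + k)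

omit [IsScalarTower ℂ K V] in
theorem Gd.zero (d : ℤ) : Gd N N' d 0 :=
  ⟨isWeightedHomogeneous_zero _ _ _, fun k v _ => by rw [map_zero, zero_smul]; exact zero_mem _⟩

omit [IsScalarTower ℂ K V] in
theorem Gd.add {d : ℤ} {a b : P3} (ha : Gd N N' d a) (hb : Gd N N' d b) : Gd N N' d (a + b) :=
  ⟨IsWeightedHomogeneous.add ha.1 hb.1, fun k v hv => by
    rw [map_add, add_smul]; exact add_mem (ha.2 k v hv) (hb.2 k v hv)⟩

omit [IsScalarTower ℂ K V] in
theorem Gd.mul (hN : Fam N) {d d' : ℤ} {a b : P3} (ha : Hg d a) (hb : Gd N N' d' b) :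
    Gd N N' (d + d') (a * b) :=
  ⟨IsWeightedHomogeneous.mul ha hb.1, fun k v hv => by
    rw [map_mul, mul_smul, add_assoc]
    exact hN _ _ _ ⟨a, ha, rfl⟩ _ (hb.2 k v hv)⟩

omit [IsScalarTower ℂ K V] in
/-- the homogeneous elements of the ideal spanned by the good forms are good -/
theorem Gd.of_span (hN : Fam N) {x : P3} (hx : x ∈ Ideal.span {b | ∃ d, Gd N N' d b}) {d : ℤ}
    (hd : Hg d x) : Gd N N' d x := by
  have h : ∀ c, Gd N N' d (weightedHomogeneousComponent (fun _ => (1 : ℤ)) d (c * x)) := by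
    clear hd
    induction hx using Submodule.span_induction with
    | mem b hb =>
      obtain ⟨d', hb⟩ := hb
      intro c
      induction c using MvPolynomial.induction_on' with
      | monomial s r =>
        have h1 := Gd.mul hN (isWeightedHomogeneous_monomial _ s r rfl) hb
        rw [weightedHomogeneousComponent_of_mem h1.1]
        split_ifs with k
        · exact k ▸ h1
        · exact Gd.zero d
      | add p q hp hq => rw [add_mul, map_add]; exact hp.add hq
    | zero => intro c; rw [mul_zero, map_zero]; exact Gd.zero d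
    | add a b _ _ ha hb => intro c; rw [mul_add, map_add]; exact (ha c).add (hb c)
    | smul a b _ hb => intro c; rw [smul_eq_mul, ← mul_assoc]; exact hb _
  have h1 := h 1
  rwa [one_mul, weightedHomogeneousComponent_eq_self hd] at h1

/-- the product of forms which work for the generators is good -/
theorem Gd.prod (hN : Fam N) {n : ℕ} {u : Fin n → V} {e : Fin n → ℤ} (hg : Gen N' u e)
    {d : Fin n → ℤ} {b : Fin n → P3} (hb : ∀ i, Hg (d i) (b i))
    (hu : ∀ i, ev (b i) • u i ∈ N (d i + e i)) : Gd N N' (∑ i, d i) (∏ i, b i) := by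
  refine ⟨IsWeightedHomogeneous.prod _ _ _ fun i _ => hb i, fun k v hv => ?_⟩
  rw [hg k] at hv
  obtain ⟨c, hc, rfl⟩ := hv
  rw [LinearMap.restrictScalars_apply, Fintype.linearCombination_apply, Finset.smul_sum]
  refine Submodule.sum_mem _ fun i _ => ?_
  obtain ⟨a, ha, ha'⟩ := hc i trivial
  have h1 : Hg (∑ j ∈ Finset.univ.erase i, d j) (∏ j ∈ Finset.univ.erase i, b j) :=
    IsWeightedHomogeneous.prod _ _ _ fun j _ => hb j
  have h2 := hN _ _ _ ⟨_, IsWeightedHomogeneous.mul h1 ha, rfl⟩ _ (hu i)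
  have h3 : ∑ j ∈ Finset.univ.erase i, d j + (k - e i) + (d i + e i) = ∑ j, d j + k := by
    rw [← Finset.sum_erase_add _ _ (Finset.mem_univ i)]; ring
  rw [h3] at h2
  rw [← ha', ← Finset.prod_erase_mul _ _ (Finset.mem_univ i), smul_smul]
  rw [smul_smul] at h2
  have h4 : ev ((∏ j ∈ Finset.univ.erase i, b j) * b i) * ev.toLinearMap a =
      ev.toLinearMap ((∏ j ∈ Finset.univ.erase i, b j) * a) * ev (b i) := by
    simp only [AlgHom.toLinearMap_apply, map_mul]; ring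
  rwa [h4]

theorem gen_mem {n : ℕ} {u : Fin n → V} {e : Fin n → ℤ} (hg : Gen N' u e) (i : Fin n) :
    u i ∈ N' (e i) := by
  rw [hg]
  refine ⟨Pi.single i 1, fun j _ => ?_, by simp⟩
  by_cases h : j = i
  · subst h
    exact ⟨1, by rw [sub_self]; exact isWeightedHomogeneous_one _ _, by simp⟩
  · rw [Pi.single_eq_of_ne h]; exact zero_mem _

omit [IsScalarTower ℂ K V] in
theorem Gd.large (hN : Fam N) {n : ℕ} (h : ∀ i, Gd N N' n (X i ^ n)) {d : ℤ} (hd : 3 * n ≤ d)
    {p : P3} (hp : Hg d p) : Gd N N' d p := by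
  induction hp using IsWeightedHomogeneous.induction_on with
  | zero => exact Gd.zero d
  | add a b _ _ ha hb => exact ha.add hb
  | monomial s r hr =>
    obtain ⟨i, hi⟩ : ∃ i, n ≤ s i := by
      by_contra k
      push Not at k
      have := k 0; have := k 1; have := k 2
      rw [wt] at hr
      omega
    refine Gd.of_span hN ?_ (isWeightedHomogeneous_monomial _ s r hr)
    have h1 : monomial s r = monomial (s - Finsupp.single i n) r * X i ^ n := by
      rw [X_pow_eq_monomial, monomial_mul, mul_one,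
        tsub_add_cancel_of_le (Finsupp.single_le_iff.2 hi)]
    rw [h1]
    exact Ideal.mul_mem_left _ _ (Ideal.subset_span ⟨_, h i⟩)

end

end VanAux

open VanAux

theorem van : stVAN := by
  intro V _ _ _ _ N N' hN ⟨m, u, e, hg⟩ hle h
  have h1 : ∀ i : Fin 3, ∃ n : ℕ, (X i : P3) ^ n ∈ Ideal.span {b | ∃ d, Gd N N' d b} := fun i => by
    refine Ideal.mem_radical_iff.1 ?_
    rw [← vanishingIdeal_zeroLocus_eq_radical (K := ℂ)]
    intro p hp
    by_cases h0 : p = 0
    · simp [h0]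
    · choose d y hy hy' using fun a => h p h0 _ _ (gen_mem hg a)
      choose b k1 k2 k3 using hy
      have h2 := hp _ (Ideal.subset_span ⟨_, Gd.prod hN hg k1 fun a => by rw [k2]; exact hy' a⟩)
      rw [aeval_eq_eval, map_prod] at h2
      exact absurd h2 (Finset.prod_ne_zero_iff.2 fun a _ => k3 a)
  choose n hn using h1
  have h2 : ∀ i, Gd N N' (∑ j, n j : ℕ) (X i ^ ∑ j, n j) := fun i =>
    Gd.of_span hN (Ideal.pow_mem_of_pow_mem _ (hn i)
      (Finset.single_le_sum (fun _ _ => Nat.zero_le _) (Finset.mem_univ i)))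
      (hg_iff.2 (isHomogeneous_X_pow i _))
  refine ⟨?_, ∑ j, n j, fun i k v hv => ?_⟩
  · have h3 : ∀ᶠ k in atTop, ∀ a, e a + 3 * (∑ j, n j : ℕ) ≤ k :=
      eventually_all.2 fun a => eventually_ge_atTop _
    filter_upwards [h3] with k hk
    refine le_antisymm (hle k) fun v hv => ?_
    rw [hg k] at hv
    obtain ⟨c, hc, rfl⟩ := hv
    rw [LinearMap.restrictScalars_apply, Fintype.linearCombination_apply]
    refine Submodule.sum_mem _ fun a _ => ?_
    obtain ⟨p, hp, hp'⟩ := hc a trivial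
    have h4 := (Gd.large hN h2 (by linarith [hk a]) hp).2 _ _ (gen_mem hg a)
    rw [sub_add_cancel] at h4
    rw [← hp']
    exact h4
  · have h3 := (h2 i).2 k v hv
    rwa [map_pow, ev, aeval_X, add_comm] at h3

theorem finz : stFINZ := by
  intro V _ _ _ _ N N' hN ⟨m, u, e, hg⟩ h
  have h1 : ∀ g, HPrime g → ∃ d b, Gd N N' d b ∧ ¬ g ∣ b := fun g hp => by
    choose d y hy hy' using fun a => h g hp _ _ (gen_mem hg a)
    choose b k1 k2 k3 using hy
    refine ⟨_, _, Gd.prod hN hg k1 fun a => by rw [k2]; exact hy' a, fun k => ?_⟩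
    obtain ⟨a, -, ha⟩ := hp.1.exists_mem_finset_dvd k
    exact k3 a ha
  have h2 : ∀ g, Prime g → ∃ b ∈ Ideal.span {b | ∃ d, Gd N N' d b}, ¬ g ∣ b := fun g hp => by
    obtain ⟨d, b, k1, k2⟩ := h1 (X 0) ⟨X_prime, 1, isWeightedHomogeneous_X _ _ _⟩
    by_cases k : g ∣ b
    · have h0 : b ≠ 0 := fun k => k2 (k ▸ dvd_zero _)
      obtain ⟨n, rfl⟩ := hg_nat k1.1 h0
      obtain ⟨c, rfl⟩ := k
      obtain ⟨l, hl⟩ := homog_of_mul (hg_iff.1 k1.1) h0
      obtain ⟨d', b', k3, k4⟩ := h1 g ⟨hp, l, hg_iff.2 hl⟩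
      exact ⟨b', Ideal.subset_span ⟨_, k3⟩, k4⟩
    · exact ⟨b, Ideal.subset_span ⟨_, k1⟩, k⟩
  let W : Set (Fin 3 → ℂ) := {p | ∀ d b, Gd N N' d b → eval p b = 0}
  have hc : ∀ p ∈ W, ∀ t : ℂ, t • p ∈ W := fun p hp t d b hb => by
    rw [eval_smul hb.1, hp d b hb, mul_zero]
  have h3 := fin_cone _ h2 W (fun p hp b hb => (Ideal.span_le (I := RingHom.ker (eval p))).2
    (fun b hb => hb.elim fun d k => hp d b k) hb) hc
  have h4 := Set.Finite.pi' (ι := Fin 3) fun _ => ((Set.finite_iUnion h3).insert 1)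
  refine ⟨(h4.sdiff (t := {0})).toFinset, fun z hz => ((Set.Finite.mem_toFinset _).1 hz).2,
    fun p h0 hp k v hv => ?_⟩
  have h5 : p ∉ W := fun hW => by
    obtain ⟨j, hj⟩ := Function.ne_iff.1 h0
    have k1 : ((p j)⁻¹ • p) j = 1 := inv_mul_cancel₀ hj
    refine hp ((p j)⁻¹ • p) ((Set.Finite.mem_toFinset _).2 ⟨fun i => ?_, fun k => ?_⟩) (p j)
      (smul_inv_smul₀ hj p).symm
    · by_cases hi : i = j
      · exact Or.inl (hi ▸ k1)
      · obtain ⟨σ, s1, s2⟩ := ex_perm i j hi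
        exact Or.inr (Set.mem_iUnion.2 ⟨σ, _, hc p hW (p j)⁻¹, by rw [s2, k1], by rw [s1]⟩)
    · rw [Set.mem_singleton_iff.1 k] at k1
      exact zero_ne_one k1
  obtain ⟨d, hd⟩ := not_forall.1 h5
  obtain ⟨b, hb⟩ := not_forall.1 hd
  obtain ⟨k1, k2⟩ := Classical.not_imp.1 hb
  exact ⟨d, _, ⟨b, k1.1, rfl, k2⟩, k1.2 k v hv⟩

end Vale.Agent.P287Z.L
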