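import Vale.Agent.P287Z.L.Wdg1

/-!
The Hilbert polynomial of the second exterior power of a lattice of rank four.
-/

namespace Vale.Agent.P287Z.L

open MvPolynomial Module Filter Matrix Vale.Agent.P287 Vale.Agent.P287.Theta Noe

namespace Wdg

section
variable {F ι κ : Type} [Field F] [Fintype κ]

/-- the first map of the complex -/
def ph2 (S : Matrix ι κ F) : Matrix κ κ F →ₗ[F] Matrix κ ι F where
  toFun Z := Z * Sᵀ
  map_add' _ _ := Matrix.add_mul _ _ _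
  map_smul' _ _ := Matrix.smul_mul _ _ _

/-- the second map of the complex -/
def ps2 (S : Matrix ι κ F) : Matrix κ ι F →ₗ[F] Matrix ι ι F where
  toFun Y := S * Y - (S * Y)ᵀ
  map_add' _ _ := by
    rw [Matrix.mul_add, transpose_add]
    abel
  map_smul' _ _ := by rw [Matrix.mul_smul, transpose_smul, ← smul_sub, RingHom.id_apply]

end

variable {ι κ : Type} [Fintype ι] [Fintype κ] [DecidableEq κ] {S : Matrix ι κ K} {e : ι → ℤ}
  {d : κ → ℤ}

/-- local left inverses -/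
def Loc (S : Matrix ι κ K) (e : ι → ℤ) (d : κ → ℤ) : Prop := ∀ p : Fin 3 → ℂ, p ≠ 0 →
  ∃ (D : ℤ) (y : K) (r : Matrix κ ι K), U1 p D y ∧ (∀ j a, r j a ∈ AA (D + e a - d j)) ∧
    r * S = y • (1 : Matrix κ κ K)

theorem Loc.inj (h : Loc S e d) : Function.Injective ((ph2 S).restrictScalars ℂ) := by
  obtain ⟨p, hp, -⟩ := exists_point (hprime_X 0)
  obtain ⟨D, y, r, y1, -, y3⟩ := h p hp
  exact (injective_iff_map_eq_zero _).2 fun Z hZ => canc y3 y1.ne hZ

theorem ex3 (hS : ∀ a j, S a j ∈ AA (d j - e a)) (h : Loc S e d) (k : ℤ) :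
    MM d e k ⊓ LinearMap.ker ((ps2 S).restrictScalars ℂ) =
      (MM d d k ⊓ Sm ℂ K κ).map ((ph2 S).restrictScalars ℂ) := by
  apply le_antisymm
  · rintro Y ⟨h1, h2⟩
    have h3 : (S * Y)ᵀ = S * Y := (sub_eq_zero.1 h2).symm
    obtain ⟨p, hp, -⟩ := exists_point (hprime_X 0)
    obtain ⟨D, y, r, y1, -, y3⟩ := h p hp
    have h4 : (y⁻¹ • (r * Yᵀ)) * Sᵀ = Y := by
      rw [Matrix.smul_mul, lift_sm y3 h3, inv_smul_smul₀ y1.ne]
    refine ⟨y⁻¹ • (r * Yᵀ), ⟨fun j l => ra fun g hg => ?_, sm_of y3 y1.ne (by rwa [h4])⟩, h4⟩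
    obtain ⟨q, hq, q1⟩ := exists_point hg
    obtain ⟨D', y', r', z1, z2, z3⟩ := h q hq
    have h5 : y' • y⁻¹ • (r * Yᵀ) - r' * Yᵀ = 0 := canc y3 y1.ne (by
      rw [Matrix.sub_mul, Matrix.smul_mul, h4, lift_sm z3 h3, sub_self])
    exact ⟨D', y', z1.ug q1, Set.mem_of_eq_of_mem (congrFun (congrFun (sub_eq_zero.1 h5) j) l)
      (mulA (h := fun j l => D' + (k - (d j + d l))) z2 (fun a l => h1 l a) (by intros; ring) j l)⟩
  · rintro _ ⟨Z, ⟨h1, h2⟩, rfl⟩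
    refine ⟨mulA h1 (fun j a => hS a j) (by intros; ring), ?_⟩
    have h3 : Zᵀ = Z := h2
    show S * (Z * Sᵀ) - (S * (Z * Sᵀ))ᵀ = 0
    rw [transpose_mul, transpose_mul, transpose_transpose, h3, Matrix.mul_assoc, sub_self]

variable {W : Type} [AddCommGroup W] [Module ℂ W] [Module K W] [IsScalarTower ℂ K W]
  {ω : (Fin 4 → K) →ₗ[K] (Fin 4 → K) →ₗ[K] W} {u : ι → Fin 4 → K}

omit [Fintype ι] in
theorem fam_as (e : ι → ℤ) : Fam fun k => MM e e k ⊓ As ℂ K ι := fun _ _ a ha _ h =>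
  ⟨smulM ha h.1, smulA a h.2⟩

theorem ex2 (hV : stVAN) (hN : stNOETH) (h6 : finrank K W = 6) (h0 : ∀ v, ω v v = 0)
    (hs : Submodule.span K {y | ∃ v w, y = ω v w} = ⊤) (hS : ∀ a j, S a j ∈ AA (d j - e a))
    (h : Loc S e d) (h1 : (of u)ᵀ * S = 0) (h2 : ∀ v, (of u)ᵀ *ᵥ v = 0 → ∃ c, v = S *ᵥ c) :
    ∀ᶠ k in atTop, (MM d e k).map ((ps2 S).restrictScalars ℂ) =
      MM e e k ⊓ As ℂ K ι ⊓ LinearMap.ker ((th ω u).restrictScalars ℂ) := by
  classical
  refine (hV _ _ (fun k => MM e e k ⊓ As ℂ K ι ⊓ LinearMap.ker ((th ω u).restrictScalars ℂ))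
    (fam (fg_map (fg_MM d e) _)) (hN _ _ _ (fg_MM e e) (fun D k a ha T hT =>
    ⟨fam_as e D k a ha T hT.1, (map_smul (th ω u) a T).trans
      ((congrArg (a • ·) hT.2).trans (smul_zero a))⟩) fun k T hT => hT.1.1) (fun k => ?_)
    fun p hp k T hT => ?_).1
  · rintro _ ⟨Y, hY, rfl⟩
    have k1 := mulA (h := fun a b => k - (e a + e b)) hS hY (by intros; ring)
    have k2 : (S * Y - (S * Y)ᵀ)ᵀ = -(S * Y - (S * Y)ᵀ) := by
      rw [transpose_sub, transpose_transpose, neg_sub]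
    refine ⟨⟨fun a b => sub_mem (k1 a b) (AA_cast (k1 b a) (by ring)), k2⟩,
      (ker_th h6 h0 hs u k2).2 ?_⟩
    have k3 : Sᵀ * of u = 0 := by
      rw [← transpose_transpose (of u), ← transpose_mul, h1, transpose_zero]
    rw [Matrix.mul_sub, Matrix.sub_mul, ← Matrix.mul_assoc, h1, transpose_mul, Matrix.mul_assoc _
      (Yᵀ * Sᵀ), Matrix.mul_assoc Yᵀ, k3]
    simp
  · obtain ⟨D, y, r, y1, y2, y3⟩ := h p hp
    have k1 := two_sided (P := y • (1 : Matrix ι ι K) - S * r) (fun v hv => by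
      obtain ⟨c, rfl⟩ := h2 v hv
      rw [mulVec_mulVec, Matrix.sub_mul, Matrix.mul_assoc, y3, Matrix.mul_smul, Matrix.smul_mul,
        Matrix.mul_one, Matrix.one_mul, sub_self, zero_mulVec]) ((ker_th h6 h0 hs u hT.1.2).1 hT.2)
    have k2 := mulA (h := fun j b => D + k - (d j + e b)) y2 hT.1.1 (by intros; ring)
    have k3 := mulA (h := fun j b => D + D + k - (d j + e b)) (mulA
      (h := fun j l => D + D + k - (d j + d l)) k2 (fun b l => y2 l b) (by intros; ring))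
      (fun l b => hS b l) (by intros; ring)
    refine ⟨_, _, y1.mul y1, _, sub_mem (fun j b => AA_cast (AA_mul y1.mem (k2 j b)) (by ring))
      fun j b => AA_cast (AA_mul (y := _) ?_ (k3 j b)) (zero_add _), lift_as hT.1.2 k1⟩
    simpa only [map_inv₀, map_ofNat] using AA_const 2⁻¹

end Wdg

open Wdg

theorem wedge (hH : stHULL) (hR : stRES) (hD : stRSD) (hP : stSPLIT) (hV : stVAN) (hL : stLFA)
    (hN : stNOETH) : stWEDGE := by
  intro W _ _ _ _ _ ω U c x h6 h0 hs hU hp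
  obtain ⟨n₀, u, e, hg⟩ := hU.fg
  obtain ⟨n₁, S, d, hS⟩ := hR _ U n₀ u e (sat_of hU.refl) hg
  obtain ⟨r1, r2⟩ := hD _ U n₀ n₁ u e S d hS
  replace r2 : (n₀ : ℤ) = 4 + n₁ := by
    rw [← r2 hU.full]
    simp
  have s1 : ∀ a j, S.map ev a j ∈ AA (d j - e a) := fun a j => (hS.deg a j).mem
  have s2 : Loc (S.map ev) e d := fun p hp => loc hS.deg hp (hP _ U n₀ n₁ u e S d hU.refl hS p hp)
  have one : ∀ {V : Type} [AddCommGroup V] [Module ℂ V] [Module K V] [IsScalarTower ℂ K V] {n : ℕ}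
      (u : Fin n → V) (e : Fin n → ℤ) (a : Fin n), u a ∈ Sp u e (e a) := fun u e a =>
    sp.2 ⟨Pi.single a 1, fun i => by
      by_cases h : i = a
      · rw [h, Pi.single_eq_same, sub_self]; exact AA_one
      · rw [Pi.single_eq_of_ne h]; exact zero_mem _, by simp [Pi.single_apply]⟩
  have s3 : (of u)ᵀ * S.map ev = 0 := Matrix.ext fun i j => congrFun
    ((pi_mul u fun a => ev (S a j)).trans
      ((hS.syz (d j)).ge (one (fun j i => ev (S i j)) d j)).2) i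
  have s4 : ∀ v, (of u)ᵀ *ᵥ v = 0 → ∃ c, v = S.map ev *ᵥ c := fun v hv => by
    obtain ⟨D, y, y0, -, hy⟩ := exists_frac_fun v
    obtain ⟨m, hm⟩ := Finite.exists_le e
    have k1 : y • v ∈ Syz u e (D + m) := ⟨fun a _ => AA_mono (by linarith [hm a]) (hy a), by
      show Fintype.linearCombination K u (y • v) = 0
      rw [map_smul, Fintype.linearCombination_apply, ← pi_mul, hv, smul_zero]⟩
    obtain ⟨c, -, c2⟩ := sp.1 (hS.syz _ ▸ k1)
    refine ⟨y⁻¹ • c, ?_⟩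
    rw [mulVec_smul, eq_inv_smul_iff₀ y0, ← c2, ← transpose_transpose (S.map ev), mulVec_transpose,
      vecMul_eq_sum]
    rfl
  have u1 : ∀ a, u a ∈ U (e a) := fun a => hg _ ▸ one u e a
  have b1 : ∀ k, bil ω U U k = (MM e e k ⊓ As ℂ K _).map ((th ω u).restrictScalars ℂ) := fun k => by
    apply le_antisymm
    · intro v hv
      have := bil_loc (D := 0) (y := 1) h0 (fun k v hv => by rwa [one_smul, zero_add, ← hg]) hv
      rwa [one_mul, one_smul, zero_add, zero_add] at this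
    · rintro _ ⟨T, hT, rfl⟩
      exact th_mem hU.fam u1 hT.1
  have b2 : FG (bil ω U U) := funext b1 ▸ fg_map (hN _ _ _ (fg_MM e e) (fam_as e)
    fun _ => inf_le_left) _
  have b3 : Full (bil ω U U) := fun v => by
    have k1 : ∀ v, ∃ c : Fin n₀ → K, ∑ a, c a • u a = v := fun v => by
      obtain ⟨k, y, y0, hy⟩ := hU.full v
      obtain ⟨c, -, c2⟩ := sp.1 (hg k ▸ hy)
      exact ⟨fun a => y⁻¹ * c a, by
        simp only [mul_smul, ← Finset.smul_sum, c2, inv_smul_smul₀ y0]⟩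
    obtain ⟨T, rfl⟩ : v ∈ LinearMap.range (th ω u) := by
      refine (Submodule.span_le.2 ?_ : _ ≤ LinearMap.range (th ω u)) (hs ▸ Submodule.mem_top)
      rintro _ ⟨v, w, rfl⟩
      obtain ⟨c, rfl⟩ := k1 v
      obtain ⟨c', rfl⟩ := k1 w
      exact ⟨_, (om_sum u c c').symm⟩
    obtain ⟨D, y, y0, -, hy⟩ := exists_frac_fun fun q : Fin n₀ × Fin n₀ => T q.1 q.2
    obtain ⟨m, hm⟩ := Finite.exists_le e
    exact ⟨D + m + m, y, y0, map_smul (th ω u) y T ▸ th_mem hU.fam u1 fun a b =>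
      AA_mono (by linarith [hm a, hm b]) (hy (a, b))⟩
  have b4 := hH _ _ b2 b3
  have b5 := (hV _ _ _ (fam b2) b4.fg (fun k v hv => Submodule.subset_span fun g hg =>
    ⟨0, 1, ug_one hg.1, by rwa [one_smul, zero_add]⟩) fun p hp =>
      let ⟨_, _, h⟩ := hL _ U hU p hp
      hull_loc h6 h0 hs hU.fam (fam b2) h).1
  obtain ⟨m, hm⟩ := Int.even_mul_succ_self c
  have n1 : ∀ᶠ k : ℤ in atTop, 2 * c * k + 2 * x = 8 - (2 * k + 3) * (∑ a, e a - ∑ j, d j) +
      (∑ a, e a ^ 2 - ∑ j, d j ^ 2) := by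
    filter_upwards [hp, ev1 e, ev1 d] with k k1 k2 k3
    have k4 := congrArg (Nat.cast : ℕ → ℤ) (r1 k)
    rw [Nat.cast_add, Fr, Fr, fr_pi, fr_pi] at k4
    rw [Fintype.card_fin] at k2 k3
    rw [r2] at k2
    linear_combination k2 - k1 - k3 + 2 * k4
  obtain ⟨k₀, n2⟩ := eventually_atTop.1 n1
  have n3 := n2 k₀ le_rfl
  have n4 := n2 (k₀ + 1) (by omega)
  have n5 : c = -(∑ a, e a - ∑ j, d j) := by linarith
  refine ⟨b4, 2 * x - 2 + m + c, ?_, by linear_combination -hm⟩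
  filter_upwards [b5, ex2 hV hN h6 h0 hs s1 s2 s3 s4, ev2 e e, ev2 d d, ev2 d e,
    ev1 fun a => e a + e a, ev1 fun j => d j + d j] with k k1 k2 k3 k4 k5 k6 k7
  obtain ⟨a1, a2⟩ := dims (fun a b => AA (k - (e a + e b))) fun a b => by rw [add_comm]
  obtain ⟨a3, a4⟩ := dims (fun a b => AA (k - (d a + d b))) fun a b => by rw [add_comm]
  have : FiniteDimensional ℂ (MM e e k ⊓ As ℂ K _ : Submodule ℂ _) :=
    Submodule.finiteDimensional_inf_left _ _
  have a5 := fr_map ((th ω u).restrictScalars ℂ) (MM e e k ⊓ As ℂ K _)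
  have a6 := fr_map ((ps2 (S.map ev)).restrictScalars ℂ) (MM d e k)
  rw [← b1, k1, ← k2] at a5
  rw [ex3 s1 s2, ← (Submodule.equivMapOfInjective _ s2.inj _).finrank_eq, fr_mt] at a6
  simp only [Fintype.card_fin, r2, ← two_mul, mul_pow, ← Finset.mul_sum] at k3 k4 k5 k6 k7
  rw [← a1] at k3
  rw [← a3] at k4
  zify at a2 a4 a5 a6
  push_cast at k3 k4 k5 k6 k7
  subst n5
  refine mul_left_cancel₀ two_ne_zero ?_
  linear_combination 4 * a5 - 4 * a6 + k3 + 2 * a2 - k6 + k4 - 2 * a4 + k7 - 2 * k5 - 4 * n3 + 2 * hm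

end Vale.Agent.P287Z.L
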