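import Vale.Agent.P287Z.L.A1a
import Vale.Agent.P287Z.L.A1b
import Vale.Agent.P287Z.L.Bgg
import Vale.Agent.P287Z.L.Ctx
import Vale.Agent.P287Z.L.Det
import Vale.Agent.P287Z.L.Dual
import Vale.Agent.P287Z.L.Ev
import Vale.Agent.P287Z.L.Fib
import Vale.Agent.P287Z.L.H1
import Vale.Agent.P287Z.L.Hom
import Vale.Agent.P287Z.L.Iso
import Vale.Agent.P287Z.L.Lf
import Vale.Agent.P287Z.L.Noe2
import Vale.Agent.P287Z.L.Olm
import Vale.Agent.P287Z.L.Ort
import Vale.Agent.P287Z.L.Pts
import Vale.Agent.P287Z.L.Qd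
import Vale.Agent.P287Z.L.Res
import Vale.Agent.P287Z.L.Snd
import Vale.Agent.P287Z.L.Spl
import Vale.Agent.P287Z.L.Step
import Vale.Agent.P287Z.L.Sym
import Vale.Agent.P287Z.L.Symm
import Vale.Agent.P287Z.L.Tab
import Vale.Agent.P287Z.L.Uni
import Vale.Agent.P287Z.L.V2
import Vale.Agent.P287Z.L.Van
import Vale.Agent.P287Z.L.Wdg
import Vale.Agent.P287Z.V.Glu
import Vale.Agent.P287Z.V.Par
import Vale.Agent.P287Z.V.Qf
import Vale.Agent.P287Z.V.Wt
import Vale.Agent.P287Z.T3.Top
import Vale.Agent.P287Z.T3.Cm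
import Vale.Agent.P287Z.T.Fin

/-!
Assembly of Theorem A.
-/

universe w w'

namespace Vale.Agent.P287Z.L

theorem thmA_of' (hA : stALG) (hD : stDIV) : ThmA.{w, w'} := by
  have hres := res noeth mg
  have hhpx := hpx hres rsd
  have hlfa := lfa hres rsd split
  have hdet := det hres rsd split
  have hhull := hull_lat noeth
  have hdual := dual_lat noeth hres rsd split van
  have hlf := lf ort fib hlfa hdet
  have hhom := hom noeth
  have hqd := qd hdet hdual
  have hctx := ctx hA snd hD tab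
  refine T3.thmA_of T.t2 (T3.main3 (olm hctx ?_) hctx ev_cm hhom hhpx)
  exact ⟨hhom, hhpx, sum hhom hhpx, iso, o1, symm hhom hlf hdual hhpx, h1 hhom hlf hdet,
    step (uni hlf) (pts noeth van finz ort hlf hhom) hhull hhom iso hhpx,
    a1a hhull hlf (pic hlfa hdet),
    a1b hdet (wedge hhull hres rsd split van hlfa noeth) hqd hhpx hhom,
    V.qf' hqd (sym noeth mg hres hdual van) (G.glue noeth) (V.par hres rsd split) hhpx,
    V.net, V.vr, v2' tab hhull hlf, bgg' hD⟩

end Vale.Agent.P287Z.L
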