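import Vale.Agent.P287Z.L.Basic2

/-!
Hilbert polynomials, products, bilinear images and local bases.
-/

set_option linter.unusedSectionVars false

namespace Vale.Agent.P287Z.L

open MvPolynomial Module Filter Matrix Vale.Agent.P287 Vale.Agent.P287.Theta

section HP

variable {V W Y : Type} [AddCommGroup V] [Module ℂ V] [AddCommGroup W] [Module ℂ W]
  [AddCommGroup Y] [Module ℂ Y]
variable {L : ℤ → Submodule ℂ V} {M : ℤ → Submodule ℂ W} {N : ℤ → Submodule ℂ Y}
  {R c x R' c' x' : ℤ}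

/-- a quadratic polynomial that vanishes for large arguments is zero -/
lemma quad_zero {a b c : ℤ} (h : ∀ᶠ k : ℤ in atTop, a * k ^ 2 + b * k + c = 0) :
    a = 0 ∧ b = 0 ∧ c = 0 := by
  obtain ⟨n, hn⟩ := eventually_atTop.1 h
  have h0 := hn n le_rfl
  have h1 := hn (n + 1) (by omega)
  have h2 := hn (n + 2) (by omega)
  have ha : a = 0 := by
    have : 2 * a = 0 := by linear_combination h2 - 2 * h1 + h0
    omega
  subst ha
  have hb : b = 0 := by linear_combination h1 - h0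
  subst hb
  exact ⟨rfl, rfl, by linear_combination h0⟩

lemma HP.unique (h : HP L R c x) (h' : HP L R' c' x') : R = R' ∧ c = c' ∧ x = x' := by
  have := quad_zero (a := R - R') (b := 3 * (R - R') + 2 * (c - c')) (c := 2 * (x - x'))
    ((h.and h').mono fun k hk => by linear_combination hk.2 - hk.1)
  omega

lemma HP.c1_eq (h : HP L R c x) : c1 L = c := by
  obtain ⟨R', x', h'⟩ := Classical.epsilon_spec (p := fun c => ∃ R x, HP L R c x) ⟨c, R, x, h⟩
  exact (h'.unique h).2.1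

lemma HP.chi_eq (h : HP L R c x) : chi L = x := by
  obtain ⟨R', c', h'⟩ := Classical.epsilon_spec (p := fun x => ∃ R c, HP L R c x) ⟨x, R, c, h⟩
  exact (h'.unique h).2.2

lemma HP.cast (h : HP L R c x) (h1 : R = R') (h2 : c = c') (h3 : x = x') : HP L R' c' x' := by
  subst h1 h2 h3; exact h

lemma HP.congr (h : HP L R c x) (e : ∀ᶠ k in atTop, finrank ℂ (M k) = finrank ℂ (L k)) :
    HP M R c x := (h.and e).mono fun k hk => by rw [hk.2]; exact hk.1

lemma HP.add (h : HP L R c x) (h' : HP M R' c' x')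
    (e : ∀ᶠ k in atTop, finrank ℂ (N k) = finrank ℂ (L k) + finrank ℂ (M k)) :
    HP N (R + R') (c + c') (x + x') := ((h.and h').and e).mono fun k hk => by
  rw [hk.2]; push_cast; linear_combination hk.1.1 + hk.1.2

lemma HP.sub (h : HP L R c x) (h' : HP M R' c' x')
    (e : ∀ᶠ k in atTop, finrank ℂ (N k) + finrank ℂ (M k) = finrank ℂ (L k)) :
    HP N (R - R') (c - c') (x - x') := ((h.and h').and e).mono fun k hk => by
  have h3 : (finrank ℂ (N k) : ℤ) + finrank ℂ (M k) = finrank ℂ (L k) := by exact_mod_cast hk.2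
  linear_combination hk.1.1 - hk.1.2 + 2 * h3

lemma two_dvd_sq_add (n : ℤ) : 2 * ((n ^ 2 + 3 * n) / 2) = n ^ 2 + 3 * n := by
  apply Int.mul_ediv_cancel'
  have := Int.even_mul_succ_self n
  have h2 : n ^ 2 + 3 * n = n * (n + 1) + 2 * n := by ring
  rw [h2]
  exact dvd_add this.two_dvd (dvd_mul_right 2 n)

lemma tendsto_add (n : ℤ) : Tendsto (fun k : ℤ => k + n) atTop atTop :=
  tendsto_atTop_add_const_right _ n tendsto_id

lemma HP.sh (h : HP L R c x) (n : ℤ) :
    HP (sh L n) R (c + R * n) (x + R * ((n ^ 2 + 3 * n) / 2) + c * n) :=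
  ((tendsto_add n).eventually h).mono fun k hk => by
    change 2 * (finrank ℂ (L (k + n)) : ℤ) = _
    rw [hk]
    linear_combination (-R) * two_dvd_sq_add n

/-- the twist, with the Euler characteristic given by an equation -/
lemma HP.sh' (h : HP L R c x) (n : ℤ) :
    ∃ y, HP (P287Z.L.sh L n) R (c + R * n) y ∧ 2 * y = 2 * x + R * (n ^ 2 + 3 * n) + 2 * c * n :=
  ⟨_, h.sh n, by linear_combination R * two_dvd_sq_add n⟩

/-- the Euler characteristic of the line bundle with generator in degree `e` -/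
def chiO (e : ℤ) : ℤ := (e ^ 2 - 3 * e) / 2 + 1

lemma two_chiO (e : ℤ) : 2 * chiO e = e ^ 2 - 3 * e + 2 := by
  have := two_dvd_sq_add (-e)
  rw [show (-e) ^ 2 + 3 * -e = e ^ 2 - 3 * e by ring] at this
  unfold chiO
  linear_combination this

lemma chiO_eq (e : ℤ) : chiO e = finrank ℂ (AA (-e)) + finrank ℂ (AA (e - 3)) := by
  have h1 := finrank_AA_add (-e)
  rw [show -3 - -e = e - 3 by ring] at h1
  have h2 := two_chiO e
  have : 2 * chiO e = 2 * ((finrank ℂ (AA (-e)) : ℤ) + finrank ℂ (AA (e - 3))) := by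
    rw [h1, h2]; ring
  omega

lemma hp_AA : HP AA 1 0 1 := (eventually_ge_atTop (-2)).mono fun k hk => by
  rw [finrank_AA hk]; ring

lemma hp_Fr {ι : Type} [Fintype ι] (e : ι → ℤ) :
    HP (Fr e) (Fintype.card ι) (-∑ i, e i) (∑ i, chiO (e i)) := by
  have h : ∀ᶠ k : ℤ in atTop, ∀ i, -2 ≤ k - e i :=
    eventually_all.2 fun i => (eventually_ge_atTop (e i)).mono fun k hk => by omega
  refine h.mono fun k hk => ?_
  rw [finrank_Fr, Nat.cast_sum, Finset.mul_sum, Finset.sum_congr rfl fun i _ => finrank_AA (hk i),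
    Finset.mul_sum, Finset.sum_congr rfl fun i _ => two_chiO (e i), ← Finset.sum_neg_distrib,
    Finset.mul_sum, Finset.sum_mul, ← Finset.card_univ, ← nsmul_eq_mul, ← Finset.sum_const,
    ← Finset.sum_add_distrib, ← Finset.sum_add_distrib]
  exact Finset.sum_congr rfl fun i _ => by ring

lemma finrank_prod_sub (A : Submodule ℂ V) (B : Submodule ℂ W) [FiniteDimensional ℂ A]
    [FiniteDimensional ℂ B] : finrank ℂ (A.prod B) = finrank ℂ A + finrank ℂ B := by
  rw [← finrank_prod]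
  exact LinearEquiv.finrank_eq
    { toFun := fun z => (⟨z.1.1, z.2.1⟩, ⟨z.1.2, z.2.2⟩)
      map_add' := fun _ _ => rfl
      map_smul' := fun _ _ => rfl
      invFun := fun z => ⟨(z.1.1, z.2.1), z.1.2, z.2.2⟩
      left_inv := fun _ => rfl
      right_inv := fun _ => rfl }

lemma finrank_map_inj (φ : V →ₗ[ℂ] W) (hφ : Function.Injective φ) (A : Submodule ℂ V) :
    finrank ℂ (A.map φ) = finrank ℂ A :=
  (LinearEquiv.finrank_eq (Submodule.equivMapOfInjective φ hφ A)).symm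

/-- rank and nullity on a subspace -/
lemma finrank_map_add (φ : V →ₗ[ℂ] W) (A : Submodule ℂ V) [FiniteDimensional ℂ A] :
    finrank ℂ (A.map φ) + finrank ℂ ↥(A ⊓ LinearMap.ker φ) = finrank ℂ A := by
  have h := LinearMap.finrank_range_add_finrank_ker (φ.domRestrict A)
  rw [LinearMap.range_domRestrict, LinearMap.ker_domRestrict] at h
  rw [← h, ← finrank_map_inj A.subtype A.injective_subtype, Submodule.map_comap_subtype]

end HP

section Gen

variable {F V W Y ι κ : Type*} [Field F] [AddCommGroup V] [Module F V] [AddCommGroup W]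
  [Module F W] [AddCommGroup Y] [Module F Y] [Fintype ι] [Fintype κ]

lemma bilin_sum (ω : V →ₗ[F] W →ₗ[F] Y) (u : ι → V) (w : κ → W) (a : ι → F) (b : κ → F) :
    ∑ s : ι × κ, (a s.1 * b s.2) • ω (u s.1) (w s.2) = ω (∑ i, a i • u i) (∑ j, b j • w j) := by
  rw [Fintype.sum_prod_type]
  simp only [map_sum, map_smul, LinearMap.sum_apply, LinearMap.smul_apply, Finset.smul_sum,
    smul_smul]
  rw [Finset.sum_comm]
  exact Finset.sum_congr rfl fun _ _ => Finset.sum_congr rfl fun _ _ => by rw [mul_comm]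

lemma adj_key [DecidableEq ι] {u v : ι → V} {y : F} (P : Matrix ι ι F)
    (hrel : ∀ j, y • v j = ∑ i, P i j • u i) (i : ι) :
    P.det • u i = ∑ j, (P.adjugate j i * y) • v j := by
  simp only [mul_smul, hrel, Finset.smul_sum]
  simp only [smul_smul]
  rw [Finset.sum_comm]
  have h1 : ∀ l, ∑ j, (P.adjugate j i * P l j) • u l = (P * P.adjugate) l i • u l := by
    intro l
    rw [← Finset.sum_smul, Matrix.mul_apply]
    simp only [mul_comm]
  simp only [h1, Matrix.mul_adjugate, Matrix.smul_apply, Matrix.one_apply, smul_eq_mul, mul_ite,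
    mul_one, mul_zero, ite_smul, zero_smul, Finset.sum_ite_eq', Finset.mem_univ, if_true]

lemma li_of_det [DecidableEq ι] {u v : ι → V} {y : F} (P : Matrix ι ι F)
    (hu : LinearIndependent F u) (hrel : ∀ j, y • v j = ∑ i, P i j • u i) (hdet : P.det ≠ 0) :
    LinearIndependent F v := by
  rw [Fintype.linearIndependent_iff]
  intro c hc
  have h1 : ∑ i, (P *ᵥ c) i • u i = 0 := by
    have h2 : y • ∑ j, c j • v j = 0 := by rw [hc, smul_zero]
    rw [Finset.smul_sum] at h2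
    simp only [smul_comm y, hrel, Finset.smul_sum, smul_smul] at h2
    rw [Finset.sum_comm] at h2
    rw [← h2]
    refine Finset.sum_congr rfl fun i _ => ?_
    rw [← Finset.sum_smul, Matrix.mulVec, dotProduct]
    simp only [mul_comm]
  have h3 : P *ᵥ c = 0 := funext (Fintype.linearIndependent_iff.1 hu _ h1)
  exact congrFun (Matrix.eq_zero_of_mulVec_eq_zero hdet h3)

end Gen

section Fam

variable {V : Type} [AddCommGroup V] [Module ℂ V] [Module K V] [IsScalarTower ℂ K V]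
variable {W : Type} [AddCommGroup W] [Module ℂ W] [Module K W] [IsScalarTower ℂ K W]
variable {Y : Type} [AddCommGroup Y] [Module ℂ Y] [Module K Y] [IsScalarTower ℂ K Y]
variable {ι : Type} {L N : ℤ → Submodule ℂ V} {M : ℤ → Submodule ℂ W} {k j : ℤ}
  {p : Fin 3 → ℂ} {g : P3}

lemma hp_Sp [Fintype ι] {u : ι → V} (hu : LinearIndependent K u) (e : ι → ℤ) :
    HP (Sp u e) (Fintype.card ι) (-∑ i, e i) (∑ i, chiO (e i)) :=
  (hp_Fr e).congr (Eventually.of_forall fun k => finrank_Sp hu e k)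

lemma Fam.prod (h : Fam L) (h' : Fam M) : Fam fun k => (L k).prod (M k) :=
  fun d k a ha _ hv => ⟨h d k a ha _ hv.1, h' d k a ha _ hv.2⟩

lemma FG.prod (h : FG L) (h' : FG M) : FG fun k => (L k).prod (M k) := by
  have := (h.map (LinearMap.inl K V W)).sup (h'.map (LinearMap.inr K V W))
  have e : (fun k => (L k).prod (M k)) = fun k =>
      (L k).map ((LinearMap.inl K V W).restrictScalars ℂ) ⊔
        (M k).map ((LinearMap.inr K V W).restrictScalars ℂ) := by
    funext k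
    exact LinearMap.prod_eq_sup_map _ _
  rw [e]; exact this

lemma Refl.prod (h : Refl L) (h' : Refl M) : Refl fun k => (L k).prod (M k) := fun k _ hv =>
  ⟨h k _ fun g hg => let ⟨d, y, h1, h2⟩ := hv g hg; ⟨d, y, h1, h2.1⟩,
    h' k _ fun g hg => let ⟨d, y, h1, h2⟩ := hv g hg; ⟨d, y, h1, h2.2⟩⟩

lemma Lat.prod (h : Lat L) (h' : Lat M) : Lat fun k => (L k).prod (M k) := by
  refine ⟨h.fam.prod h'.fam, h.fg.prod h'.fg, fun v => ?_, h.refl.prod h'.refl⟩
  obtain ⟨k, d, y, y0, y1, y2⟩ := h.full.exists_AA h.fam v.1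
  obtain ⟨k', d', y', y0', y1', y2'⟩ := h'.full.exists_AA h'.fam v.2
  refine ⟨d + d' + |k| + |k'| + |d| + |d'|, y * y', mul_ne_zero y0 y0', ?_, ?_⟩
  · change (y * y') • v.1 ∈ L _
    rw [mul_comm, mul_smul]
    refine h.fam.mono ?_ (h.fam _ _ _ y1' _ y2)
    have := le_abs_self k; have := abs_nonneg k'; have := neg_abs_le d; have := abs_nonneg d'
    omega
  · change (y * y') • v.2 ∈ M _
    rw [mul_smul]
    refine h'.fam.mono ?_ (h'.fam _ _ _ y1 _ y2')
    have := le_abs_self k'; have := abs_nonneg k; have := neg_abs_le d'; have := abs_nonneg d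
    omega

lemma HP.prod {R c x R' c' x' : ℤ} (hL : FG L) (hM : FG M) (h : HP L R c x) (h' : HP M R' c' x') :
    HP (fun k => (L k).prod (M k)) (R + R') (c + c') (x + x') :=
  h.add h' (Eventually.of_forall fun k => by
    have := hL.finite k
    have := hM.finite k
    exact finrank_prod_sub _ _)

lemma mem_bil {ω : V →ₗ[K] W →ₗ[K] Y} {v : V} {w : W} (hv : v ∈ L k) (hw : w ∈ M j) {n : ℤ}
    (e : k + j = n) : ω v w ∈ bil ω L M n :=
  Submodule.subset_span ⟨k, j, v, w, e, hv, hw, rfl⟩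

lemma bil_le {ω : V →ₗ[K] W →ₗ[K] Y} {T : Submodule ℂ Y}
    (h : ∀ i j, i + j = k → ∀ v ∈ L i, ∀ w ∈ M j, ω v w ∈ T) : bil ω L M k ≤ T := by
  rw [bil, Submodule.span_le]
  rintro _ ⟨i, j, v, w, e, hv, hw, rfl⟩
  exact h i j e v hv w hw

lemma fam_bil (ω : V →ₗ[K] W →ₗ[K] Y) (hL : Fam L) (M : ℤ → Submodule ℂ W) :
    Fam (bil ω L M) := by
  intro d k a ha x hx
  refine bil_le (T := (bil ω L M (d + k)).comap ((LinearMap.lsmul K Y a).restrictScalars ℂ))
    (fun i j e v hv w hw => ?_) hx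
  change a • ω v w ∈ bil ω L M (d + k)
  rw [← LinearMap.smul_apply, ← map_smul]
  exact mem_bil (hL d i a ha v hv) hw (by omega)

lemma gen_bil [Fintype ι] {κ : Type} [Fintype κ] (ω : V →ₗ[K] W →ₗ[K] Y) {u : ι → V} {e : ι → ℤ}
    {w : κ → W} {d : κ → ℤ} (h : Gen L u e) (h' : Gen M w d) :
    Gen (bil ω L M) (fun s : ι × κ => ω (u s.1) (w s.2)) fun s => e s.1 + d s.2 := by
  intro k
  have h2 : ∀ s : ι × κ, ω (u s.1) (w s.2) ∈ bil ω L M (e s.1 + d s.2) := fun s =>
    mem_bil (h.mem s.1) (h'.mem s.2) rfl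
  refine le_antisymm (bil_le fun i j hij v hv z hz => ?_) (Sp_le (fam_bil ω h.fam M) h2 k)
  rw [h i] at hv
  rw [h' j] at hz
  obtain ⟨a, ha, rfl⟩ := mem_Sp.1 hv
  obtain ⟨b, hb, rfl⟩ := mem_Sp.1 hz
  exact mem_Sp.2 ⟨fun s => a s.1 * b s.2, fun s => AA_cast (AA_mul (ha s.1) (hb s.2)) (by omega),
    bilin_sum ω u w a b⟩

lemma FG.bil (ω : V →ₗ[K] W →ₗ[K] Y) (h : FG L) (h' : FG M) : FG (bil ω L M) := by
  obtain ⟨_, _, _, h⟩ := h
  obtain ⟨_, _, _, h'⟩ := h'
  exact (gen_bil ω h h').fg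

lemma Full.bil {ω : V →ₗ[K] W →ₗ[K] Y} (hL : FG L) (hM : FG M) (h : Full L) (h' : Full M)
    (hω : Submodule.span K {y | ∃ v w, y = ω v w} = ⊤) : Full (bil ω L M) := by
  obtain ⟨_, u, e, hu⟩ := hL
  obtain ⟨_, w, d, hw⟩ := hM
  rw [(gen_bil ω hu hw).eq]
  refine full_Sp ?_ _
  rw [eq_top_iff, ← hω, Submodule.span_le]
  rintro _ ⟨v, z, rfl⟩
  obtain ⟨a, rfl⟩ := (Submodule.mem_span_range_iff_exists_fun K).1
    (hu.span h ▸ Submodule.mem_top : v ∈ Submodule.span K (Set.range u))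
  obtain ⟨b, rfl⟩ := (Submodule.mem_span_range_iff_exists_fun K).1
    (hw.span h' ▸ Submodule.mem_top : z ∈ Submodule.span K (Set.range w))
  simp only [map_sum, map_smul, LinearMap.sum_apply, LinearMap.smul_apply, SetLike.mem_coe]
  exact Submodule.sum_mem _ fun j _ => Submodule.smul_mem _ _ (Submodule.sum_mem _ fun i _ =>
    Submodule.smul_mem _ _ (Submodule.subset_span ⟨(i, j), rfl⟩))

/-- one unit works for all elements of a finitely generated family -/
lemma FG.exists_u1 (h : FG L) (hN : Fam N) (hloc : ∀ k, ∀ v ∈ L k, LocP N p k v) :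
    ∃ d y, U1 p d y ∧ ∀ k, ∀ v ∈ L k, y • v ∈ N (d + k) := by
  classical
  obtain ⟨n, u, e, hu⟩ := h
  choose d y h1 h2 using fun i => hloc _ _ (hu.mem i)
  refine ⟨∑ i, d i, ∏ i, y i, u1_prod _ fun i _ => h1 i, fun k v hv => ?_⟩
  rw [hu k] at hv
  obtain ⟨c, hc, rfl⟩ := mem_Sp.1 hv
  rw [Finset.smul_sum]
  refine Submodule.sum_mem _ fun i _ => ?_
  rw [smul_comm, ← Finset.prod_erase_mul _ _ (Finset.mem_univ i), mul_smul,
    ← Finset.sum_erase_add _ _ (Finset.mem_univ i)]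
  exact hN.smul (hc i) (hN _ _ _ (AA_prod _ fun j _ => (h1 j).mem) _ (h2 i)) (by ring)

lemma FG.exists_ug (h : FG L) (hN : Fam N) (hg : Prime g) (hloc : ∀ k, ∀ v ∈ L k, LocG N g k v) :
    ∃ d y, Ug g d y ∧ ∀ k, ∀ v ∈ L k, y • v ∈ N (d + k) := by
  classical
  obtain ⟨n, u, e, hu⟩ := h
  choose d y h1 h2 using fun i => hloc _ _ (hu.mem i)
  refine ⟨∑ i, d i, ∏ i, y i, ug_prod hg _ fun i _ => h1 i, fun k v hv => ?_⟩
  rw [hu k] at hv
  obtain ⟨c, hc, rfl⟩ := mem_Sp.1 hv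
  rw [Finset.smul_sum]
  refine Submodule.sum_mem _ fun i _ => ?_
  rw [smul_comm, ← Finset.prod_erase_mul _ _ (Finset.mem_univ i), mul_smul,
    ← Finset.sum_erase_add _ _ (Finset.mem_univ i)]
  exact hN.smul (hc i) (hN _ _ _ (AA_prod _ fun j _ => (h1 j).mem) _ (h2 i)) (by ring)

lemma lb_Sp [Fintype ι] {u : ι → V} (hu : LinearIndependent K u) (e : ι → ℤ) (p : Fin 3 → ℂ) :
    LB (Sp u e) p u e :=
  ⟨self_mem_Sp u e, hu, 0, 1, u1_one p, fun k v hv => by rwa [one_smul, zero_add]⟩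

lemma LB.card [Fintype ι] {u : ι → V} {e : ι → ℤ} (h : LB L p u e) (hf : Full L) :
    Fintype.card ι = finrank K V :=
  (finrank_eq_card_basis (Basis.mk h.li (h.span hf).ge)).symm

/-- a family with an invertible matrix at the point is again a local basis -/
lemma LB.of_det [Fintype ι] [DecidableEq ι] {u v : ι → V} {e e' : ι → ℤ} (h : LB L p u e)
    (hv : ∀ j, v j ∈ L (e' j)) {d : ℤ} {y : K} (hy : U1 p d y) (P : Matrix ι ι K)
    (hP : ∀ i j, P i j ∈ AA (d + e' j - e i)) (hrel : ∀ j, y • v j = ∑ i, P i j • u i)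
    (hdet : U1 p (∑ j, (d + e' j) - ∑ i, e i) P.det) : LB L p v e' := by
  refine ⟨hv, li_of_det P h.li hrel hdet.ne, ?_⟩
  obtain ⟨d', y', h1, h2⟩ := h.loc
  refine ⟨_, _, hdet.mul h1, fun k w hw => ?_⟩
  obtain ⟨c, hc, hw'⟩ := mem_Sp.1 (h2 k w hw)
  rw [mul_smul, ← hw', Finset.smul_sum]
  refine Submodule.sum_mem _ fun i _ => ?_
  rw [smul_comm]
  have h3 : P.det • u i ∈ Sp v e' (∑ j, (d + e' j) - ∑ i, e i + e i) :=
    mem_Sp.2 ⟨fun j => P.adjugate j i * y, fun j =>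
      AA_cast (AA_mul (AA_adj P e (fun j => d + e' j) hP j i) hy.mem) (by ring),
      (adj_key P hrel i).symm⟩
  exact (fam_Sp v e').smul (hc i) h3 (by ring)

/-- local bases only depend on the point of the projective plane -/
lemma U1.smul_pt {y : K} (h : U1 p k y) {c : ℂ} (hc : c ≠ 0) : U1 (c • p) k y := by
  obtain ⟨b, h1, h2, h3⟩ := h
  exact ⟨b, h1, h2, by rw [h1.eval_smul]; exact mul_ne_zero (pow_ne_zero _ hc) h3⟩

lemma LB.smul_pt [Fintype ι] {u : ι → V} {e : ι → ℤ} (h : LB L p u e) {c : ℂ} (hc : c ≠ 0) :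
    LB L (c • p) u e :=
  ⟨h.mem, h.li, let ⟨d, y, h1, h2⟩ := h.loc; ⟨d, y, h1.smul_pt hc, h2⟩⟩

lemma LB.reindex [Fintype ι] {κ : Type} [Fintype κ] {u : ι → V} {e : ι → ℤ} (h : LB L p u e)
    (σ : κ ≃ ι) : LB L p (u ∘ σ) (e ∘ σ) :=
  ⟨fun i => h.mem (σ i), h.li.comp σ σ.injective,
    let ⟨d, y, h1, h2⟩ := h.loc; ⟨d, y, h1, fun k v hv => (Sp_reindex u e σ _).symm ▸ h2 k v hv⟩⟩

end Fam

end Vale.Agent.P287Z.L
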