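import Mathlib.LinearAlgebra.FiniteDimensional.Lemmas
import Mathlib.Order.Filter.AtTopBot.Basic
import Mathlib.Tactic

/-!
Complexes with null-homotopic operators: the dimension of the cycles.
-/

namespace Vale.Agent.P287Z.L.Bgg

open Module Submodule
open Filter (atTop eventually_atTop)

variable {F V : Type} [Field F] [AddCommGroup V] [Module F V]

theorem rank_null (T : V →ₗ[F] V) (U : Submodule F V) [FiniteDimensional F U] :
    finrank F (U.map T) + finrank F (U ⊓ LinearMap.ker T : Submodule F V) = finrank F U := by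
  have h := (T.domRestrict U).finrank_range_add_finrank_ker
  rwa [LinearMap.range_domRestrict, LinearMap.ker_domRestrict,
    ← finrank_map_subtype_eq U (comap U.subtype (LinearMap.ker T)), map_comap_subtype] at h

theorem dim_sup (T : V →ₗ[F] V) (U S : Submodule F V) [FiniteDimensional F U]
    [FiniteDimensional F S] :
    finrank F (S ⊔ U.map T : Submodule F V) + finrank F (U ⊓ S.comap T : Submodule F V) =
      finrank F S + finrank F U := by
  have h1 := finrank_sup_add_finrank_inf_eq (U.map T) S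
  have h2 := rank_null T U
  have h3 := rank_null T (U ⊓ S.comap T)
  have e : U ⊓ S.comap T ⊓ LinearMap.ker T = U ⊓ LinearMap.ker T := by
    rw [inf_assoc]
    congr 1
    exact inf_eq_right.2 fun v hv => by
      rw [mem_comap, LinearMap.mem_ker.1 hv]
      exact S.zero_mem
  rw [← map_inf_eq_map_inf_comap, e] at h3
  rw [sup_comm] at h1
  omega

/-- a complex with three null-homotopic operators -/
structure Cpx (M : ℤ → Submodule F V) (d : End F V) (T h : Fin 3 → End F V) : Prop where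
  fd : ∀ k, FiniteDimensional F (M k)
  dd : ∀ v, d (d v) = 0
  Td : ∀ a v, T a (d v) = d (T a v)
  TT : ∀ a b v, T a (T b v) = T b (T a v)
  Th : ∀ a b v, T a (h b v) = h b (T a v)
  hom : ∀ a v, T a v = h a (d v) + d (h a v)
  dM : ∀ k, ∀ v ∈ M k, d v ∈ M (k + 1)
  TM : ∀ a k, ∀ v ∈ M k, T a v ∈ M (k + 1)
  hM : ∀ a k, ∀ v ∈ M k, h a v ∈ M k

/-- a subcomplex -/
structure Sub (M : ℤ → Submodule F V) (d : End F V) (T h : Fin 3 → End F V)
    (S : ℤ → Submodule F V) : Prop where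
  le : ∀ k, S k ≤ M k
  dS : ∀ k, ∀ v ∈ S k, d v ∈ S (k + 1)
  TS : ∀ a k, ∀ v ∈ S k, T a v ∈ S (k + 1)
  hS : ∀ a k, ∀ v ∈ S k, h a v ∈ S k

/-- the next subcomplex -/
def nxt (M S : ℤ → Submodule F V) (T : End F V) (k : ℤ) : Submodule F V :=
  S k ⊔ (M (k - 1)).map T

theorem nxt_succ (M S : ℤ → Submodule F V) (T : End F V) (k : ℤ) :
    nxt M S T (k + 1) = S (k + 1) ⊔ (M k).map T := by
  rw [nxt, add_sub_cancel_right]

theorem mem_nxt {M S : ℤ → Submodule F V} {T : End F V} {k : ℤ} {v : V} :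
    v ∈ nxt M S T (k + 1) ↔ ∃ s ∈ S (k + 1), ∃ m ∈ M k, s + T m = v := by
  rw [nxt_succ, mem_sup]
  exact ⟨fun ⟨s, hs, _, ⟨m, hm, e⟩, h⟩ => ⟨s, hs, m, hm, e ▸ h⟩,
    fun ⟨s, hs, m, hm, h⟩ => ⟨s, hs, _, ⟨m, hm, rfl⟩, h⟩⟩

/-- the cycles modulo `S` -/
def cyc (M S : ℤ → Submodule F V) (d : End F V) (k : ℤ) : Submodule F V :=
  M k ⊓ (S (k + 1)).comap d

/-- exactness modulo `S` in degree `k + 1` -/
def Ex (M S : ℤ → Submodule F V) (d : End F V) (k : ℤ) : Prop :=
  ∀ v ∈ M (k + 1), d v ∈ S (k + 1 + 1) → ∃ m ∈ M k, ∃ s ∈ S (k + 1), v = d m + s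

/-- the dimension of the cycles of the quotient -/
noncomputable def zz (M S : ℤ → Submodule F V) (d : End F V) (k : ℤ) : ℤ :=
  (finrank F (cyc M S d k) : ℤ) - finrank F (S k)

variable {M S : ℤ → Submodule F V} {d : End F V} {T h : Fin 3 → End F V}

theorem Sub.bot : Sub M d T h fun _ => ⊥ where
  le _ := bot_le
  dS _ v hv := by rw [(mem_bot F).1 hv, map_zero]; exact zero_mem _
  TS _ _ v hv := by rw [(mem_bot F).1 hv, map_zero]; exact zero_mem _
  hS _ _ v hv := by rw [(mem_bot F).1 hv, map_zero]; exact zero_mem _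

theorem Sub.nxt (c : Cpx M d T h) (s : Sub M d T h S) (a : Fin 3) :
    Sub M d T h (nxt M S (T a)) := by
  have key : ∀ k, ∀ v ∈ Bgg.nxt M S (T a) k, ∃ j, k = j + 1 ∧ ∃ x ∈ S (j + 1), ∃ m ∈ M j,
      x + T a m = v := fun k v hv => by
    obtain ⟨j, rfl⟩ : ∃ j, k = j + 1 := ⟨k - 1, by ring⟩
    exact ⟨j, rfl, mem_nxt.1 hv⟩
  refine ⟨fun k v hv => ?_, fun k v hv => ?_, fun b k v hv => ?_, fun b k v hv => ?_⟩ <;>
    obtain ⟨j, rfl, x, hx, m, hm, rfl⟩ := key k v hv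
  · exact add_mem (s.le _ hx) (c.TM a j m hm)
  · exact mem_nxt.2 ⟨_, s.dS _ x hx, _, c.dM j m hm, by rw [map_add, c.Td]⟩
  · exact mem_nxt.2 ⟨_, s.TS b _ x hx, _, c.TM b j m hm, by rw [map_add, c.TT]⟩
  · exact mem_nxt.2 ⟨_, s.hS b _ x hx, _, c.hM b j m hm, by rw [map_add, c.Th]⟩

theorem Sub.fd (c : Cpx M d T h) (s : Sub M d T h S) (k : ℤ) : FiniteDimensional F (S k) :=
  have := c.fd k
  finiteDimensional_of_le (s.le k)

theorem inj_of (c : Cpx M d T h) (s : Sub M d T h S) {a : Fin 3} {k : ℤ}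
    (e : finrank F (nxt M S (T a) (k + 1)) + finrank F (S k) =
      finrank F (S (k + 1)) + finrank F (M k)) :
    ∀ v ∈ M k, T a v ∈ S (k + 1) → v ∈ S k := by
  have := c.fd k
  have := s.fd c (k + 1)
  have h1 := dim_sup (T a) (M k) (S (k + 1))
  rw [← nxt_succ] at h1
  have h2 : S k = M k ⊓ (S (k + 1)).comap (T a) :=
    eq_of_le_of_finrank_eq (fun v hv => ⟨s.le k hv, s.TS a k v hv⟩) (by omega)
  intro v hv hv'
  rw [h2]
  exact ⟨hv, hv'⟩

theorem ex_step (c : Cpx M d T h) (s : Sub M d T h S) {a : Fin 3} {k : ℤ}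
    (hi : ∀ v ∈ M (k + 1), T a v ∈ S (k + 1 + 1) → v ∈ S (k + 1))
    (he : Ex M (nxt M S (T a)) d k) : Ex M S d k := by
  intro v hv hd
  have h1 := s.hS a _ _ hd
  have h2 : d (h a v) = -h a (d v) + T a v := by rw [c.hom a v]; abel
  obtain ⟨m, hm, x, hx, e⟩ := he (h a v) (c.hM a _ v hv)
    (mem_nxt.2 ⟨_, neg_mem h1, v, hv, h2.symm⟩)
  obtain ⟨y, hy, m', hm', rfl⟩ := mem_nxt.1 hx
  refine ⟨m', hm', v - d m', hi _ (sub_mem hv (c.dM k m' hm')) ?_, by abel⟩
  have h3 : T a (v - d m') = h a (d v) + d y := by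
    rw [map_sub, c.hom a v, e, map_add, map_add, c.dd, c.Td]
    abel
  rw [h3]
  exact add_mem h1 (s.dS _ y hy)

theorem zz_step (c : Cpx M d T h) (s : Sub M d T h S) {a : Fin 3} {k : ℤ}
    (hi : ∀ v ∈ M k, T a v ∈ S (k + 1) → v ∈ S k)
    (hi' : ∀ v ∈ M (k + 1), T a v ∈ S (k + 1 + 1) → v ∈ S (k + 1))
    (he : Ex M (nxt M S (T a)) d k) :
    zz M (nxt M S (T a)) d (k + 1) = zz M S d (k + 1) - zz M S d k := by
  have s' := s.nxt c a
  have := c.fd k
  have := c.fd (k + 1)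
  have := s.fd c (k + 1)
  have := s'.fd c (k + 1)
  have : FiniteDimensional F (cyc M S d k) := finiteDimensional_of_le inf_le_left
  have : FiniteDimensional F (cyc M S d (k + 1)) := finiteDimensional_of_le inf_le_left
  have e1 : cyc M S d (k + 1) ⊔ nxt M S (T a) (k + 1) = cyc M (nxt M S (T a)) d (k + 1) := by
    refine le_antisymm (sup_le (fun v hv => ⟨hv.1, ?_⟩) fun v hv => ⟨s'.le _ hv, s'.dS _ v hv⟩)
      fun v hv => ?_
    · exact mem_nxt.2 ⟨_, hv.2, 0, zero_mem _, by rw [map_zero, add_zero]⟩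
    · obtain ⟨m, hm, x, hx, rfl⟩ := he v hv.1 hv.2
      refine add_mem_sup ⟨c.dM k m hm, ?_⟩ hx
      rw [SetLike.mem_coe, mem_comap, c.dd]
      exact zero_mem _
  have e2 : cyc M S d (k + 1) ⊓ nxt M S (T a) (k + 1) =
      S (k + 1) ⊔ (cyc M S d k).map (T a) := by
    refine le_antisymm (fun v hv => ?_) (le_inf (sup_le (fun v hv => ⟨s.le _ hv, s.dS _ v hv⟩) ?_)
      ?_)
    · obtain ⟨x, hx, m, hm, rfl⟩ := mem_nxt.1 hv.2
      refine add_mem_sup hx ⟨m, ⟨hm, hi' _ (c.dM k m hm) ?_⟩, rfl⟩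
      have h1 : d (x + T a m) ∈ S (k + 1 + 1) := hv.1.2
      have h2 := sub_mem h1 (s.dS _ x hx)
      rwa [map_add, add_sub_cancel_left, ← c.Td] at h2
    · rintro _ ⟨m, hm, rfl⟩
      refine ⟨c.TM a k m hm.1, ?_⟩
      rw [SetLike.mem_coe, mem_comap, ← c.Td]
      exact s.TS a _ _ hm.2
    · rw [nxt_succ]
      exact sup_le_sup_left (map_mono inf_le_left) _
  have e3 : cyc M S d k ⊓ (S (k + 1)).comap (T a) = S k :=
    le_antisymm (fun v hv => hi v hv.1.1 hv.2)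
      fun v hv => ⟨⟨s.le k hv, s.dS k v hv⟩, s.TS a k v hv⟩
  have h1 := finrank_sup_add_finrank_inf_eq (cyc M S d (k + 1)) (nxt M S (T a) (k + 1))
  have h2 := dim_sup (T a) (cyc M S d k) (S (k + 1))
  rw [e1, e2] at h1
  rw [e3] at h2
  unfold zz
  omega

theorem ev_succ {P : ℤ → Prop} (h : ∀ᶠ k in atTop, P k) : ∀ᶠ k in atTop, P (k + 1) := by
  obtain ⟨a, ha⟩ := eventually_atTop.1 h
  exact eventually_atTop.2 ⟨a, fun k hk => ha _ (by omega)⟩

theorem step (c : Cpx M d T h) (s : Sub M d T h S) (a : Fin 3)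
    (e : ∀ᶠ k in atTop, finrank F (nxt M S (T a) (k + 1)) + finrank F (S k) =
      finrank F (S (k + 1)) + finrank F (M k))
    (he : ∀ᶠ k in atTop, Ex M (nxt M S (T a)) d k) :
    (∀ᶠ k in atTop, Ex M S d k) ∧
      ∀ᶠ k in atTop, zz M (nxt M S (T a)) d (k + 1) = zz M S d (k + 1) - zz M S d k := by
  have hi := e.mono fun k hk => inj_of c s hk
  constructor
  · filter_upwards [ev_succ hi, he] with k h1 h2 using ex_step c s h1 h2
  · filter_upwards [hi, ev_succ hi, he] with k h1 h2 h3 using zz_step c s h1 h2 h3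

/-- the first subcomplex -/
abbrev S1 (M : ℤ → Submodule F V) (T : Fin 3 → End F V) := nxt M (fun _ => ⊥) (T 0)

/-- the second subcomplex -/
abbrev S2 (M : ℤ → Submodule F V) (T : Fin 3 → End F V) := nxt M (S1 M T) (T 1)

/-- the third subcomplex -/
abbrev S3 (M : ℤ → Submodule F V) (T : Fin 3 → End F V) := nxt M (S2 M T) (T 2)

/-- the operators form a regular sequence in large degrees, with quotient zero -/
structure Reg (M : ℤ → Submodule F V) (T : Fin 3 → End F V) : Prop where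
  r1 : ∀ᶠ k in atTop, finrank F (S1 M T (k + 1)) = finrank F (M k)
  r2 : ∀ᶠ k in atTop, finrank F (S2 M T (k + 1)) + finrank F (S1 M T k) =
    finrank F (S1 M T (k + 1)) + finrank F (M k)
  r3 : ∀ᶠ k in atTop, finrank F (S3 M T (k + 1)) + finrank F (S2 M T k) =
    finrank F (S2 M T (k + 1)) + finrank F (M k)
  top : ∀ᶠ k in atTop, S3 M T k = M k

/-- the dimensions of the cycles -/
theorem main (c : Cpx M d T h) (r : Reg M T) : ∀ᶠ k in atTop,
    (finrank F (M (k + 2)) : ℤ) - 4 * finrank F (M (k + 1)) + 7 * finrank F (M k) =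
      8 * finrank F (M k ⊓ LinearMap.ker d : Submodule F V) := by
  have s0 : Sub M d T h fun _ => ⊥ := Sub.bot
  have s1 := s0.nxt c 0
  have s2 := s1.nxt c 1
  have x3 : ∀ᶠ k in atTop, Ex M (S3 M T) d k := (ev_succ r.top).mono fun k hk v hv _ =>
    ⟨0, zero_mem _, v, hk.symm ▸ hv, by rw [map_zero, zero_add]⟩
  have z3 : ∀ᶠ k in atTop, zz M (S3 M T) d k = 0 := by
    filter_upwards [r.top, ev_succ r.top] with k h1 h2
    have e : cyc M (S3 M T) d k = M k := inf_eq_left.2 fun v hv => by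
      rw [mem_comap, h2]
      exact c.dM k v hv
    rw [zz, e, h1, sub_self]
  obtain ⟨x2, z2⟩ := step c s2 2 r.r3 x3
  obtain ⟨x1, z1⟩ := step c s1 1 r.r2 x2
  obtain ⟨x0, z0⟩ := step c s0 0 (r.r1.mono fun k hk => by simpa using hk) x1
  have ez : ∀ k, zz M (fun _ => ⊥) d k = finrank F (M k ⊓ LinearMap.ker d : Submodule F V) :=
    fun k => by rw [zz, cyc, comap_bot, finrank_bot, Nat.cast_zero, sub_zero]
  have hm : ∀ᶠ k in atTop, (finrank F (M k) : ℤ) =
      zz M (fun _ => ⊥) d k + zz M (fun _ => ⊥) d (k + 1) := x0.mono fun k hk => by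
    have := c.fd k
    have h1 := rank_null d (M k)
    have e : (M k).map d = M (k + 1) ⊓ LinearMap.ker d := by
      refine le_antisymm ?_ fun v hv => ?_
      · rintro _ ⟨m, hm, rfl⟩
        exact ⟨c.dM k m hm, c.dd m⟩
      · obtain ⟨m, hm, x, hx, rfl⟩ := hk v hv.1 ((mem_bot F).2 hv.2)
        exact ⟨m, hm, by rw [(mem_bot F).1 hx, add_zero]⟩
    rw [e] at h1
    rw [ez, ez]
    omega
  filter_upwards [hm, ev_succ hm, ev_succ (ev_succ hm), z0, ev_succ z0, ev_succ (ev_succ z0),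
    ev_succ z1, ev_succ (ev_succ z1), ev_succ (ev_succ z2), ev_succ (ev_succ (ev_succ z3))]
    with k a0 a1 a2 b0 b1 b2 c1 c2 d2 e3
  have e : k + 2 = k + 1 + 1 := by ring
  rw [e, ← ez]
  simp only [S1, S2, S3] at e3
  omega

end Vale.Agent.P287Z.L.Bgg
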