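import Vale.Agent.P287.Theta.IsoFinal
import Vale.Agent.P287.Theta.Wrap

/-!
Lattices on the projective plane in the filtered model: a graded torsion free module `N` over
`A = ℂ[x₀, x₁, x₂]` is the family of the subspaces `N_k / x₀ ^ k` of one vector space over
`K = ℂ(s₀, s₁)`.
-/

namespace Vale.Agent.P287Z.L

open MvPolynomial Module Filter Matrix Vale.Agent.P287 Vale.Agent.P287.Theta

/-- the function field of the plane -/
abbrev K : Type := RatK

/-- homogeneous of degree `k : ℤ` -/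
def Hg (k : ℤ) (p : P3) : Prop := p.IsWeightedHomogeneous (fun _ => (1 : ℤ)) k

/-- evaluation at the generic point 1, s₀, s₁ -/
noncomputable def ev : P3 →ₐ[ℂ] K := aeval tvec

/-- the values of the forms of degree `k` -/
noncomputable def AA (k : ℤ) : Submodule ℂ K :=
  (weightedHomogeneousSubmodule ℂ (fun _ : Fin 3 => (1 : ℤ)) k).map ev.toLinearMap

/-- `y` is the value of a form of degree `d` that does not vanish at the point `p` -/
def U1 (p : Fin 3 → ℂ) (d : ℤ) (y : K) : Prop := ∃ b, Hg d b ∧ ev b = y ∧ eval p b ≠ 0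

/-- `y` is the value of a form of degree `d` that is not divisible by `g` -/
def Ug (g : P3) (d : ℤ) (y : K) : Prop := ∃ b, Hg d b ∧ ev b = y ∧ ¬ g ∣ b

/-- a homogeneous prime element -/
def HPrime (g : P3) : Prop := Prime g ∧ ∃ n, Hg n g

/-- the free family with generators in degrees `e` -/
noncomputable def Fr {ι : Type} (e : ι → ℤ) (k : ℤ) : Submodule ℂ (ι → K) :=
  Submodule.pi Set.univ fun i => AA (k - e i)

/-- Hilbert polynomial: rank `R`, first Chern class `c`, Euler characteristic `x` -/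
def HP {V : Type} [AddCommGroup V] [Module ℂ V] (L : ℤ → Submodule ℂ V) (R c x : ℤ) : Prop :=
  ∀ᶠ k : ℤ in atTop, 2 * (finrank ℂ (L k) : ℤ) = R * (k ^ 2 + 3 * k) + 2 * c * k + 2 * x

/-- first Chern class -/
noncomputable def c1 {V : Type} [AddCommGroup V] [Module ℂ V] (L : ℤ → Submodule ℂ V) : ℤ :=
  Classical.epsilon fun c => ∃ R x, HP L R c x

/-- Euler characteristic -/
noncomputable def chi {V : Type} [AddCommGroup V] [Module ℂ V] (L : ℤ → Submodule ℂ V) : ℤ :=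
  Classical.epsilon fun x => ∃ R c, HP L R c x

/-- the twist by `n` -/
def sh {V : Type} [AddCommGroup V] [Module ℂ V] (L : ℤ → Submodule ℂ V) (n k : ℤ) :
    Submodule ℂ V := L (k + n)

section Fam

variable {V : Type} [AddCommGroup V] [Module ℂ V] [Module K V] [IsScalarTower ℂ K V]
variable {W : Type} [AddCommGroup W] [Module ℂ W] [Module K W] [IsScalarTower ℂ K W]
variable {Y : Type} [AddCommGroup Y] [Module ℂ Y] [Module K Y] [IsScalarTower ℂ K Y]

/-- the family is a graded module -/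
def Fam (L : ℤ → Submodule ℂ V) : Prop :=
  ∀ d k : ℤ, ∀ a ∈ AA d, ∀ v ∈ L k, a • v ∈ L (d + k)

/-- the family generated by the vectors `u i` in degrees `e i` -/
noncomputable def Sp {ι : Type} [Fintype ι] (u : ι → V) (e : ι → ℤ) (k : ℤ) : Submodule ℂ V :=
  (Fr e k).map ((Fintype.linearCombination K u).restrictScalars ℂ)

/-- the syzygies of the vectors `u i` in degrees `e i` -/
noncomputable def Syz {ι : Type} [Fintype ι] (u : ι → V) (e : ι → ℤ) (k : ℤ) :
    Submodule ℂ (ι → K) :=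
  Fr e k ⊓ LinearMap.ker ((Fintype.linearCombination K u).restrictScalars ℂ)

/-- `u`, `e` generate `L` -/
def Gen (L : ℤ → Submodule ℂ V) {ι : Type} [Fintype ι] (u : ι → V) (e : ι → ℤ) : Prop :=
  ∀ k, L k = Sp u e k

/-- no syzygy has a non-zero constant coefficient -/
def Min {ι : Type} [Fintype ι] (u : ι → V) (e : ι → ℤ) : Prop :=
  ∀ k, ∀ c ∈ Syz u e k, ∀ i, e i = k → c i = 0

/-- finitely generated -/
def FG (L : ℤ → Submodule ℂ V) : Prop :=
  ∃ (n : ℕ) (u : Fin n → V) (e : Fin n → ℤ), Gen L u e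

/-- the family spans the vector space over `K` -/
def Full (L : ℤ → Submodule ℂ V) : Prop := ∀ v : V, ∃ (k : ℤ) (y : K), y ≠ 0 ∧ y • v ∈ L k

/-- `v` lies in `L k` locally at the generic point of the curve `g = 0` -/
def LocG (L : ℤ → Submodule ℂ V) (g : P3) (k : ℤ) (v : V) : Prop :=
  ∃ d y, Ug g d y ∧ y • v ∈ L (d + k)

/-- `v` lies in `L k` locally at the point `p` -/
def LocP (L : ℤ → Submodule ℂ V) (p : Fin 3 → ℂ) (k : ℤ) (v : V) : Prop :=
  ∃ d y, U1 p d y ∧ y • v ∈ L (d + k)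

/-- reflexive -/
def Refl (L : ℤ → Submodule ℂ V) : Prop :=
  ∀ k v, (∀ g, HPrime g → LocG L g k v) → v ∈ L k

/-- saturated -/
def Sat (L : ℤ → Submodule ℂ V) : Prop :=
  ∀ k v, (∀ i : Fin 3, tvec i • v ∈ L (k + 1)) → v ∈ L k

/-- a lattice: the sections of all twists of a vector bundle -/
structure Lat (L : ℤ → Submodule ℂ V) : Prop where
  fam : Fam L
  fg : FG L
  full : Full L
  refl : Refl L

/-- the reflexive hull -/
def hull (L : ℤ → Submodule ℂ V) (k : ℤ) : Submodule ℂ V :=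
  Submodule.span ℂ {v | ∀ g, HPrime g → LocG L g k v}

/-- the dual family for a pairing `β` -/
noncomputable def dual (β : V →ₗ[K] W →ₗ[K] K) (L : ℤ → Submodule ℂ V) (k : ℤ) :
    Submodule ℂ W where
  carrier := {w | ∀ j, ∀ v ∈ L j, β v w ∈ AA (j + k)}
  add_mem' := fun ha hb j v hv => by
    rw [map_add]; exact Submodule.add_mem _ (ha j v hv) (hb j v hv)
  zero_mem' := fun j v _ => by rw [map_zero]; exact Submodule.zero_mem _
  smul_mem' := fun c w hw j v hv => by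
    rw [LinearMap.map_smul_of_tower]; exact Submodule.smul_mem _ _ (hw j v hv)

/-- the family generated by the values of a bilinear map -/
def bil (ω : V →ₗ[K] W →ₗ[K] Y) (L : ℤ → Submodule ℂ V) (L' : ℤ → Submodule ℂ W) (k : ℤ) :
    Submodule ℂ Y :=
  Submodule.span ℂ {x | ∃ i j v w, i + j = k ∧ v ∈ L i ∧ w ∈ L' j ∧ x = ω v w}

/-- `u`, `e` is a local basis of `L` at the point `p` -/
structure LB (L : ℤ → Submodule ℂ V) (p : Fin 3 → ℂ) {ι : Type} [Fintype ι] (u : ι → V)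
    (e : ι → ℤ) : Prop where
  mem : ∀ i, u i ∈ L (e i)
  li : LinearIndependent K u
  loc : ∃ d y, U1 p d y ∧ ∀ k, ∀ v ∈ L k, y • v ∈ Sp u e (d + k)

/-- a free resolution of length one -/
structure Rs (L : ℤ → Submodule ℂ V) {n₀ n₁ : ℕ} (u : Fin n₀ → V) (e : Fin n₀ → ℤ)
    (S : Matrix (Fin n₀) (Fin n₁) P3) (d : Fin n₁ → ℤ) : Prop where
  gen : Gen L u e
  deg : ∀ i j, Hg (d j - e i) (S i j)
  li : LinearIndependent K fun j i => ev (S i j)
  syz : Gen (Syz u e) (fun j i => ev (S i j)) d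

end Fam

/-! Quadratic lattices -/

/-- the bilinear form of a matrix -/
noncomputable abbrev bf {ι : Type} [Fintype ι] [DecidableEq ι] (G : Matrix ι ι K) :
    (ι → K) →ₗ[K] (ι → K) →ₗ[K] K := Matrix.toLinearMap₂' K G

/-- the dual lattice for a form with values in the twist by `l` -/
noncomputable def sharp {ι : Type} [Fintype ι] [DecidableEq ι] (G : Matrix ι ι K)
    (U : ℤ → Submodule ℂ (ι → K)) (l k : ℤ) : Submodule ℂ (ι → K) := dual (bf G) U (k + l)

/-- a quadratic lattice of rank four with discriminant `f` -/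
structure QL (f : P3) (U : ℤ → Submodule ℂ (Fin 4 → K)) (G : Matrix (Fin 4) (Fin 4) K) (l : ℤ) :
    Prop where
  lat : Lat U
  symm : G.IsSymm
  aniso : ∀ v, v ⬝ᵥ G *ᵥ v = 0 → v = 0
  int : ∀ k, U k ≤ sharp G U l k
  sq : IsSquare (G.det * ev f)
  loc : ∀ p : Fin 3 → ℂ, p ≠ 0 → ∃ (u : Fin 4 → Fin 4 → K) (h : Fin 4 → ℤ) (y : K),
    LB U p u h ∧ U1 p (2 * ∑ i, h i + 4 * l - 6) y ∧
      (Matrix.of fun i j => u i ⬝ᵥ G *ᵥ u j).det = y * ev f

/-- the discriminant module is an invertible module on the curve `f = 0` -/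
structure QD (f : P3) (U : ℤ → Submodule ℂ (Fin 4 → K)) (G : Matrix (Fin 4) (Fin 4) K) (l m : ℤ)
    (w₀ : Fin 4 → K) (γ : P3) : Prop where
  ann : ∀ k, ∀ w ∈ sharp G U l k, ev f • w ∈ U (k + 6)
  mem : w₀ ∈ sharp G U l m
  deg : Hg (6 + 2 * m + l) γ
  val : ev γ = ev f * (w₀ ⬝ᵥ G *ᵥ w₀)
  ndvd : ¬ f ∣ γ
  inj : ∀ k, ∀ w ∈ sharp G U l k, w ⬝ᵥ G *ᵥ w₀ ∈ AA (k + m + l) → w ∈ U k
  perf : ∀ p : Fin 3 → ℂ, p ≠ 0 → ∃ j, ∃ w ∈ sharp G U l j,
    U1 p (6 + 2 * j + l) (ev f * (w ⬝ᵥ G *ᵥ w))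

/-- a minimal symmetric matrix of forms with determinant `f` -/
structure SM (f : P3) (l : ℤ) {n : ℕ} (d : Fin n → ℤ) (φ : Matrix (Fin n) (Fin n) P3) : Prop where
  symm : φ.IsSymm
  deg : ∀ i j, Hg (-l - d i - d j) (φ i j)
  min : ∀ i j, -l - d i - d j = 0 → φ i j = 0
  det : ∃ c : ℂ, c ≠ 0 ∧ φ.det = C c * f

/-- `φ` presents the saturated discriminant module -/
structure SD (f : P3) (U : ℤ → Submodule ℂ (Fin 4 → K)) (G : Matrix (Fin 4) (Fin 4) K) (l m : ℤ)
    (w₀ : Fin 4 → K) (γ : P3) {n : ℕ} (d : Fin n → ℤ) (φ Λ : Matrix (Fin n) (Fin n) P3)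
    (α : Fin n → P3) : Prop where
  sm : SM f l d φ
  symm : Λ.IsSymm
  mul : φ * Λ = f • (1 : Matrix (Fin n) (Fin n) P3)
  degΛ : ∀ i j, Hg (6 + l + d i + d j) (Λ i j)
  degα : ∀ i, Hg (6 + m + l + d i) (α i)
  cong : ∀ i j, f ∣ γ * Λ i j - α i * α j
  onto : ∀ k, ∀ w ∈ sharp G U l k, ∃ c ∈ Fr d k, ∃ a ∈ AA (k + m + l),
    ev f * (w ⬝ᵥ G *ᵥ w₀) = ∑ i, c i * ev (α i) + ev f * a
  sat : ∃ N : ℕ, ∀ i j, ∃ w ∈ sharp G U l (d i + N), ∃ a ∈ AA (d i + N + m + l),
    tvec j ^ N * ev (α i) = ev f * (w ⬝ᵥ G *ᵥ w₀) + ev f * a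

/-- the form plus a hyperbolic plane is similar to a net of quadrics in six variables -/
def Net (G : Matrix (Fin 4) (Fin 4) K) : Prop :=
  ∃ (Q : Fin 3 → Matrix (Fin 6) (Fin 6) ℂ) (c : K), c ≠ 0 ∧
    ∃ ψ : ((Fin 4 → K) × K × K) ≃ₗ[K] (Fin 6 → K),
      ∀ v a b, net Q tvec (ψ (v, a, b)) = c * (v ⬝ᵥ G *ᵥ v + a * b)

/-- the form is the sum of a symmetric matrix of conics and a square -/
structure Ver (f : P3) (G : Matrix (Fin 4) (Fin 4) K) (φ : Matrix (Fin 3) (Fin 3) P3)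
    (u : Fin 3 → Fin 4 → K) (w : Fin 4 → K) : Prop where
  symm : φ.IsSymm
  deg : ∀ i j, Hg 2 (φ i j)
  det : ∃ c : ℂ, c ≠ 0 ∧ φ.det = C c * f
  uu : ∀ i j, u i ⬝ᵥ G *ᵥ u j = ev (φ i j)
  uw : ∀ i, u i ⬝ᵥ G *ᵥ w = 0
  ww : w ⬝ᵥ G *ᵥ w = 1

/-- the symmetric matrix of a conic -/
noncomputable def hes (p : P3) (a b : Fin 3) : ℂ :=
  2⁻¹ * constantCoeff (pderiv a (pderiv b p))

/-- the second conic bundle structure of the form of bidegree two, two -/
noncomputable def psi (φ : Matrix (Fin 3) (Fin 3) P3) : Matrix (Fin 3) (Fin 3) K :=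
  Matrix.of fun a b => ∑ i, ∑ j, tvec i * tvec j * algebraMap ℂ K (hes (φ i j) a b)

/-- the second quadric fibration has no section and non-trivial discriminant -/
structure Good (φ : Matrix (Fin 3) (Fin 3) P3) : Prop where
  aniso : ∀ (w : K) (x : Fin 3 → K), w ^ 2 + x ⬝ᵥ psi φ *ᵥ x = 0 → w = 0 ∧ x = 0
  nsq : ¬ IsSquare (psi φ).det

/-! Even Clifford algebras -/

/-- the quadratic form of a matrix -/
noncomputable abbrev qf4 (G : Matrix (Fin 4) (Fin 4) K) : QuadraticForm K (Fin 4 → K) :=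
  Matrix.toQuadraticForm' G

/-- the even Clifford algebra -/
def BB (G : Matrix (Fin 4) (Fin 4) K) : Type := ↥(CliffordAlgebra.even (qf4 G))

noncomputable instance (G : Matrix (Fin 4) (Fin 4) K) : Ring (BB G) :=
  inferInstanceAs (Ring ↥(CliffordAlgebra.even (qf4 G)))

noncomputable instance (G : Matrix (Fin 4) (Fin 4) K) : Algebra K (BB G) :=
  inferInstanceAs (Algebra K ↥(CliffordAlgebra.even (qf4 G)))

noncomputable instance (G : Matrix (Fin 4) (Fin 4) K) : Algebra ℂ (BB G) :=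
  Algebra.compHom (BB G) (algebraMap ℂ K)

instance (G : Matrix (Fin 4) (Fin 4) K) : IsScalarTower ℂ K (BB G) :=
  IsScalarTower.of_algebraMap_eq fun _ => rfl

/-- the inclusion in the Clifford algebra -/
noncomputable def inc (G : Matrix (Fin 4) (Fin 4) K) : BB G →ₐ[K] CliffordAlgebra (qf4 G) :=
  (CliffordAlgebra.even (qf4 G)).val

section Cl

variable (G : Matrix (Fin 4) (Fin 4) K)

/-- the product of two vectors -/
noncomputable def mm : (Fin 4 → K) →ₗ[K] (Fin 4 → K) →ₗ[K] BB G :=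
  (CliffordAlgebra.even.ι (qf4 G)).bilin

/-- the alternating product of two vectors -/
noncomputable def wd : (Fin 4 → K) →ₗ[K] (Fin 4 → K) →ₗ[K] BB G :=
  (2⁻¹ : K) • (mm G - (mm G).flip)

/-- the alternating product of four vectors -/
noncomputable def dl (u : Fin 4 → Fin 4 → K) : BB G :=
  (6⁻¹ : K) • (wd G (u 0) (u 1) * wd G (u 2) (u 3) - wd G (u 0) (u 2) * wd G (u 1) (u 3) +
    wd G (u 0) (u 3) * wd G (u 1) (u 2) + wd G (u 1) (u 2) * wd G (u 0) (u 3) -
    wd G (u 1) (u 3) * wd G (u 0) (u 2) + wd G (u 2) (u 3) * wd G (u 0) (u 1))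

/-- the standard basis -/
noncomputable def e4 : Fin 4 → Fin 4 → K := fun i => Pi.single i 1

/-- the generator of the centre -/
noncomputable def del : BB G := dl G e4

/-- the coefficient of `del` -/
noncomputable def lam : BB G →ₗ[K] K :=
  (8 * G.det)⁻¹ • (LinearMap.trace K (BB G) ∘ₗ LinearMap.mul K (BB G) ∘ₗ
    LinearMap.mulLeft K (del G))

/-- the reversal -/
noncomputable def tau (x : BB G) : BB G :=
  (⟨CliffordAlgebra.reverse (inc G x), (CliffordAlgebra.reverse_mem_evenOdd_iff (qf4 G)).2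
    (Subtype.property (x : ↥(CliffordAlgebra.even (qf4 G))))⟩ : ↥(CliffordAlgebra.even (qf4 G)))

/-- the sandwich `u' = τ(a) u a` -/
def Sand (a : BB G) (u u' : Fin 4 → K) : Prop :=
  CliffordAlgebra.ι (qf4 G) u' = inc G (tau G a) * CliffordAlgebra.ι (qf4 G) u * inc G a

/-- the basis of the order attached to the vectors `u` and the scale `ν` -/
noncomputable def ob (ν : K) (u : Fin 4 → Fin 4 → K) : Fin 8 → BB G :=
  ![1, ν⁻¹ • wd G (u 0) (u 1), ν⁻¹ • wd G (u 0) (u 2), ν⁻¹ • wd G (u 1) (u 2),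
    ν⁻¹ • wd G (u 0) (u 3), ν⁻¹ • wd G (u 1) (u 3), ν⁻¹ • wd G (u 2) (u 3), del G]

/-- the degrees of the basis of the order -/
def od (h : Fin 4 → ℤ) (l : ℤ) : Fin 8 → ℤ :=
  ![0, h 0 + h 1 + l, h 0 + h 2 + l, h 1 + h 2 + l, h 0 + h 3 + l, h 1 + h 3 + l, h 2 + h 3 + l, 3]

/-- the order attached to the vectors `u` of degrees `h`, the scale `ν` and the twist `l` -/
noncomputable def Ord (ν : K) (u : Fin 4 → Fin 4 → K) (h : Fin 4 → ℤ) (l : ℤ) :
    ℤ → Submodule ℂ (BB G) := Sp (ob G ν u) (od h l)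

end Cl

/-- the weights `0, 0, 0, 1` -/
def wz : Fin 4 → ℤ := ![0, 0, 0, 1]

/-- a quadric surface fibration without section, with smooth discriminant curve -/
structure Cx where
  M : Matrix (Fin 4) (Fin 4) P3
  symm : M.IsSymm
  deg : ∀ i j, (M i j).IsHomogeneous (1 + H925.wt i + H925.wt j)
  smooth : SmoothForm (H925.cubicOf M)
  disc : SmoothP M.det
  aniso : ∀ v : Fin 4 → K, v ⬝ᵥ M.map ev *ᵥ v = 0 → v = 0

/-- the matrix over the function field -/
noncomputable abbrev Cx.G (C : Cx) : Matrix (Fin 4) (Fin 4) K := C.M.map ev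

/-- the even Clifford algebra of the fibration -/
abbrev Cx.B (C : Cx) : Type := BB C.G

/-- the standard basis of the even Clifford order -/
noncomputable abbrev Cx.o (C : Cx) : Fin 8 → C.B := ob C.G 1 e4

/-- the degrees `0, 1, 1, 1, 2, 2, 2, 3` -/
abbrev oz : Fin 8 → ℤ := od wz 1

/-- the even Clifford order -/
noncomputable abbrev Cx.O (C : Cx) : ℤ → Submodule ℂ C.B := Ord C.G 1 e4 wz 1

/-- the cubic fourfold is rational -/
abbrev Cx.Rat (C : Cx) : Prop := H925.NetResult.RationalHypersurface (H925.cubicOf C.M)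

/-- a lattice over the order `O` of the algebra `B` -/
structure OLg (B : Type) [Ring B] [Algebra K B] [Algebra ℂ B] (O : ℤ → Submodule ℂ B) where
  V : Type
  [acg : AddCommGroup V]
  [mC : Module ℂ V]
  [mK : Module K V]
  [mB : Module B V]
  [t₁ : IsScalarTower ℂ K V]
  [t₂ : IsScalarTower K B V]
  [t₃ : IsScalarTower ℂ B V]
  [fd : FiniteDimensional K V]
  F : ℤ → Submodule ℂ V
  lat : Lat F
  stab : ∀ j k, ∀ b ∈ O j, ∀ v ∈ F k, b • v ∈ F (j + k)

attribute [instance] OLg.acg OLg.mC OLg.mK OLg.mB OLg.t₁ OLg.t₂ OLg.t₃ OLg.fd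

/-- a lattice over the even Clifford order -/
abbrev OL (C : Cx) : Type 1 := OLg C.B C.O

variable {C : Cx}

/-- the rank over the function field -/
noncomputable abbrev rk (X : OL C) : ℕ := finrank K X.V

/-- the family of homomorphisms -/
noncomputable def HomF (X Y : OL C) (k : ℤ) : Submodule ℂ (X.V →ₗ[C.B] Y.V) where
  carrier := {φ | ∀ j, ∀ v ∈ X.F j, φ v ∈ Y.F (j + k)}
  add_mem' := fun ha hb j v hv => Submodule.add_mem _ (ha j v hv) (hb j v hv)
  zero_mem' := fun _ _ _ => Submodule.zero_mem _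
  smul_mem' := fun c _ hφ j v hv => Submodule.smul_mem _ c (hφ j v hv)

/-- the Euler form -/
noncomputable def eu (X Y : OL C) : ℤ := chi (HomF X Y)

/-- `P` is free of rank one, generated in degree `m` -/
def IsO (P : OL C) (m : ℤ) : Prop :=
  ∃ φ : P.V ≃ₗ[C.B] C.B, ∀ k v, v ∈ P.F k ↔ φ v ∈ C.O (k - m)

/-- `v`, `h` is a local basis of `X` over the order at the point `p` -/
def OB (X : OL C) (p : Fin 3 → ℂ) {a : ℕ} (v : Fin a → X.V) (h : Fin a → ℤ) : Prop :=
  LB X.F p (fun s : Fin 8 × Fin a => C.o s.1 • v s.2) fun s => oz s.1 + h s.2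

/-- the quadratic lattice `U` is locally the sandwich of the standard one by a local generator of
the rank one lattice `X` -/
def LocU (X : OL C) (φ : X.V ≃ₗ[C.B] C.B) (U : ℤ → Submodule ℂ (Fin 4 → K)) (ν : K) (l : ℤ) :
    Prop :=
  ∀ p : Fin 3 → ℂ, p ≠ 0 → ∃ (a : X.V) (h : ℤ) (u : Fin 4 → Fin 4 → K) (y : K),
    OB X p ![a] ![h] ∧ (∀ i, Sand C.G (φ a) (e4 i) (u i)) ∧
      LB U p u (fun i => wz i + 2 * h) ∧ U1 p (4 * h + l - 1) y ∧
        ∀ i j, u i ⬝ᵥ C.G *ᵥ u j = ν * y * C.G i j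

/-! Graded Clifford modules given by matrices; degrees are doubled: the variables have degree two,
the generators of the Clifford algebra degrees `1, 1, 1, 3`. -/

/-- homogeneous of doubled degree `n` -/
def Hg2 (n : ℤ) (p : P3) : Prop := p.IsWeightedHomogeneous (fun _ => (2 : ℤ)) n

/-- a graded module over the Clifford algebra that is free over the polynomial ring -/
structure CM (M : Matrix (Fin 4) (Fin 4) P3) where
  r : ℕ
  g : Fin r → ℤ
  e : Fin 4 → Matrix (Fin r) (Fin r) P3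
  deg : ∀ i a b, Hg2 (g b + (1 + 2 * wz i) - g a) (e i a b)
  cl : ∀ i j, e i * e j + e j * e i = (2 * M i j) • (1 : Matrix (Fin r) (Fin r) P3)

/-- the homomorphisms `N → N'(2 k)` of degree zero -/
noncomputable def CHom {M : Matrix (Fin 4) (Fin 4) P3} (N N' : CM M) (k : ℤ) :
    Submodule ℂ (Matrix (Fin N'.r) (Fin N.r) P3) where
  carrier := {φ | (∀ a b, Hg2 (N.g b + 2 * k - N'.g a) (φ a b)) ∧ ∀ i, φ * N.e i = N'.e i * φ}
  add_mem' := fun ha hb => ⟨fun a b => (ha.1 a b).add (hb.1 a b), fun i => by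
    rw [Matrix.add_mul, Matrix.mul_add, ha.2 i, hb.2 i]⟩
  zero_mem' := ⟨fun a b => isWeightedHomogeneous_zero _ _ _, fun i => by
    rw [Matrix.zero_mul, Matrix.mul_zero]⟩
  smul_mem' := fun c φ hφ => ⟨fun a b =>
    (weightedHomogeneousSubmodule ℂ (fun _ : Fin 3 => (2 : ℤ)) _).smul_mem c (hφ.1 a b),
    fun i => by rw [Matrix.smul_mul, Matrix.mul_smul, hφ.2 i]⟩

end Vale.Agent.P287Z.L
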