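import Vale.Agent.P287Z.L.ClB
import Vale.Agent.P287Z.L.Sk
import Vale.Agent.P287.H100.Reduced
import Vale.Agent.P287.H100.EvenFour
import Vale.Agent.P287.H100.Coord

/-!
The even Clifford algebra of an anisotropic form with non-square determinant is a division algebra.
-/

namespace Vale.Agent.P287Z.L

open Module Matrix QuadraticMap Vale.Agent.P287 Vale.Agent.P287.H100

namespace Div2

variable {F : Type} [Field F] [CharZero F]

lemma symm_ext {A B : Matrix (Fin 4) (Fin 4) F} (hA : A.IsSymm) (hB : B.IsSymm)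
    (h : ∀ v, v ⬝ᵥ A *ᵥ v = v ⬝ᵥ B *ᵥ v) : A = B := by
  ext i j
  have h1 := h (Pi.single i 1 + Pi.single j 1)
  have h2 := h (Pi.single i 1)
  have h3 := h (Pi.single j 1)
  simp only [mulVec_add, add_dotProduct, dotProduct_add, single_one_dotProduct, mulVec_single_one,
    col_apply] at h1 h2 h3
  rw [hA.apply i j, hB.apply i j] at h1
  linear_combination (h1 - h2 - h3) / 2

theorem gen (G : Matrix (Fin 4) (Fin 4) F) (hG : G.IsSymm) (Q : QuadraticForm F (Fin 4 → F))
    (hQ : ∀ v, Q v = v ⬝ᵥ G *ᵥ v) (han : ∀ v, v ⬝ᵥ G *ᵥ v = 0 → v = 0)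
    (x : CliffordAlgebra.even Q) (hx : x ≠ 0) : IsUnit x ∨ IsSquare G.det := by
  let _ : Invertible (2 : F) := invertibleOfNonzero two_ne_zero
  obtain ⟨l, δ, α, β, hl, hδ, hα, hβ, e, he⟩ := exists_four Q (by simp) fun v hv =>
    han v (by rw [← hQ, ← associated_eq_self_apply F Q v]; exact hv v)
  obtain ⟨φ⟩ := exists_even_four two_ne_zero hδ hα hβ Q hl e he
  by_cases hsq : IsSquare δ
  · right
    obtain ⟨d, hd⟩ := hsq
    let E := LinearMap.toMatrix' e.toLinearMap
    have hE : ∀ v, E *ᵥ v = e v := fun v => LinearMap.toMatrix'_mulVec _ v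
    let D : Matrix (Fin 4) (Fin 4) F := diagonal ![l, -(l * δ * α), -(l * δ * β), l * δ * α * β]
    have h1 : G = Eᵀ * D * E := symm_ext hG (by
      rw [IsSymm, transpose_mul, transpose_mul, transpose_transpose, diagonal_transpose,
        Matrix.mul_assoc]) fun v => by
      rw [← hQ, he, ← mulVec_mulVec, ← mulVec_mulVec, dotProduct_mulVec, vecMul_transpose, hE, q0]
      simp only [D, dotProduct, mulVec_diagonal, Fin.sum_univ_four, cons_val]
      ring
    refine ⟨E.det * l ^ 2 * δ * α * β * d, ?_⟩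
    rw [h1, det_mul, det_mul, det_transpose, det_diagonal, Fin.prod_univ_four]
    simp only [cons_val]
    linear_combination (E.det * l ^ 2 * δ * α * β) ^ 2 * hd
  · left
    have h1 : ∀ v, q0 δ α β v = 0 → v = 0 := fun v hv => by
      have h2 := han (e.symm v) (by rw [← hQ, he, e.apply_symm_apply, hv, mul_zero])
      exact e.symm.map_eq_zero_iff.1 h2
    have h2 : nr (φ x) ≠ 0 := fun h =>
      hx (φ.injective ((eq_zero_of_nr two_ne_zero hδ hα hβ h1 _ h).trans (map_zero φ).symm))
    have h3 : IsUnit (φ x) := isUnit_of_nr (isUnit_zf fun h => by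
      by_cases h4 : (nr (φ x)).im = 0
      · rw [h4] at h
        exact h2 (QuadraticAlgebra.ext (pow_eq_zero_iff two_ne_zero |>.1 (by
          linear_combination h)) h4)
      · refine hsq ⟨(nr (φ x)).re / (nr (φ x)).im, ?_⟩
        field_simp
        linear_combination -h)
    simpa using h3.map φ.symm

end Div2

theorem div2 : stDIV := fun G hG han x hx =>
  haveI : CharZero K := charZero_of_injective_algebraMap (algebraMap ℂ K).injective
  Div2.gen G hG (qf4 G) qf4_apply han x hx

end Vale.Agent.P287Z.L
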