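import Vale.Agent.P287Z.L.Sk

/-!
Row LF, part A: matrices and forms.
-/

namespace Vale.Agent.P287Z.L.LfA

open MvPolynomial Module Matrix Vale.Agent.P287 Vale.Agent.P287.Theta

theorem trace_zero {F ι : Type} [Field F] [CharZero F] [Fintype ι] [DecidableEq ι]
    (T : Matrix ι ι F) (g : F) (hT : T * T = g • (1 : Matrix ι ι F)) (hg : ¬ IsSquare g) :
    T.trace = 0 := by
  obtain ⟨r, hr⟩ := IsAlgClosed.exists_eq_mul_self (algebraMap F (AlgebraicClosure F) g)
  have hi := (algebraMap F (AlgebraicClosure F)).injective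
  have r0 : r ≠ 0 := by
    rintro rfl
    rw [mul_zero, map_eq_zero] at hr
    exact hg ⟨0, by rw [hr, mul_zero]⟩
  set T' := T.map (algebraMap F (AlgebraicClosure F)) with hT'
  have h1 : T' * T' = (r * r) • (1 : Matrix ι ι (AlgebraicClosure F)) := by
    rw [hT', ← Matrix.map_mul, hT, ← hr]
    ext i j
    by_cases e : i = j <;> simp [e]
  set P : Matrix ι ι (AlgebraicClosure F) := (2⁻¹ : AlgebraicClosure F) • (1 + r⁻¹ • T') with hP
  have h2 : P * P = P := by
    simp only [hP, Matrix.smul_mul, Matrix.mul_smul, Matrix.add_mul, Matrix.mul_add,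
      Matrix.one_mul, Matrix.mul_one, h1, smul_add, smul_smul]
    have e1 : r⁻¹ * (r⁻¹ * (r * r)) = 1 := by field_simp
    match_scalars <;> field_simp <;> ring
  have h3 : IsIdempotentElem (Matrix.toLin' P) := by
    show Matrix.toLin' P * Matrix.toLin' P = _
    rw [Module.End.mul_eq_comp, ← Matrix.toLin'_mul, h2]
  have h4 := (LinearMap.IsIdempotentElem.isProj_range _ h3).trace
  rw [Matrix.trace_toLin'_eq, hP, Matrix.trace_smul, Matrix.trace_add, Matrix.trace_smul,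
    Matrix.trace_one, hT', ← AddMonoidHom.map_trace] at h4
  set m := finrank (AlgebraicClosure F) (LinearMap.range (Matrix.toLin' P))
  have h5 : algebraMap F (AlgebraicClosure F) T.trace =
      algebraMap F (AlgebraicClosure F) (2 * m - Fintype.card ι) * r := by
    simp only [map_sub, map_mul, map_natCast, map_ofNat]
    rw [← h4]
    simp only [smul_eq_mul]
    field_simp
    ring
  by_contra h0
  have h6 : (2 * m - Fintype.card ι : F) ≠ 0 := fun e => by
    rw [e, map_zero, zero_mul, map_eq_zero] at h5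
    exact h0 h5
  refine hg ⟨T.trace / (2 * m - Fintype.card ι), hi ?_⟩
  have h7 : algebraMap F (AlgebraicClosure F) (2 * m - Fintype.card ι) ≠ 0 := by
    rwa [Ne, map_eq_zero]
  rw [map_mul, map_div₀, h5, hr]
  field_simp

theorem line_finite {ι : Type} [Fintype ι] [DecidableEq ι] (A B : Matrix ι ι ℂ)
    (h : A.det ≠ 0 ∨ B.det ≠ 0) : {c : ℂ | ((1 - c) • A + c • B).det = 0}.Finite := by
  set q : Polynomial ℂ := ((1 - Polynomial.X : Polynomial ℂ) • A.map Polynomial.C +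
    (Polynomial.X : Polynomial ℂ) • B.map Polynomial.C).det with hq
  have e : ∀ c, q.eval c = ((1 - c) • A + c • B).det := by
    intro c
    rw [hq, ← Polynomial.coe_evalRingHom, RingHom.map_det]
    congr 1
    ext i j
    simp
    ring
  have q0 : q ≠ 0 := fun h0 => by
    have e0 := e 0
    have e1 := e 1
    rw [h0, Polynomial.eval_zero] at e0 e1
    simp only [sub_zero, one_smul, zero_smul, add_zero, sub_self, zero_add] at e0 e1
    exact h.elim (fun a => a e0.symm) fun a => a e1.symm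
  refine (Polynomial.rootSet_finite q ℂ).subset fun c hc => ?_
  rw [Polynomial.mem_rootSet]
  exact ⟨q0, by rw [Polynomial.coe_aeval_eq_eval, e]; exact hc⟩

theorem generic {W π ι : Type} [AddCommGroup W] [Module ℂ W] [Fintype ι] [DecidableEq ι]
    (S : Submodule ℂ W) (Z : Finset π) (A : π → W → Matrix ι ι ℂ)
    (hA : ∀ p ∈ Z, ∀ v ∈ S, ∀ v' ∈ S, ∀ c : ℂ,
      A p ((1 - c) • v + c • v') = (1 - c) • A p v + c • A p v')
    (h : ∀ p ∈ Z, ∃ v ∈ S, (A p v).det ≠ 0) : ∃ v ∈ S, ∀ p ∈ Z, (A p v).det ≠ 0 := by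
  classical
  induction Z using Finset.induction_on with
  | empty => exact ⟨0, S.zero_mem, by simp⟩
  | insert p Z hp ih =>
    obtain ⟨v, hv, h1⟩ := ih (fun q hq => hA q (Finset.mem_insert_of_mem hq))
      fun q hq => h q (Finset.mem_insert_of_mem hq)
    obtain ⟨v', hv', h2⟩ := h p (Finset.mem_insert_self _ _)
    have h3 : (⋃ q ∈ (insert p Z : Finset π),
        {c : ℂ | ((1 - c) • A q v + c • A q v').det = 0}).Finite :=
      Set.Finite.biUnion (Finset.finite_toSet _) fun q hq => line_finite _ _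
        ((Finset.mem_insert.1 hq).elim (fun e => Or.inr (e ▸ h2)) fun e => Or.inl (h1 q e))
    obtain ⟨c, hc⟩ := h3.exists_notMem
    refine ⟨(1 - c) • v + c • v', S.add_mem (S.smul_mem _ hv) (S.smul_mem _ hv'), fun q hq => ?_⟩
    rw [hA q hq v hv v' hv']
    exact fun e => hc (Set.mem_biUnion hq e)

theorem hinj0 {k : ℤ} {p : P3} (h : Hg k p) (h0 : ev p = 0) : p = 0 := by
  by_contra hp
  obtain ⟨m, hm⟩ := MvPolynomial.ne_zero_iff.1 hp
  have e : ∀ m : Fin 3 →₀ ℕ, Finsupp.weight (fun _ => (1 : ℤ)) m =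
      ((Finsupp.weight (1 : Fin 3 → ℕ) m : ℕ) : ℤ) := by
    intro m
    simp [Finsupp.weight_apply, Finsupp.sum]
  have h1 : p.IsHomogeneous (Finsupp.weight (1 : Fin 3 → ℕ) m) := by
    intro m' hm'
    have := (h hm').trans (h hm).symm
    rw [e, e] at this
    exact_mod_cast this
  refine hp (cr_inj h1 (crMap_injective ?_))
  rw [crMap_cr, map_zero]
  exact h0

theorem hinj {k : ℤ} {p q : P3} (h : Hg k p) (h' : Hg k q) (h0 : ev p = ev q) : p = q :=
  sub_eq_zero.1 (hinj0 (IsWeightedHomogeneous.sub h h') (by rw [map_sub, h0, sub_self]))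

theorem hcast {k k' : ℤ} {p : P3} (h : Hg k p) (e : k = k') : Hg k' p := e ▸ h

theorem hmul {j k : ℤ} {p q : P3} (h : Hg j p) (h' : Hg k q) : Hg (j + k) (p * q) :=
  IsWeightedHomogeneous.mul h h'

theorem hC (c : ℂ) : Hg 0 (C c : P3) := isWeightedHomogeneous_C _ c

theorem hzero (k : ℤ) : Hg k (0 : P3) := isWeightedHomogeneous_zero _ _ _

theorem hsum {ι : Type} [Fintype ι] {k : ℤ} {f : ι → P3} (h : ∀ i, Hg k (f i)) :
    Hg k (∑ i, f i) := IsWeightedHomogeneous.sum _ _ _ fun i _ => h i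

theorem hpow {k : ℤ} {p : P3} (h : Hg k p) (n : ℕ) : Hg (n * k) (p ^ n) :=
  hcast (IsWeightedHomogeneous.pow h n) (nsmul_eq_mul _ _)

theorem hX (i : Fin 3) : Hg 1 (X i : P3) := isWeightedHomogeneous_X _ _ i

theorem hdet {ι : Type} [Fintype ι] [DecidableEq ι] {M : Matrix ι ι P3} {g e : ι → ℤ}
    (h : ∀ s x, Hg (g x - e s) (M s x)) : Hg (∑ x, g x - ∑ s, e s) M.det := by
  rw [Matrix.det_apply']
  refine hsum fun σ => ?_
  have h1 : Hg (∑ x, (g x - e (σ x))) (∏ x, M (σ x) x) :=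
    IsWeightedHomogeneous.prod _ _ _ fun x _ => h _ _
  have h2 : Hg 0 (((Equiv.Perm.sign σ : ℤ) : ℤ) : P3) := by
    rw [← map_intCast (C : ℂ →+* P3)]
    exact hC _
  refine hcast (hmul h2 h1) ?_
  rw [zero_add, Finset.sum_sub_distrib, Equiv.sum_comp σ e]

theorem mem_AA {k : ℤ} {y : K} : y ∈ AA k ↔ ∃ b, Hg k b ∧ ev b = y := Iff.rfl

section

variable {V : Type} [AddCommGroup V] [Module ℂ V] [Module K V] [IsScalarTower ℂ K V]

theorem mem_Sp {ι : Type} [Fintype ι] {u : ι → V} {e : ι → ℤ} {k : ℤ} {v : V} :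
    v ∈ Sp u e k ↔ ∃ c : ι → P3, (∀ s, Hg (k - e s) (c s)) ∧ v = ∑ s, ev (c s) • u s := by
  constructor
  · rintro ⟨c, hc, rfl⟩
    choose b hb hb' using fun s => mem_AA.1 (hc s (Set.mem_univ s))
    refine ⟨b, hb, ?_⟩
    simp only [hb', LinearMap.restrictScalars_apply, Fintype.linearCombination_apply]
  · rintro ⟨c, hc, rfl⟩
    exact ⟨fun s => ev (c s), fun s _ => mem_AA.2 ⟨c s, hc s, rfl⟩, rfl⟩

theorem lb_reindex {L : ℤ → Submodule ℂ V} {p : Fin 3 → ℂ} {ι κ : Type} [Fintype ι] [Fintype κ]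
    {u : ι → V} {e : ι → ℤ} (h : LB L p u e) (σ : κ ≃ ι) : LB L p (u ∘ σ) (e ∘ σ) := by
  obtain ⟨d, y, hy, h3⟩ := h.loc
  refine ⟨fun i => h.mem _, h.li.comp σ σ.injective, d, y, hy, fun k v hv => ?_⟩
  obtain ⟨c, hc, e1⟩ := mem_Sp.1 (h3 k v hv)
  refine mem_Sp.2 ⟨c ∘ σ, fun s => hc _, ?_⟩
  rw [e1]
  exact (Equiv.sum_comp σ fun s => ev (c s) • u s).symm

end

end Vale.Agent.P287Z.L.LfA
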