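import Vale.Agent.P287Z.L.LfA

/-!
Row LF, part B: the fibre of a lattice at a point.
-/

namespace Vale.Agent.P287Z.L.LfA

open MvPolynomial Module Matrix Vale.Agent.P287 Vale.Agent.P287.Theta

variable {V : Type} [AddCommGroup V] [Module ℂ V] [Module K V] [IsScalarTower ℂ K V]

/-- a local basis with its coordinates -/
structure Loc (F : ℤ → Submodule ℂ V) (p : Fin 3 → ℂ) (ι : Type) [Fintype ι] where
  u : ι → V
  e : ι → ℤ
  d : ℤ
  Y : P3
  cf : ℤ → V → ι → P3
  fam : Fam F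
  lb : LB F p u e
  hY : Hg d Y
  Yp : eval p Y ≠ 0
  deg : ∀ k, ∀ v ∈ F k, ∀ s, Hg (d + k - e s) (cf k v s)
  eq : ∀ k, ∀ v ∈ F k, ev Y • v = ∑ s, ev (cf k v s) • u s

variable {F : ℤ → Submodule ℂ V} {p : Fin 3 → ℂ} {ι : Type} [Fintype ι]

theorem exists_loc (hF : Fam F) {u : ι → V} {e : ι → ℤ} (h : LB F p u e) :
    Nonempty (Loc F p ι) := by
  obtain ⟨d, y, ⟨Y, hY, rfl, Yp⟩, h3⟩ := h.loc
  have h4 : ∀ (k : ℤ) (v : V), ∃ c : ι → P3, v ∈ F k →
      (∀ s, Hg (d + k - e s) (c s)) ∧ ev Y • v = ∑ s, ev (c s) • u s := by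
    intro k v
    by_cases hv : v ∈ F k
    · obtain ⟨c, hc⟩ := mem_Sp.1 (h3 k v hv)
      exact ⟨c, fun _ => hc⟩
    · exact ⟨0, fun a => absurd a hv⟩
  choose cf hcf using h4
  exact ⟨⟨u, e, d, Y, cf, hF, h, hY, Yp, fun k v hv => (hcf k v hv).1,
    fun k v hv => (hcf k v hv).2⟩⟩

/-- operators of degree `j` -/
def Dg (F : ℤ → Submodule ℂ V) (T : Module.End K V) (j : ℤ) : Prop :=
  ∀ k, ∀ v ∈ F k, T v ∈ F (j + k)

omit [IsScalarTower ℂ K V] in
theorem Dg.mul {T T' : Module.End K V} {j j' : ℤ} (h : Dg F T j) (h' : Dg F T' j') :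
    Dg F (T * T') (j + j') := fun k v hv => by
  rw [add_assoc]
  exact h _ _ (h' k v hv)

namespace Loc

variable (A : Loc F p ι)

include A in
theorem smul_mem {j k : ℤ} {β : P3} (hβ : Hg j β) {v : V} (hv : v ∈ F k) :
    ev β • v ∈ F (j + k) := A.fam _ _ _ (mem_AA.2 ⟨β, hβ, rfl⟩) v hv

theorem uniq {m : ℤ} {c c' : ι → P3} (h : ∀ s, Hg (m - A.e s) (c s))
    (h' : ∀ s, Hg (m - A.e s) (c' s))
    (e : ∑ s, ev (c s) • A.u s = ∑ s, ev (c' s) • A.u s) : c = c' := by
  have h1 : ∑ s, (ev (c s) - ev (c' s)) • A.u s = 0 := by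
    simp only [sub_smul, Finset.sum_sub_distrib, e, sub_self]
  funext s
  exact hinj (h s) (h' s) (sub_eq_zero.1 (Fintype.linearIndependent_iff.1 A.lb.li _ h1 s))

theorem cf_add {k : ℤ} {v v' : V} (hv : v ∈ F k) (hv' : v' ∈ F k) :
    A.cf k (v + v') = A.cf k v + A.cf k v' := by
  refine A.uniq (A.deg k _ (add_mem hv hv'))
    (fun s => IsWeightedHomogeneous.add (A.deg k v hv s) (A.deg k v' hv' s)) ?_
  rw [← A.eq k _ (add_mem hv hv'), smul_add, A.eq k v hv, A.eq k v' hv', ← Finset.sum_add_distrib]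
  simp only [Pi.add_apply, map_add, add_smul]

theorem cf_smul {j k : ℤ} {β : P3} (hβ : Hg j β) {v : V} (hv : v ∈ F k) :
    A.cf (j + k) (ev β • v) = β • A.cf k v := by
  refine A.uniq (A.deg _ _ (A.smul_mem hβ hv))
    (fun s => hcast (hmul hβ (A.deg k v hv s)) (by ring)) ?_
  rw [← A.eq _ _ (A.smul_mem hβ hv), smul_comm, A.eq k v hv, Finset.smul_sum]
  simp only [Pi.smul_apply, smul_eq_mul, map_mul, mul_smul]

variable [DecidableEq ι]

theorem cf_u (t : ι) : A.cf (A.e t) (A.u t) = Pi.single t A.Y := by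
  refine A.uniq (A.deg _ _ (A.lb.mem t)) (fun s => ?_) ?_
  · by_cases h : s = t
    · subst h
      rw [Pi.single_eq_same]
      exact hcast A.hY (by ring)
    · rw [Pi.single_eq_of_ne h]
      exact hzero _
  · rw [← A.eq _ _ (A.lb.mem t), Finset.sum_eq_single t, Pi.single_eq_same]
    · intro s _ h
      rw [Pi.single_eq_of_ne h, map_zero, zero_smul]
    · exact fun h => absurd (Finset.mem_univ t) h

/-- the matrix of forms of an operator -/
noncomputable def mat (T : Module.End K V) (j : ℤ) : Matrix ι ι P3 :=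
  Matrix.of fun s t => A.cf (j + A.e t) (T (A.u t)) s

omit [DecidableEq ι] in
theorem mat_deg {T : Module.End K V} {j : ℤ} (h : Dg F T j) (s t : ι) :
    Hg (A.d + (j + A.e t) - A.e s) (A.mat T j s t) := A.deg _ _ (h _ _ (A.lb.mem t)) s

omit [DecidableEq ι] in
theorem cf_op {T : Module.End K V} {j k : ℤ} (h : Dg F T j) {v : V} (hv : v ∈ F k) :
    A.Y • A.cf (j + k) (T v) = A.mat T j *ᵥ A.cf k v := by
  refine A.uniq (m := A.d + A.d + j + k)
    (fun s => hcast (hmul A.hY (A.deg _ _ (h k v hv) s)) (by ring))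
    (fun s => hsum fun t => hcast (hmul (A.mat_deg h s t) (A.deg k v hv t)) (by ring)) ?_
  have e1 : ∑ s, ev ((A.Y • A.cf (j + k) (T v)) s) • A.u s = ev A.Y • ev A.Y • T v := by
    rw [A.eq _ _ (h k v hv), Finset.smul_sum]
    simp only [Pi.smul_apply, smul_eq_mul, map_mul, mul_smul]
  have e2 : ∀ t, ev A.Y • T (ev (A.cf k v t) • A.u t) =
      ∑ s, ev (A.mat T j s t * A.cf k v t) • A.u s := by
    intro t
    rw [map_smul, smul_comm, A.eq _ _ (h _ _ (A.lb.mem t)), Finset.smul_sum]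
    refine Finset.sum_congr rfl fun s _ => ?_
    rw [map_mul, mul_comm, mul_smul]
    rfl
  rw [e1, ← map_smul T, A.eq k v hv, map_sum, Finset.smul_sum]
  simp only [e2]
  rw [Finset.sum_comm]
  refine Finset.sum_congr rfl fun s _ => ?_
  rw [← Finset.sum_smul, ← map_sum]
  rfl

omit [DecidableEq ι] in
theorem mat_mul {T T' : Module.End K V} {j j' : ℤ} (h : Dg F T j) (h' : Dg F T' j') :
    A.mat T j * A.mat T' j' = A.Y • A.mat (T * T') (j + j') := by
  ext1 s t
  have := congrFun (A.cf_op h (h' _ _ (A.lb.mem t))) s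
  rw [← add_assoc] at this
  exact this.symm

theorem mat_sc {j : ℤ} {β : P3} (hβ : Hg j β) :
    A.mat (algebraMap K (Module.End K V) (ev β)) j = (β * A.Y) • (1 : Matrix ι ι P3) := by
  ext1 s t
  have := congrFun (A.cf_smul hβ (A.lb.mem t)) s
  rw [A.cf_u] at this
  refine Eq.trans this ?_
  by_cases h : s = t
  · subst h
    simp
  · simp [h]

/-- the value in the fibre -/
noncomputable def φ (k : ℤ) (v : V) : ι → ℂ := fun s => (eval p A.Y)⁻¹ * eval p (A.cf k v s)

/-- the operator on the fibre -/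
noncomputable def m (T : Module.End K V) (j : ℤ) : Matrix ι ι ℂ :=
  (eval p A.Y)⁻¹ • (A.mat T j).map (eval p)

omit [DecidableEq ι] in
theorem φ_add {k : ℤ} {v v' : V} (hv : v ∈ F k) (hv' : v' ∈ F k) :
    A.φ k (v + v') = A.φ k v + A.φ k v' := by
  funext s
  simp only [φ, A.cf_add hv hv', Pi.add_apply, map_add, mul_add]

omit [DecidableEq ι] in
theorem φ_smul {j k : ℤ} {β : P3} (hβ : Hg j β) {v : V} (hv : v ∈ F k) :
    A.φ (j + k) (ev β • v) = eval p β • A.φ k v := by
  funext s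
  simp only [φ, A.cf_smul hβ hv, Pi.smul_apply, smul_eq_mul, map_mul]
  ring

omit [DecidableEq ι] in
theorem φ_c {k : ℤ} (c : ℂ) {v : V} (hv : v ∈ F k) : A.φ k (c • v) = c • A.φ k v := by
  have := A.φ_smul (hC c) hv
  rw [zero_add, eval_C, ← MvPolynomial.algebraMap_eq, AlgHom.commutes, algebraMap_smul] at this
  exact this

omit [DecidableEq ι] in
theorem φ_sum {κ : Type} (s : Finset κ) {k : ℤ} {v : κ → V} (hv : ∀ i, v i ∈ F k) :
    A.φ k (∑ i ∈ s, v i) = ∑ i ∈ s, A.φ k (v i) := by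
  classical
  induction s using Finset.induction_on with
  | empty =>
    have := A.φ_c 0 (F k).zero_mem
    rw [zero_smul, zero_smul] at this
    rw [Finset.sum_empty, Finset.sum_empty, this]
  | insert a s ha ih =>
    rw [Finset.sum_insert ha, Finset.sum_insert ha,
      A.φ_add (hv a) (Submodule.sum_mem _ fun i _ => hv i), ih]

theorem φ_u (t : ι) : A.φ (A.e t) (A.u t) = Pi.single t 1 := by
  funext s
  by_cases h : s = t
  · subst h
    simp only [φ, A.cf_u, Pi.single_eq_same]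
    exact inv_mul_cancel₀ A.Yp
  · simp only [φ, A.cf_u, Pi.single_eq_of_ne h, map_zero, mul_zero]

omit [DecidableEq ι] in
theorem φ_op {T : Module.End K V} {j k : ℤ} (h : Dg F T j) {v : V} (hv : v ∈ F k) :
    A.φ (j + k) (T v) = A.m T j *ᵥ A.φ k v := by
  funext s
  have h1 := congrArg (eval p) (congrFun (A.cf_op h hv) s)
  simp only [Pi.smul_apply, smul_eq_mul, map_mul, mulVec, dotProduct, map_sum] at h1
  have h2 := A.Yp
  have h3 : ∀ t, (eval p A.Y)⁻¹ * eval p (A.mat T j s t) * ((eval p A.Y)⁻¹ * eval p (A.cf k v t)) =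
      (eval p A.Y)⁻¹ * (eval p A.Y)⁻¹ * (eval p (A.mat T j s t) * eval p (A.cf k v t)) :=
    fun t => by ring
  simp only [φ, m, mulVec, dotProduct, Matrix.smul_apply, Matrix.map_apply, smul_eq_mul, h3]
  rw [← Finset.mul_sum, ← h1]
  field_simp

omit [DecidableEq ι] in
theorem m_mul {T T' : Module.End K V} {j j' : ℤ} (h : Dg F T j) (h' : Dg F T' j') :
    A.m T j * A.m T' j' = A.m (T * T') (j + j') := by
  ext1 s t
  have := congrFun (A.φ_op h (h' _ _ (A.lb.mem t))) s
  rw [← add_assoc] at this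
  exact this.symm

theorem m_sc {j : ℤ} {β : P3} (hβ : Hg j β) :
    A.m (algebraMap K (Module.End K V) (ev β)) j = eval p β • (1 : Matrix ι ι ℂ) := by
  ext1 s t
  have := congrFun (A.φ_smul hβ (A.lb.mem t)) s
  rw [A.φ_u] at this
  refine Eq.trans this ?_
  by_cases h : s = t
  · subst h
    simp
  · simp [h]

omit [DecidableEq ι] in
theorem m_neg {T : Module.End K V} {j : ℤ} (h : Dg F T j) : A.m (-T) j = -A.m T j := by
  ext1 s t
  have := congrFun (A.φ_c (-1) (h _ _ (A.lb.mem t))) s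
  rw [neg_one_smul, neg_one_smul] at this
  exact this

theorem φ_onto (hp : p ≠ 0) {N : ℤ} (hN : ∀ s, A.e s ≤ N) (w : ι → ℂ) :
    ∃ v ∈ F N, A.φ N v = w := by
  obtain ⟨i, hi⟩ := Function.ne_iff.1 hp
  have hi' : p i ≠ 0 := hi
  have h1 : ∀ s, Hg (N - A.e s) (X i ^ (N - A.e s).toNat : P3) := fun s =>
    hcast (hpow (hX i) _) (by rw [Int.toNat_of_nonneg (by linarith [hN s]), mul_one])
  have h2 : ∀ s, ev (X i ^ (N - A.e s).toNat : P3) • A.u s ∈ F N := fun s => by
    have := A.smul_mem (h1 s) (A.lb.mem s)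
    rwa [sub_add_cancel] at this
  refine ⟨∑ s, (w s / p i ^ (N - A.e s).toNat) • ev (X i ^ (N - A.e s).toNat : P3) • A.u s,
    Submodule.sum_mem _ fun s _ => Submodule.smul_mem _ _ (h2 s), ?_⟩
  rw [A.φ_sum _ fun s => Submodule.smul_mem _ _ (h2 s)]
  conv_rhs => rw [← Finset.univ_sum_single w]
  refine Finset.sum_congr rfl fun s _ => ?_
  have h3 := A.φ_smul (h1 s) (A.lb.mem s)
  rw [sub_add_cancel, A.φ_u, map_pow (eval p), eval_X] at h3
  rw [A.φ_c _ (h2 s), h3, smul_smul, div_mul_cancel₀ _ (pow_ne_zero _ hi'), ← Pi.single_smul,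
    smul_eq_mul, mul_one]

theorem sq_facts {T : Module.End K V} {j : ℤ} {f : P3} (h : Dg F T j) (hf : Hg (j + j) f)
    (hT : T * T = algebraMap K (Module.End K V) (ev f)) (hn : ¬ IsSquare (ev f))
    (hs : SmoothP f) (hp : p ≠ 0) : (A.m T j).trace = 0 ∧
      (eval p f = 0 → ∀ w, A.m T j *ᵥ w = 0 → ∃ w', w = A.m T j *ᵥ w') := by
  have h1 : A.mat T j * A.mat T j = (A.Y * A.Y * f) • (1 : Matrix ι ι P3) := by
    rw [A.mat_mul h h, hT, A.mat_sc hf, smul_smul]
    congr 1
    ring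
  have hY := A.Yp
  constructor
  · have : CharZero K := charZero_of_injective_algebraMap (algebraMap ℂ K).injective
    have y0 : ev A.Y ≠ 0 := fun e => hY (by rw [hinj0 A.hY e, map_zero])
    have h2 : ((A.mat T j).map ev).trace = 0 := by
      refine trace_zero _ (ev (A.Y * A.Y * f)) ?_ fun ⟨r, hr⟩ => hn ⟨r / ev A.Y, ?_⟩
      · rw [← Matrix.map_mul, h1]
        ext s t
        by_cases e : s = t <;> simp [e]
      · rw [map_mul, map_mul] at hr
        rw [div_mul_div_comm, ← hr, mul_div_cancel_left₀ _ (mul_ne_zero y0 y0)]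
    have h3 : (A.mat T j).trace = 0 := by
      refine hinj0 (k := A.d + j) (hsum fun s => hcast (A.mat_deg h s s) (by ring)) ?_
      rw [← h2, Matrix.trace, map_sum]
      rfl
    have h4 : ((A.mat T j).map (eval p)).trace = eval p (A.mat T j).trace := by
      rw [Matrix.trace, Matrix.trace, map_sum]
      rfl
    rw [m, Matrix.trace_smul, h4, h3, map_zero, smul_zero]
  · intro h0 w hw
    obtain ⟨i, hi⟩ : ∃ i, eval p (pderiv i f) ≠ 0 := by
      by_contra hc
      exact hp (hs p fun i => not_not.1 fun e => hc ⟨i, e⟩)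
    set B := (A.mat T j).map (eval p) with hB
    set B' := (A.mat T j).map fun q => eval p (pderiv i q) with hB'
    have h2 : B' * B + B * B' =
        (eval p A.Y * eval p A.Y * eval p (pderiv i f)) • (1 : Matrix ι ι ℂ) := by
      ext s t
      have h3 := congrArg (fun q => eval p (pderiv i q)) (congrFun (congrFun h1 s) t)
      simp only [Matrix.mul_apply, map_sum, pderiv_mul, map_add, map_mul, Finset.sum_add_distrib,
        Matrix.smul_apply, smul_eq_mul, h0] at h3
      simp only [hB, hB', Matrix.add_apply, Matrix.mul_apply, Matrix.map_apply, Matrix.smul_apply,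
        smul_eq_mul]
      rw [h3]
      by_cases e : s = t
      · subst e
        simp
      · simp [e]
    have h3 : B *ᵥ w = 0 := by
      rw [m, smul_mulVec, smul_eq_zero] at hw
      exact hw.resolve_left (inv_ne_zero hY)
    have h4 := congrArg (· *ᵥ w) h2
    simp only [add_mulVec, ← mulVec_mulVec, h3, mulVec_zero, zero_add, smul_mulVec,
      one_mulVec] at h4
    refine ⟨(eval p A.Y * eval p (pderiv i f))⁻¹ • B' *ᵥ w, ?_⟩
    rw [m, smul_mulVec, mulVec_smul, h4, smul_smul, smul_smul]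
    have e : (eval p A.Y)⁻¹ * (eval p A.Y * eval p (pderiv i f))⁻¹ *
        (eval p A.Y * eval p A.Y * eval p (pderiv i f)) = 1 := by field_simp
    rw [e, one_smul]

theorem lb_of [FiniteDimensional K V] (hD : stDET) (hL : Lat F) (hp : p ≠ 0)
    (hc : Fintype.card ι = finrank K V) {w : ι → V} {g : ι → ℤ} (hw : ∀ x, w x ∈ F (g x))
    (h : (Matrix.of fun s x => A.φ (g x) (w x) s).det ≠ 0) : LB F p w g := by
  set b := basisOfLinearIndependentOfCardEqFinrank' A.u A.lb.li hc with hb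
  have hbu : ⇑b = A.u := coe_basisOfLinearIndependentOfCardEqFinrank' _ _ _
  obtain ⟨ν, -, h1⟩ := hD V F ι b hL
  obtain ⟨U, hU, eU, pU⟩ := ((h1 A.u A.e A.lb.mem).2 p hp).1 A.lb
  obtain ⟨⟨W, hW, eW⟩, h2⟩ := h1 w g hw
  have eW' : ev W = b.det w / ν := eW
  refine (h2 p hp).2 ⟨W, hW, eW', fun h0 => h ?_⟩
  set M : Matrix ι ι P3 := Matrix.of fun s x => A.cf (g x) (w x) s with hM
  have h3 : (ev A.Y) • b.toMatrix w = M.map ev := by
    ext s x
    have e1 := A.eq _ _ (hw x)
    rw [← hbu] at e1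
    rw [Matrix.smul_apply, Basis.toMatrix_apply, ← Finsupp.smul_apply, ← map_smul, e1,
      Basis.repr_sum_self]
    rfl
  have h4 : ev A.Y ^ Fintype.card ι * b.det w = ev M.det := by
    rw [Basis.det_apply, ← Matrix.det_smul, h3, AlgHom.map_det]
    rfl
  have h5 : A.Y ^ Fintype.card ι * W = M.det * U := by
    refine hinj (hmul (hpow A.hY _) hW) (hcast (hmul (hdet (g := fun x => A.d + g x) (e := A.e)
      fun s x => A.deg _ _ (hw x) s) hU) ?_) ?_
    · rw [Finset.sum_add_distrib, Finset.sum_const, Finset.card_univ, nsmul_eq_mul]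
      ring
    · rw [map_mul, map_mul, map_pow, eW', eU, ← h4, ← hbu, Basis.det_self, mul_div_assoc',
        mul_one_div]
  have h6 := congrArg (eval p) h5
  rw [map_mul, map_mul, h0, mul_zero] at h6
  have h7 : eval p M.det = 0 := (mul_eq_zero.1 h6.symm).resolve_right pU
  have h8 : (Matrix.of fun s x => A.φ (g x) (w x) s) = (eval p A.Y)⁻¹ • M.map (eval p) := rfl
  rw [RingHom.map_det] at h7
  rw [h8, Matrix.det_smul]
  exact mul_eq_zero_of_right _ h7

end Loc

end Vale.Agent.P287Z.L.LfA
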