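import Vale.Agent.P287Z.L.Basic

/-!
Families that agree outside finitely many points: the difference of the dimensions is eventually
constant, and even when two anticommuting invertible operators act.
-/

namespace Vale.Agent.P287Z.L

open MvPolynomial Module Filter Matrix Vale.Agent.P287 Vale.Agent.P287.Theta

namespace Pts

theorem u1_smul {z : Fin 3 → ℂ} {d : ℤ} {y : K} (h : U1 z d y) {c : ℂ} (hc : c ≠ 0) :
    U1 (c • z) d y := by
  obtain ⟨b, h1, h2, h3⟩ := h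
  exact ⟨b, h1, h2, by rw [h1.eval_smul]; exact mul_ne_zero (pow_ne_zero _ hc) h3⟩

/-- rank and nullity -/
theorem rn {V T : Type} [AddCommGroup V] [Module ℂ V] [AddCommGroup T] [Module ℂ T]
    {N N' : Submodule ℂ V} [Module.Finite ℂ N'] (h : N ≤ N') (f : N' →ₗ[ℂ] T)
    (hs : Function.Surjective f) (hk : ∀ v, f v = 0 ↔ v.1 ∈ N) :
    finrank ℂ N' = finrank ℂ N + finrank ℂ T := by
  have h1 := f.finrank_range_add_finrank_ker
  rw [LinearMap.range_eq_top.2 hs, finrank_top,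
    show LinearMap.ker f = N.comap N'.subtype from Submodule.ext hk,
    (Submodule.comapSubtypeEquivOfLe h).finrank_eq] at h1
  omega

theorem even_of {T : Type} [AddCommGroup T] [Module ℂ T] [Module.Finite ℂ T] (I J : T →ₗ[ℂ] T)
    (hI : Function.Injective I) (hJ : Function.Injective J) (h : I ∘ₗ J = -(J ∘ₗ I)) :
    Even (finrank ℂ T) := by
  have h1 := congrArg LinearMap.det h
  rw [← neg_one_smul ℂ (J ∘ₗ I), LinearMap.det_smul, LinearMap.det_comp, LinearMap.det_comp] at h1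
  have k : ∀ f : T →ₗ[ℂ] T, Function.Injective f → LinearMap.det f ≠ 0 := fun f hf e =>
    (LinearMap.det_eq_zero_iff_ker_ne_bot.1 e) (LinearMap.ker_eq_bot.2 hf)
  by_contra ho
  rw [(Nat.not_even_iff_odd.1 ho).neg_one_pow] at h1
  exact mul_ne_zero (k I hI) (k J hJ) (by linear_combination h1 / 2)

variable {V : Type} [AddCommGroup V] [Module ℂ V] [Module K V] [IsScalarTower ℂ K V]

/-- `N` and `N'` agree outside the points of `Z` -/
structure Sup (N N' : ℤ → Submodule ℂ V) (Z : Finset (Fin 3 → ℂ)) : Prop where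
  fam : Fam N
  fam' : Fam N'
  fg : FG N'
  le : ∀ k, N k ≤ N' k
  loc : ∀ p : Fin 3 → ℂ, p ≠ 0 → (∃ z ∈ Z, ∃ c : ℂ, c ≠ 0 ∧ p = c • z) ∨
    ∀ k, ∀ v ∈ N' k, LocP N p k v

variable {N N' : ℤ → Submodule ℂ V} {Z : Finset (Fin 3 → ℂ)}

theorem fin_of (h : FG N) (k : ℤ) : Module.Finite ℂ (N k) := by
  obtain ⟨n, u, e, h⟩ := h
  rw [h k, Module.Finite.iff_fg]
  exact (Submodule.fg_pi fun i => Module.Finite.iff_fg.1 (finite_AA _)).map _

/-- multiplication by a scalar -/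
noncomputable abbrev ml (V : Type) [AddCommGroup V] [Module ℂ V] [Module K V]
    [IsScalarTower ℂ K V] (y : K) : V →ₗ[ℂ] V := (LinearMap.lsmul K V y).restrictScalars ℂ

theorem Sup.inj (hN : stNOETH) (hV : stVAN) (h : Sup N N' Z) {d : ℤ} {y : K}
    (hy : ∀ z ∈ Z, U1 z d y) :
    ∀ᶠ k in atTop, ∀ v ∈ N' k, y • v ∈ N (d + k) → v ∈ N k := by
  by_cases hZ : Z = ∅
  · subst hZ
    filter_upwards [(hV V N N' h.fam h.fg h.le fun p hp => (h.loc p hp).resolve_left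
      (by simp)).1] with k hk v hv _
    exact hk ▸ hv
  obtain ⟨z0, hz0⟩ := Finset.nonempty_iff_ne_empty.2 hZ
  have hy0 := (hy z0 hz0).mem
  let N1 : ℤ → Submodule ℂ V := fun k => N' k ⊓ (N (d + k)).comap (ml V y)
  have f1 : Fam N1 := fun e k a ha v hv => ⟨h.fam' e k a ha v hv.1, by
    have := h.fam e _ a ha _ hv.2
    rw [add_left_comm] at this
    show y • a • v ∈ N (d + (e + k))
    rwa [smul_comm]⟩
  refine (hV V N N1 h.fam (hN V N' N1 h.fg f1 fun k => inf_le_left)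
    (fun k v hv => ⟨h.le k hv, h.fam d k y hy0 v hv⟩) fun p hp k v hv => ?_).1.mono
      fun k hk v hv h2 => hk ▸ (⟨hv, h2⟩ : v ∈ N1 k)
  rcases h.loc p hp with ⟨z, hz, c, hc, rfl⟩ | h3
  · exact ⟨d, y, u1_smul (hy z hz) hc, hv.2⟩
  · exact h3 k v hv.1

theorem Sup.surj (hV : stVAN) (h : Sup N N' Z) {d : ℤ} {y : K} (hy0 : y ∈ AA d)
    (hy : ∀ z ∈ Z, U1 z d y) :
    ∀ᶠ k in atTop, ∀ v ∈ N' k, ∃ w ∈ N' (k - d), v - y • w ∈ N k := by
  let N2 : ℤ → Submodule ℂ V := fun k => N k ⊔ (N' (k - d)).map (ml V y)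
  have m2 : ∀ k v, v ∈ N2 k ↔ ∃ w ∈ N' (k - d), v - y • w ∈ N k := fun k v => by
    constructor
    · intro hv
      obtain ⟨a, ha, _, ⟨w, hw, rfl⟩, rfl⟩ := Submodule.mem_sup.1 hv
      exact ⟨w, hw, by simpa using ha⟩
    · rintro ⟨w, hw, h1⟩
      exact Submodule.mem_sup.2 ⟨_, h1, y • w, ⟨w, hw, rfl⟩, sub_add_cancel _ _⟩
  have f2 : Fam N2 := fun e k a ha v hv => by
    obtain ⟨w, hw, h1⟩ := (m2 k v).1 hv
    refine (m2 _ _).2 ⟨a • w, add_sub_assoc e k d ▸ h.fam' e _ a ha w hw, ?_⟩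
    rw [smul_comm y, ← smul_sub]
    exact h.fam e k a ha _ h1
  refine (hV V N2 N' f2 h.fg (fun k v hv => ?_) fun p hp k v hv => ?_).1.mono
    fun k hk v hv => (m2 k v).1 (hk ▸ hv)
  · obtain ⟨w, hw, h1⟩ := (m2 k v).1 hv
    have h2 := h.fam' d _ y hy0 w hw
    rw [add_sub_cancel] at h2
    simpa using (N' k).add_mem (h.le k h1) h2
  · rcases h.loc p hp with ⟨z, hz, c, hc, rfl⟩ | h3
    · exact ⟨d, y, u1_smul (hy z hz) hc, (m2 _ _).2 ⟨v, by simpa using hv, by simp⟩⟩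
    · obtain ⟨e, x, h4, h5⟩ := h3 k v hv
      exact ⟨e, x, h4, Submodule.mem_sup_left h5⟩

/-- the part of degree zero of the localization at `y` -/
def lc (y : K) (N : ℤ → Submodule ℂ V) : Submodule ℂ V where
  carrier := {v | ∀ᶠ k : ℤ in atTop, y ^ k • v ∈ N k}
  add_mem' := fun ha hb => (Filter.Eventually.and ha hb).mono fun k hk => by
    rw [smul_add]; exact Submodule.add_mem _ hk.1 hk.2
  zero_mem' := Eventually.of_forall fun k => by rw [smul_zero]; exact Submodule.zero_mem _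
  smul_mem' := fun c v hv => Filter.Eventually.mono hv fun k hk => by
    rw [smul_comm]; exact Submodule.smul_mem _ _ hk

omit [IsScalarTower ℂ K V] in
theorem pow_mem (h : Fam N) {y : K} (hy : y ∈ AA 1) {k : ℤ} {v : V} (hv : v ∈ N k) (n : ℕ) :
    y ^ n • v ∈ N (k + n) := by
  induction n with
  | zero => simpa using hv
  | succ n ih =>
    rw [pow_succ', mul_smul, show k + (n + 1 : ℕ) = 1 + (k + n) by push_cast; ring]
    exact h 1 _ y hy _ ih

theorem mem_lc (h : Fam N) {y : K} (hy : y ∈ AA 1) (y0 : y ≠ 0) {k : ℤ} {v : V}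
    (hv : y ^ k • v ∈ N k) : v ∈ lc y N := by
  filter_upwards [eventually_ge_atTop k] with j hj
  obtain ⟨n, rfl⟩ := Int.le.dest hj
  have := pow_mem h hy hv n
  rwa [← mul_smul, ← zpow_natCast, ← zpow_add₀ y0, add_comm (n : ℤ)] at this

/-- an operator of degree `i` acts on the localization -/
theorem lc_op {y : K} (y0 : y ≠ 0) (I : V →ₗ[K] V) {i : ℤ} (hI : ∀ k, ∀ v ∈ N k, I v ∈ N (i + k))
    {v : V} (hv : v ∈ lc y N) : y ^ (-i) • I v ∈ lc y N := by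
  filter_upwards [(tendsto_atTop_add_const_right _ (-i) tendsto_id).eventually hv] with k hk
  have := hI _ _ hk
  rwa [map_smul, id, zpow_add₀ y0, mul_smul, add_comm i, neg_add_cancel_right] at this

theorem Sup.gap (hN : stNOETH) (hV : stVAN) (h : Sup N N' Z) {y : K}
    (hy0 : y ∈ AA 1) (y0 : y ≠ 0) (hy : ∀ z ∈ Z, U1 z 1 y) (I J : V →ₗ[K] V) {i j : ℤ}
    {a b : K} (hI : ∀ k, ∀ v ∈ N k, I v ∈ N (i + k)) (hI' : ∀ k, ∀ v ∈ N' k, I v ∈ N' (i + k))
    (hJ : ∀ k, ∀ v ∈ N k, J v ∈ N (j + k)) (hJ' : ∀ k, ∀ v ∈ N' k, J v ∈ N' (j + k))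
    (hIJ : ∀ v, I (J v) = -J (I v)) (hII : ∀ v, I (I v) = a • v) (hJJ : ∀ v, J (J v) = b • v)
    (ha : ∀ z ∈ Z, U1 z (2 * i) a) (hb : ∀ z ∈ Z, U1 z (2 * j) b) :
    ∃ μ : ℕ, ∀ᶠ k in atTop, finrank ℂ (N' k) = finrank ℂ (N k) + 2 * μ := by
  obtain ⟨k0, hk0⟩ := eventually_atTop.1 ((h.inj hN hV hy).and (h.surj hV hy0 hy))
  let Q := (lc y N).comap (lc y N').subtype
  let ρ : ∀ k, N' k →ₗ[ℂ] (lc y N' ⧸ Q) := fun k => Q.mkQ ∘ₗ
    ((ml V (y ^ (-k))) ∘ₗ (N' k).subtype).codRestrict (lc y N') fun v =>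
      mem_lc h.fam' hy0 y0 (k := k) (by
        show y ^ k • y ^ (-k) • v.1 ∈ N' k
        rw [← mul_smul, ← zpow_add₀ y0, add_neg_cancel, zpow_zero, one_smul]
        exact v.2)
  have ker : ∀ k, k0 ≤ k → ∀ v, ρ k v = 0 ↔ v.1 ∈ N k := fun k hk v => by
    refine (Submodule.Quotient.mk_eq_zero Q).trans ⟨fun h1 => ?_, fun h1 => ?_⟩
    · have h2 : ∀ n : ℕ, y ^ n • v.1 ∈ N (k + n) → v.1 ∈ N k := fun n => by
        induction n with
        | zero => simp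
        | succ n ih =>
          intro h3
          rw [pow_succ', mul_smul, show k + (n + 1 : ℕ) = 1 + (k + n) by push_cast; ring] at h3
          exact ih ((hk0 _ (by omega)).1 _ (pow_mem h.fam' hy0 v.2 n) h3)
      obtain ⟨e, h3, h4⟩ := (Filter.Eventually.and h1 (eventually_ge_atTop k)).exists
      obtain ⟨n, rfl⟩ := Int.le.dest h4
      refine h2 n ?_
      change y ^ (k + n) • y ^ (-k) • v.1 ∈ _ at h3
      rwa [← mul_smul, ← zpow_add₀ y0, show k + n + -k = n by ring, zpow_natCast] at h3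
    · refine mem_lc h.fam hy0 y0 (k := k) ?_
      show y ^ k • y ^ (-k) • v.1 ∈ N k
      rwa [← mul_smul, ← zpow_add₀ y0, add_neg_cancel, zpow_zero, one_smul]
  have sur : ∀ k, k0 ≤ k → Function.Surjective (ρ k) := fun k hk t => by
    obtain ⟨w, rfl⟩ := Q.mkQ_surjective t
    have h2 : ∀ n : ℕ, ∀ u ∈ N' (k + n), ∃ v ∈ N' k, u - y ^ n • v ∈ N (k + n) := fun n => by
      induction n with
      | zero => exact fun u hu => ⟨u, by simpa using hu, by simp⟩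
      | succ n ih =>
        intro u hu
        obtain ⟨u1, h3, h4⟩ := (hk0 _ (by omega)).2 u hu
        obtain ⟨v, h5, h6⟩ := ih u1 (by rwa [show k + n = k + (n + 1 : ℕ) - 1 by push_cast; ring])
        refine ⟨v, h5, ?_⟩
        have h7 := h.fam 1 _ y hy0 _ h6
        rw [show 1 + (k + n) = k + (n + 1 : ℕ) by push_cast; ring] at h7
        have h8 := Submodule.add_mem _ h4 h7
        rwa [smul_sub, sub_add_sub_cancel, ← mul_smul, ← pow_succ'] at h8
    obtain ⟨e, h3, h4⟩ := (Filter.Eventually.and w.2 (eventually_ge_atTop k)).exists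
    obtain ⟨n, rfl⟩ := Int.le.dest h4
    obtain ⟨v, h5, h6⟩ := h2 n _ h3
    refine ⟨⟨v, h5⟩, ((Submodule.Quotient.eq Q).2 ?_).symm⟩
    refine mem_lc h.fam hy0 y0 (k := k + n) ?_
    show y ^ (k + n) • (w.1 - y ^ (-k) • v) ∈ _
    rwa [smul_sub, ← mul_smul, ← zpow_add₀ y0, show k + n + -k = n by ring, zpow_natCast]
  have := fin_of h.fg k0
  have : Module.Finite ℂ (lc y N' ⧸ Q) := Module.Finite.of_surjective _ (sur k0 le_rfl)
  have op : ∀ (I : V →ₗ[K] V) (i : ℤ) (a : K), (∀ k, ∀ v ∈ N k, I v ∈ N (i + k)) →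
      (∀ k, ∀ v ∈ N' k, I v ∈ N' (i + k)) → (∀ v, I (I v) = a • v) → (∀ z ∈ Z, U1 z (2 * i) a) →
      ∃ f : (lc y N' ⧸ Q) →ₗ[ℂ] (lc y N' ⧸ Q), Function.Injective f ∧ ∀ v w : lc y N',
        w.1 = y ^ (-i) • I v.1 → f (Q.mkQ v) = Q.mkQ w := by
    intro I i a h1 h2 h3 h4
    let g : lc y N' →ₗ[ℂ] lc y N' := ((ml V (y ^ (-i))) ∘ₗ I.restrictScalars ℂ).restrict
      fun v hv => lc_op y0 I h2 hv
    refine ⟨Q.mapQ Q g fun v hv => lc_op y0 I h1 hv, ?_, fun v w e =>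
      congrArg Q.mkQ (Subtype.ext e.symm)⟩
    rw [injective_iff_map_eq_zero]
    intro t ht
    obtain ⟨v, rfl⟩ := Q.mkQ_surjective t
    have h5 : y ^ (-i) • I (y ^ (-i) • I v.1) ∈ lc y N :=
      lc_op y0 I h1 ((Submodule.Quotient.mk_eq_zero Q).1 ht)
    refine (Submodule.Quotient.mk_eq_zero Q).2 ?_
    filter_upwards [h.inj hN hV h4, v.2,
      (tendsto_atTop_add_const_right _ (2 * i) tendsto_id).eventually h5] with k e1 e2 e3
    refine e1 _ e2 ?_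
    rw [map_smul, h3, id, ← mul_smul, ← mul_smul, ← zpow_add₀ y0, ← zpow_add₀ y0,
      show k + 2 * i + -i + -i = k by ring, smul_comm, add_comm] at e3
    exact e3
  obtain ⟨f, f1, f2⟩ := op I i a hI hI' hII ha
  obtain ⟨g, g1, g2⟩ := op J j b hJ hJ' hJJ hb
  obtain ⟨μ, hμ⟩ := even_of f g f1 g1 (by
    refine LinearMap.ext fun t => ?_
    obtain ⟨v, rfl⟩ := Q.mkQ_surjective t
    have e1 := lc_op y0 I hI' v.2
    have e2 := lc_op y0 J hJ' v.2
    rw [LinearMap.neg_apply, LinearMap.comp_apply, LinearMap.comp_apply, f2 v ⟨_, e1⟩ rfl,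
      g2 v ⟨_, e2⟩ rfl, f2 _ ⟨_, lc_op y0 I hI' e2⟩ rfl, g2 _ ⟨_, lc_op y0 J hJ' e1⟩ rfl,
      ← map_neg]
    refine congrArg Q.mkQ (Subtype.ext ?_)
    show y ^ (-i) • I (y ^ (-j) • J v.1) = -(y ^ (-j) • J (y ^ (-i) • I v.1))
    rw [map_smul, map_smul, hIJ, smul_neg, smul_neg, smul_comm])
  refine ⟨μ, (eventually_ge_atTop k0).mono fun k hk => ?_⟩
  have := fin_of h.fg k
  rw [rn (h.le k) (ρ k) (sur k hk) (ker k hk), hμ, two_mul]

end Pts

end Vale.Agent.P287Z.L
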