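import Vale.Agent.P287Z.L.Qd1

/-!
The discriminant module of a quadratic lattice with smooth discriminant curve.
-/

namespace Vale.Agent.P287Z.L

open MvPolynomial Module Filter Matrix Vale.Agent.P287 Vale.Agent.P287.Theta

namespace QdA

variable {f : P3} {U : ℤ → Submodule ℂ (Fin 4 → K)} {G : Matrix (Fin 4) (Fin 4) K} {l k n d : ℤ}
  {p : Fin 3 → ℂ} {u : Fin 4 → Fin 4 → K} {h : Fin 4 → ℤ} {M : Matrix (Fin 4) (Fin 4) P3}
  {Y Z : P3}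

theorem Loc.gen (L : Loc f U G l p u h M Y d Z) (hf : Hg 6 f) (hs : SmoothP f) (hpr : Prime f)
    (Q : QL f U G l) (hp : p ≠ 0) : ∃ m, ∃ w ∈ sharp G U l m, ∃ γ : P3, Hg (6 + 2 * m + l) γ ∧
      ev γ = ev f * (w ⬝ᵥ G *ᵥ w) ∧ eval p γ ≠ 0 ∧ (eval p f = 0 → ∀ k, ∀ w' ∈ sharp G U l k,
        w' ⬝ᵥ G *ᵥ w ∈ AA (k + m + l) → ev Y • w' ∈ U (2 * ∑ i, h i + 4 * l - 6 + k)) := by
  have hf0 := hf.ev_ne hpr.ne_zero
  obtain ⟨n, c, hc, hne⟩ := L.vec hs hp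
  obtain ⟨w, hw, hw1, hw2⟩ := L.wvec hf0 hc
  refine ⟨_, w, hw, Z * ((M.adjugate *ᵥ c) ⬝ᵥ fun j => Z * Y * c j), ?_, (hw2 w _ hw1).symm, ?_,
    fun hp0 k w' hw' hB => ?_⟩
  · refine (L.degZ.mul (hg_sum (k := d + 4 * ∑ i, h i + 7 * l - 6 + 2 * n) _ fun i _ =>
      ((L.adj hc i).mul ((L.degZ.mul L.degY).mul (hc i))).cast ?_)).cast ?_ <;> ring
  · have h1 : ((M.adjugate *ᵥ c) ⬝ᵥ fun j => Z * Y * c j) = Z * Y * (c ⬝ᵥ M.adjugate *ᵥ c) := by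
      rw [dotProduct_comm, ← smul_eq_mul (Z * Y) (c ⬝ᵥ _), ← smul_dotProduct]
      rfl
    rw [h1, map_mul, map_mul, map_mul]
    exact mul_ne_zero L.neZ (mul_ne_zero (mul_ne_zero L.neZ L.neY) hne)
  · have nd : ∀ a : P3, eval p a ≠ 0 → ¬ f ∣ a := by
      rintro _ ha ⟨b, rfl⟩
      exact ha (by rw [map_mul, hp0, zero_mul])
    obtain ⟨B, B1, B2⟩ := mem_AA.1 hB
    obtain ⟨C, C1, C2, C3⟩ := L.coef hw'
    have h1 : f * B = Z * ((M.adjugate *ᵥ c) ⬝ᵥ C) := by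
      refine (hf.mul B1).inj ((L.degZ.mul (hg_sum (k := 2 * ∑ i, h i + 4 * l + n + k) _
        fun i _ => ((L.adj hc i).mul (C1 i)).cast ?_)).cast ?_) ?_
      · ring
      · ring
      · rw [← hw2 w' C C2, map_mul, B2, dot_symm Q.symm]
    have h2 : f ∣ c ⬝ᵥ M.adjugate *ᵥ C := by
      rw [dot_symm (adj_symm L.symm), dotProduct_comm]
      exact (hpr.dvd_or_dvd ⟨B, h1.symm⟩).resolve_left (nd Z L.neZ)
    have h3 : ∀ r, f ∣ (M *ᵥ (M.adjugate *ᵥ C)) r := fun r => by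
      rw [mulVec_mulVec, mul_adjugate, smul_mulVec, one_mulVec, L.det]
      exact (Dvd.intro_left Y rfl).mul_right _
    choose E hE using ker_one L.symm hpr h3 h2 (nd _ hne)
    have h4 : ev Y • w' = ∑ i, ev (E i) • u i := by
      refine smul_right_injective _ hf0 ?_
      change ev f • ev Y • w' = ev f • ∑ i, ev (E i) • u i
      rw [smul_comm, C3, Finset.smul_sum]
      exact Finset.sum_congr rfl fun i _ => by rw [hE, map_mul, smul_smul]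
    rw [h4]
    exact sum_mem Q.lat.fam L.mem fun i =>
      (hf.quot hpr.ne_zero (hE i ▸ L.adj C1 i)).cast (by ring)

theorem exists_qd (hf : Hg 6 f) (hs : SmoothP f) (Q : QL f U G l) :
    ∃ m w₀ γ, QD f U G l m w₀ γ := by
  have hpr : Prime f := prime_of_smoothP (d := 6) (hg_nat.1 hf) (by norm_num) hs
  obtain ⟨p, hp, hp0⟩ := exists_point ⟨hpr, 6, hf⟩
  obtain ⟨u, h, M, Y, d, Z, L⟩ := exists_loc hf Q hp
  obtain ⟨m, w, hw, γ, g1, g2, g3, g4⟩ := L.gen hf hs hpr Q hp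
  refine ⟨m, w, γ, fun k w' hw' => ann hf Q hw', hw, g1, g2, ?_, fun k w' hw' hB => ?_,
    fun q hq => ?_⟩
  · rintro ⟨b, rfl⟩
    exact g3 (by rw [map_mul, hp0, zero_mul])
  · refine Q.lat.refl _ _ fun g hg => ?_
    by_cases hd : g ∣ f
    · obtain ⟨b, rfl⟩ := (hg.1.associated_of_dvd hpr hd).symm.dvd
      exact ⟨_, ev Y, U1.ug ⟨Y, L.degY, rfl, L.neY⟩ (by rw [map_mul, hp0, zero_mul]),
        g4 hp0 k w' hw' hB⟩
    · exact ⟨6, ev f, ⟨f, hf, rfl, hd⟩, add_comm k 6 ▸ ann hf Q hw'⟩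
  · obtain ⟨u', h', M', Y', d', Z', L'⟩ := exists_loc hf Q hq
    obtain ⟨m', w', hw', γ', e1, e2, e3, -⟩ := L'.gen hf hs hpr Q hq
    exact ⟨m', w', hw', γ', e1, e2, e3⟩

theorem c1_eq (hD : stDET) (hf : Hg 6 f) (hs : SmoothP f) (Q : QL f U G l) :
    c1 U = 2 * l - 3 := by
  have hpr : Prime f := prime_of_smoothP (d := 6) (hg_nat.1 hf) (by norm_num) hs
  have hf0 := hf.ev_ne hpr.ne_zero
  obtain ⟨ν, hν, H⟩ := hD (Fin 4 → K) U (Fin 4) (Pi.basisFun K (Fin 4)) Q.lat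
  have h1 := deg_zero (z := ν ^ 2 * G.det / ev f) (n := 4 * l - 6 - 2 * c1 U) fun p hp => by
    obtain ⟨u, h, y, hb, hy, hd⟩ := Q.loc p hp
    refine ⟨_, _, y, (((H u h hb.mem).2 p hp).1 hb).pow 2, hy.cast (by push_cast; ring), ?_⟩
    rw [gram] at hd
    generalize (Pi.basisFun K (Fin 4)).det u = t at hd
    generalize G.det = s at hd
    generalize ev f = r at hd hf0
    rw [div_pow, div_mul_div_comm, div_eq_iff (mul_ne_zero hf0 (pow_ne_zero 2 hν)), ← mul_assoc y,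
      ← hd]
    ring
  omega

end QdA

theorem qd : stDET → stDUAL → stQD := fun hD _ _ _ _ _ hf hs Q =>
  ⟨QdA.exists_qd hf hs Q, QdA.c1_eq hD hf hs Q⟩

end Vale.Agent.P287Z.L
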