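import Vale.Agent.P287Z.L.Defs

/-!
Matrix lemmas for the discriminant module.
-/

namespace Vale.Agent.P287Z.L.QdA

open MvPolynomial Matrix Vale.Agent.P287 Vale.Agent.P287.Theta

section generic

variable {R : Type} [CommRing R] {ι : Type} [Fintype ι] [DecidableEq ι]

theorem ker_one {M : Matrix ι ι R} (hM : M.IsSymm) {f : R} (hf : Prime f) {x c : ι → R}
    (h1 : ∀ r, f ∣ (M *ᵥ x) r) (h2 : f ∣ c ⬝ᵥ x) (h3 : ¬ f ∣ c ⬝ᵥ (M.adjugate *ᵥ c)) (i : ι) :
    f ∣ x i := by
  obtain ⟨j, hj⟩ : ∃ j, ¬ f ∣ (M.adjugate *ᵥ c) j := by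
    by_contra h
    exact h3 (Finset.dvd_sum fun j _ => (not_not.1 (not_exists.1 h j)).mul_left _)
  have e1 : (M.updateRow j c).det = (M.adjugate *ᵥ c) j := by
    rw [← cramer_transpose_apply, hM.eq, cramer_eq_adjugate_mulVec]
  have h4 : ∀ r, f ∣ (M.updateRow j c *ᵥ x) r := fun r => by
    by_cases hr : r = j
    · subst hr
      simpa [mulVec] using h2
    · simpa [mulVec, updateRow_ne hr] using h1 r
  have h5 : f ∣ ((M.updateRow j c).adjugate *ᵥ (M.updateRow j c *ᵥ x)) i :=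
    Finset.dvd_sum fun r _ => (h4 r).mul_left _
  rw [mulVec_mulVec, adjugate_mul, smul_mulVec, one_mulVec, e1] at h5
  exact (hf.dvd_or_dvd h5).resolve_left hj

theorem adj_symm {M : Matrix ι ι R} (hM : M.IsSymm) : M.adjugate.IsSymm := by
  rw [Matrix.IsSymm, adjugate_transpose, hM.eq]

theorem dot_symm {M : Matrix ι ι R} (hM : M.IsSymm) (x y : ι → R) :
    x ⬝ᵥ M *ᵥ y = y ⬝ᵥ M *ᵥ x := by
  rw [dotProduct_mulVec, ← mulVec_transpose, hM.eq, dotProduct_comm]

theorem exists_vec {A : Matrix ι ι ℂ} (hA : A.IsSymm) {i j : ι} (h : A i j ≠ 0) :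
    ∃ a : ι → ℂ, a ⬝ᵥ A *ᵥ a ≠ 0 := by
  by_contra h0
  have h1 : ∀ a : ι → ℂ, a ⬝ᵥ A *ᵥ a = 0 := fun a => not_not.1 (not_exists.1 h0 a)
  have h2 := h1 (Pi.single i 1 + Pi.single j 1)
  rw [mulVec_add, add_dotProduct, dotProduct_add, dotProduct_add, h1, h1,
    dot_symm hA (Pi.single j 1)] at h2
  apply h
  simpa using h2

theorem hg_det {a b : ι → ℤ} {M : Matrix ι ι P3} (h : ∀ i j, Hg (a i + b j) (M i j)) :
    Hg (∑ i, a i + ∑ i, b i) M.det := by
  rw [det_apply]
  refine IsWeightedHomogeneous.sum _ _ _ fun σ _ => ?_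
  have h1 := IsWeightedHomogeneous.prod (w := fun _ : Fin 3 => (1 : ℤ)) Finset.univ
    (fun i => M (σ i) i) (fun i => a (σ i) + b i) fun i _ => h (σ i) i
  rw [Finset.sum_add_distrib, Equiv.sum_comp σ a] at h1
  rw [Units.smul_def]
  exact zsmul_mem (S := Submodule ℂ P3)
    (K := weightedHomogeneousSubmodule ℂ (fun _ : Fin 3 => (1 : ℤ)) _) h1 _

theorem hg_adj {a b : ι → ℤ} {M : Matrix ι ι P3} (h : ∀ i j, Hg (a i + b j) (M i j)) (i j : ι) :
    Hg (∑ i, a i + ∑ i, b i - a j - b i) (M.adjugate i j) := by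
  rw [adjugate_apply]
  have h1 := hg_det (a := Function.update a j (-b i)) (b := b)
    (M := M.updateRow j (Pi.single i 1)) fun r c => by
      by_cases hr : r = j
      · subst hr
        rw [updateRow_self, Function.update_self]
        by_cases hc : c = i
        · subst hc
          rw [Pi.single_eq_same, neg_add_cancel]
          exact isWeightedHomogeneous_one _ _
        · rw [Pi.single_eq_of_ne hc]
          exact isWeightedHomogeneous_zero _ _ _
      · rw [updateRow_ne hr, Function.update_of_ne hr]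
        exact h r c
  rw [Finset.sum_update_of_mem (Finset.mem_univ j), Finset.sum_sdiff_eq_sub (by simp),
    Finset.sum_singleton] at h1
  rw [show ∑ i, a i + ∑ i, b i - a j - b i = -b i + (∑ i, a i - a j) + ∑ i, b i by ring]
  exact h1

section field

variable {F : Type} [Field F] (e : R →+* F) {u : ι → ι → F} {G : Matrix ι ι F} {M : Matrix ι ι R}

theorem sum_dot (c C : ι → R) {w : ι → F} (hC : ∀ j, e (C j) = u j ⬝ᵥ G *ᵥ w) :
    (∑ i, e (c i) • u i) ⬝ᵥ G *ᵥ w = e (c ⬝ᵥ C) := by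
  rw [sum_dotProduct, dotProduct, map_sum]
  exact Finset.sum_congr rfl fun i _ => by rw [smul_dotProduct, smul_eq_mul, map_mul, hC]

theorem dot_sum (hM : ∀ i j, e (M i j) = u i ⬝ᵥ G *ᵥ u j) (c : ι → R) (j : ι) :
    u j ⬝ᵥ G *ᵥ (∑ i, e ((M.adjugate *ᵥ c) i) • u i) = e (M.det * c j) := by
  have h1 : (M *ᵥ (M.adjugate *ᵥ c)) j = M.det * c j := by
    rw [mulVec_mulVec, mul_adjugate, smul_mulVec, one_mulVec]
    rfl
  rw [← h1, mulVec_sum, dotProduct_sum, mulVec, dotProduct, map_sum]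
  exact Finset.sum_congr rfl fun i _ => by
    rw [mulVec_smul, dotProduct_smul, smul_eq_mul, map_mul, hM, mul_comm]

theorem expand (li : LinearIndependent F u) (hM : ∀ i j, e (M i j) = u i ⬝ᵥ G *ᵥ u j) (w : ι → F)
    {C : ι → R} (hC : ∀ j, e (C j) = u j ⬝ᵥ G *ᵥ w) :
    e M.det • w = ∑ i, e ((M.adjugate *ᵥ C) i) • u i := by
  obtain ⟨x, rfl⟩ := (Submodule.mem_span_range_iff_exists_fun F).1
    (li.span_eq_top_of_card_eq_finrank' (by simp) ▸ Submodule.mem_top (x := w))
  have h1 : e ∘ C = M.map e *ᵥ x := funext fun j => by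
    rw [Function.comp_apply, hC, mulVec_sum, dotProduct_sum, mulVec, dotProduct]
    exact Finset.sum_congr rfl fun i _ => by
      rw [mulVec_smul, dotProduct_smul, smul_eq_mul, map_apply, hM, mul_comm]
  rw [Finset.smul_sum]
  refine Finset.sum_congr rfl fun i _ => ?_
  rw [RingHom.map_mulVec, h1, ← RingHom.mapMatrix_apply, RingHom.map_adjugate,
    RingHom.mapMatrix_apply, mulVec_mulVec, adjugate_mul, smul_mulVec, one_mulVec, smul_smul,
    RingHom.map_det, RingHom.mapMatrix_apply]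
  rfl

theorem gram (u : ι → ι → F) (G : Matrix ι ι F) :
    (Matrix.of fun i j => u i ⬝ᵥ G *ᵥ u j).det = (Pi.basisFun F ι).det u ^ 2 * G.det := by
  have h1 : (Matrix.of fun i j => u i ⬝ᵥ G *ᵥ u j) = Matrix.of u * (G * (Matrix.of u)ᵀ) := by
    ext i j
    rfl
  rw [h1, det_mul, det_mul, det_transpose, Pi.basisFun_det_apply]
  ring

end field

end generic

theorem adj_ne {M : Matrix (Fin 4) (Fin 4) P3} {Y f : P3} (h : M.det = Y * f) (hs : SmoothP f)
    {p : Fin 3 → ℂ} (hp : p ≠ 0) (hY : eval p Y ≠ 0) : ∃ i j, eval p (M.adjugate i j) ≠ 0 := by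
  by_contra h0
  have h1 : ∀ i j, eval p (M.adjugate i j) = 0 := fun i j =>
    not_not.1 (not_exists.1 (not_exists.1 h0 i) j)
  have h2 : ∀ i j, ∑ k, M.adjugate i k * M k j = M.det * (1 : Matrix (Fin 4) (Fin 4) P3) i j :=
    fun i j => congrFun (congrFun (adjugate_mul M) i) j
  have h3 : eval p M.det = 0 := by
    have h4 := congrArg (eval p) (h2 0 0)
    simpa [h1] using h4.symm
  have h4 : eval p f = 0 := by
    rw [h, map_mul] at h3
    exact (mul_eq_zero.1 h3).resolve_left hY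
  refine hp (hs p fun s => ?_)
  have h5 : (Matrix.of fun i k => eval p (pderiv s (M.adjugate i k))) * M.map (eval p) =
      eval p (pderiv s M.det) • (1 : Matrix (Fin 4) (Fin 4) ℂ) := by
    ext i j
    have h6 := congrArg (fun x => eval p (pderiv s x)) (h2 i j)
    simp only [map_sum, Derivation.leibniz, smul_eq_mul, map_add, map_mul, h1, h3, zero_mul,
      zero_add] at h6
    rw [mul_apply, Matrix.smul_apply, smul_eq_mul, mul_comm]
    simp only [of_apply, map_apply, mul_comm (eval p (pderiv s _))]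
    rw [h6, one_apply, one_apply]
    split_ifs <;> simp
  have h6 := congrArg det h5
  rw [det_mul, det_smul, det_one, mul_one, ← RingHom.mapMatrix_apply, ← RingHom.map_det, h3,
    mul_zero] at h6
  have h7 := pow_eq_zero_iff (by simp) |>.1 h6.symm
  rw [h, Derivation.leibniz, smul_eq_mul, smul_eq_mul, map_add, map_mul, map_mul, h4, zero_mul,
    add_zero] at h7
  exact (mul_eq_zero.1 h7).resolve_left hY

end Vale.Agent.P287Z.L.QdA
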