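import Vale.Agent.P287Z.L.Basic
import Vale.Agent.P287Z.L.Qd0

/-!
Local description of a quadratic lattice.
-/

namespace Vale.Agent.P287Z.L.QdA

open MvPolynomial Module Filter Matrix Vale.Agent.P287 Vale.Agent.P287.Theta

theorem deg_unit {k : ℤ} {a : P3} (ha : Hg k a) (hu : IsUnit a) : k = 0 := by
  by_contra hk
  exact (hu.map (eval (0 : Fin 3 → ℂ))).ne_zero (ha.eval_zero hk)

theorem deg_zero {z : K} {n : ℤ}
    (h : ∀ p : Fin 3 → ℂ, p ≠ 0 → ∃ d x y, U1 p d x ∧ U1 p (d + n) y ∧ z * x = y) : n = 0 := by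
  have key : ∀ (m : ℕ) (d : ℤ) (A B : P3), d < m → Hg d A → Hg (d + n) B → A ≠ 0 → B ≠ 0 →
      z * ev A = ev B → n = 0 := by
    intro m
    induction m with
    | zero =>
      intro d A B hd hA _ h0 _ _
      have := hA.nonneg h0
      omega
    | succ m ih =>
      intro d A B hd hA hB hA0 hB0 e
      have h1 : ∀ g, HPrime g → (g ∣ A ↔ g ∣ B) := fun g hg => by
        obtain ⟨p, hp, hg0⟩ := exists_point hg
        obtain ⟨d', x, y, hx, hy, e'⟩ := h p hp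
        obtain ⟨A', a1, rfl, a3⟩ := hx.ug hg0
        obtain ⟨B', b1, rfl, b3⟩ := hy.ug hg0
        have e2 : A * B' = B * A' := (hA.mul b1).inj ((hB.mul a1).cast (by ring))
          (by rw [map_mul, map_mul, ← e, ← e']; ring)
        exact ⟨fun h2 => (hg.1.dvd_or_dvd (e2 ▸ h2.mul_right B')).resolve_right a3,
          fun h2 => (hg.1.dvd_or_dvd (e2.symm ▸ h2.mul_right A')).resolve_right b3⟩
      by_cases hu : IsUnit (A * B)
      · have h2 := deg_unit hA (isUnit_of_mul_isUnit_left hu)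
        have h3 := deg_unit hB (isUnit_of_mul_isUnit_right hu)
        omega
      · obtain ⟨g, hg, hgd⟩ := WfDvdMonoid.exists_irreducible_factor hu (mul_ne_zero hA0 hB0)
        have hp : Prime g := UniqueFactorizationMonoid.irreducible_iff_prime.1 hg
        have hh : HPrime g := (hA.mul hB).hprime (mul_ne_zero hA0 hB0) hp hgd
        have h2 : g ∣ A := (hp.dvd_or_dvd hgd).elim id (h1 g hh).2
        obtain ⟨B', rfl⟩ := (h1 g hh).1 h2
        obtain ⟨A', rfl⟩ := h2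
        obtain ⟨e0, e1, e2⟩ := hh.pos
        refine ih (d - e0) A' B' (by omega) (e2.quot hp.ne_zero hA)
          ((e2.quot hp.ne_zero hB).cast (by ring)) (right_ne_zero_of_mul hA0)
          (right_ne_zero_of_mul hB0) ?_
        apply mul_left_cancel₀ (e2.ev_ne hp.ne_zero)
        rw [← map_mul, ← e, map_mul]
        ring
  obtain ⟨d, x, y, ⟨A, a1, rfl, a3⟩, ⟨B, b1, rfl, b3⟩, e⟩ := h (fun _ => 1) fun h0 =>
    one_ne_zero (congrFun h0 0)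
  exact key (d.toNat + 1) d A B (by omega) a1 b1 (fun h0 => a3 (by rw [h0, map_zero]))
    (fun h0 => b3 (by rw [h0, map_zero])) e

variable {f : P3} {U : ℤ → Submodule ℂ (Fin 4 → K)} {G : Matrix (Fin 4) (Fin 4) K} {l k n d : ℤ}
  {p : Fin 3 → ℂ} {u : Fin 4 → Fin 4 → K} {h : Fin 4 → ℤ} {M : Matrix (Fin 4) (Fin 4) P3}
  {Y Z : P3} {w : Fin 4 → K}

theorem of_Sp (hw : w ∈ Sp u h k) :
    ∃ c : Fin 4 → P3, (∀ i, Hg (k - h i) (c i)) ∧ w = ∑ i, ev (c i) • u i := by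
  obtain ⟨c, hc, rfl⟩ := hw
  choose C h1 h2 using fun i => mem_AA.1 (hc i (Set.mem_univ i))
  refine ⟨C, h1, ?_⟩
  simp only [h2]
  exact Fintype.linearCombination_apply K u c

theorem sum_mem (hU : Fam U) (hu : ∀ i, u i ∈ U (h i)) {c : Fin 4 → P3}
    (hc : ∀ i, Hg (k - h i) (c i)) : ∑ i, ev (c i) • u i ∈ U k :=
  Submodule.sum_mem _ fun i _ => by
    have h1 := hU _ _ _ (hc i).mem _ (hu i)
    rwa [sub_add_cancel] at h1

theorem mem_sharp : w ∈ sharp G U l k ↔ ∀ j, ∀ v ∈ U j, v ⬝ᵥ G *ᵥ w ∈ AA (j + (k + l)) := by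
  change (∀ j, ∀ v ∈ U j, bf G v w ∈ AA (j + (k + l))) ↔ _
  simp only [Matrix.toLinearMap₂'_apply']

/-- the local data of a quadratic lattice at the point `p` -/
structure Loc (f : P3) (U : ℤ → Submodule ℂ (Fin 4 → K)) (G : Matrix (Fin 4) (Fin 4) K) (l : ℤ)
    (p : Fin 3 → ℂ) (u : Fin 4 → Fin 4 → K) (h : Fin 4 → ℤ) (M : Matrix (Fin 4) (Fin 4) P3)
    (Y : P3) (d : ℤ) (Z : P3) : Prop where
  mem : ∀ i, u i ∈ U (h i)
  li : LinearIndependent K u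
  symm : M.IsSymm
  deg : ∀ i j, Hg (h i + (h j + l)) (M i j)
  val : ∀ i j, ev (M i j) = u i ⬝ᵥ G *ᵥ u j
  degY : Hg (2 * ∑ i, h i + 4 * l - 6) Y
  neY : eval p Y ≠ 0
  det : M.det = Y * f
  degZ : Hg d Z
  neZ : eval p Z ≠ 0
  loc : ∀ k, ∀ v ∈ U k, ev Z • v ∈ Sp u h (d + k)

theorem exists_loc (hf : Hg 6 f) (Q : QL f U G l) (hp : p ≠ 0) :
    ∃ u h M Y d Z, Loc f U G l p u h M Y d Z := by
  obtain ⟨u, h, y, hb, ⟨Y, Y1, rfl, Y3⟩, hd⟩ := Q.loc p hp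
  obtain ⟨d, y', ⟨Z, Z1, rfl, Z3⟩, hl⟩ := hb.loc
  choose M M1 M2 using fun i j => mem_AA.1 (mem_sharp.1 (Q.int _ (hb.mem j)) _ _ (hb.mem i))
  refine ⟨u, h, Matrix.of M, Y, d, Z, hb.mem, hb.li, ?_, M1, M2, Y1, Y3, ?_, Z1, Z3, hl⟩
  · refine Matrix.IsSymm.ext fun i j => ?_
    exact ((M1 j i).cast (by ring)).inj (M1 i j)
      ((M2 j i).trans ((dot_symm Q.symm _ _).trans (M2 i j).symm))
  · have h1 := hg_det (a := h) (b := fun j => h j + l) (M := Matrix.of M) M1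
    refine h1.inj ((Y1.mul hf).cast ?_) ?_
    · simp only [Fin.sum_univ_four]
      ring
    · rw [map_mul, ← hd, AlgHom.map_det]
      exact congrArg det (Matrix.ext M2)

theorem Loc.adj (L : Loc f U G l p u h M Y d Z) {c : Fin 4 → P3} (hc : ∀ j, Hg (h j + n) (c j))
    (i : Fin 4) : Hg (2 * ∑ i, h i + 3 * l + n - h i) ((M.adjugate *ᵥ c) i) := by
  refine hg_sum _ fun j _ => ((hg_adj (a := h) (b := fun j => h j + l) L.deg i j).mul
    (hc j)).cast ?_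
  simp only [Fin.sum_univ_four]
  ring

theorem Loc.coef (L : Loc f U G l p u h M Y d Z) (hw : w ∈ sharp G U l k) :
    ∃ C : Fin 4 → P3, (∀ j, Hg (h j + (k + l)) (C j)) ∧ (∀ j, ev (C j) = u j ⬝ᵥ G *ᵥ w) ∧
      ev Y • ev f • w = ∑ i, ev ((M.adjugate *ᵥ C) i) • u i := by
  choose C C1 C2 using fun j => mem_AA.1 (mem_sharp.1 hw _ _ (L.mem j))
  refine ⟨C, C1, C2, ?_⟩
  rw [smul_smul, ← map_mul, ← L.det]
  exact expand (ev : P3 →+* K) L.li L.val w C2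

theorem ann (hf : Hg 6 f) (Q : QL f U G l) (hw : w ∈ sharp G U l k) : ev f • w ∈ U (k + 6) := by
  refine Q.lat.refl _ _ fun g hg => ?_
  obtain ⟨p, hp, hg0⟩ := exists_point hg
  obtain ⟨u, h, M, Y, d, Z, L⟩ := exists_loc hf Q hp
  obtain ⟨C, C1, -, C3⟩ := L.coef hw
  refine ⟨_, ev Y, U1.ug ⟨Y, L.degY, rfl, L.neY⟩ hg0, ?_⟩
  rw [C3]
  exact sum_mem Q.lat.fam L.mem fun i => (L.adj C1 i).cast (by ring)

theorem Loc.vec (L : Loc f U G l p u h M Y d Z) (hs : SmoothP f) (hp : p ≠ 0) :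
    ∃ (n : ℤ) (c : Fin 4 → P3), (∀ j, Hg (h j + n) (c j)) ∧
      eval p (c ⬝ᵥ M.adjugate *ᵥ c) ≠ 0 := by
  obtain ⟨i, j, hij⟩ := adj_ne L.det hs hp L.neY
  obtain ⟨a, ha⟩ := exists_vec (A := M.adjugate.map (eval p)) ((adj_symm L.symm).map _) hij
  obtain ⟨t, ht⟩ := Function.ne_iff.1 hp
  have h1 : ∀ j, 0 ≤ h j + ∑ i, |h i| := fun j => by
    have h2 := Finset.single_le_sum (f := fun i => |h i|) (fun i _ => abs_nonneg _)
      (Finset.mem_univ j)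
    have h3 := neg_abs_le (h j)
    omega
  generalize ∑ i, |h i| = n at h1
  obtain ⟨c, hc1, hc2⟩ : ∃ c : Fin 4 → P3, (∀ j, Hg (h j + n) (c j)) ∧ eval p ∘ c = a := by
    refine ⟨fun j => C (a j / p t ^ (h j + n).toNat) * X t ^ (h j + n).toNat, fun j =>
      (((hg_X t).pow _).C_mul _).cast (by rw [mul_one, Int.toNat_of_nonneg (h1 j)]),
      funext fun j => ?_⟩
    simp only [Function.comp_apply, map_mul, map_pow, eval_C, eval_X]
    exact div_mul_cancel₀ _ (pow_ne_zero _ ht)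
  refine ⟨n, c, hc1, ?_⟩
  have h2 : eval p ∘ (M.adjugate *ᵥ c) = M.adjugate.map (eval p) *ᵥ (eval p ∘ c) :=
    funext fun i => RingHom.map_mulVec _ _ _ i
  rwa [RingHom.map_dotProduct, h2, hc2]

theorem Loc.wvec (L : Loc f U G l p u h M Y d Z) (hf0 : ev f ≠ 0) {c : Fin 4 → P3}
    (hc : ∀ j, Hg (h j + n) (c j)) :
    ∃ w ∈ sharp G U l (d + 2 * ∑ i, h i + 3 * l - 6 + n),
      (∀ j, ev (Z * Y * c j) = u j ⬝ᵥ G *ᵥ w) ∧ ∀ (w' : Fin 4 → K) (C : Fin 4 → P3),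
        (∀ j, ev (C j) = u j ⬝ᵥ G *ᵥ w') →
          ev f * (w ⬝ᵥ G *ᵥ w') = ev (Z * ((M.adjugate *ᵥ c) ⬝ᵥ C)) := by
  obtain ⟨v, hv⟩ : ∃ v, v = ∑ i, ev ((M.adjugate *ᵥ c) i) • u i := ⟨_, rfl⟩
  have h1 : ∀ j, ev (Y * c j) = u j ⬝ᵥ G *ᵥ ((ev f)⁻¹ • v) := fun j => by
    have h2 : u j ⬝ᵥ G *ᵥ v = ev (M.det * c j) := hv ▸ dot_sum (ev : P3 →+* K) L.val c j
    rw [mulVec_smul, dotProduct_smul, h2, L.det, smul_eq_mul, map_mul, map_mul, map_mul,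
      mul_comm (ev Y) (ev f), mul_assoc, inv_mul_cancel_left₀ hf0]
  refine ⟨ev Z • (ev f)⁻¹ • v, mem_sharp.2 fun j x hx => ?_, fun j => ?_, fun w' C hC => ?_⟩
  · obtain ⟨b, b1, b2⟩ := of_Sp (L.loc j x hx)
    have h2 : (∑ i, ev (b i) • u i) ⬝ᵥ G *ᵥ ((ev f)⁻¹ • v) = ev (b ⬝ᵥ fun j => Y * c j) :=
      sum_dot (ev : P3 →+* K) b _ h1
    rw [mulVec_smul, dotProduct_smul, ← smul_dotProduct, b2, h2]
    exact (hg_sum _ fun i _ => ((b1 i).mul (L.degY.mul (hc i))).cast (by ring)).mem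
  · rw [mulVec_smul, dotProduct_smul, ← h1, mul_assoc, map_mul, smul_eq_mul]
  · have h2 : v ⬝ᵥ G *ᵥ w' = ev ((M.adjugate *ᵥ c) ⬝ᵥ C) :=
      hv ▸ sum_dot (ev : P3 →+* K) _ C hC
    rw [smul_dotProduct, smul_dotProduct, h2, smul_eq_mul, smul_eq_mul, map_mul, mul_left_comm,
      mul_inv_cancel_left₀ hf0]

end Vale.Agent.P287Z.L.QdA
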