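import Vale.Agent.P287Z.L.Sk

/-!
Forms in three variables: the formula of Euler, the Koszul complex, common denominators.
-/

namespace Vale.Agent.P287Z.L.Res

open MvPolynomial Module Filter Matrix Vale.Agent.P287 Vale.Agent.P287.Theta

theorem mem_A {k : ℤ} {y : K} : y ∈ AA k ↔ ∃ b, Hg k b ∧ ev b = y := Submodule.mem_map

theorem A_mul {i j : ℤ} {a b : K} (ha : a ∈ AA i) (hb : b ∈ AA j) : a * b ∈ AA (i + j) := by
  obtain ⟨a, ha', rfl⟩ := mem_A.1 ha
  obtain ⟨b, hb', rfl⟩ := mem_A.1 hb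
  exact mem_A.2 ⟨a * b, IsWeightedHomogeneous.mul ha' hb', map_mul _ _ _⟩

theorem ev_X (i : Fin 3) : ev (X i) = tvec i := aeval_X _ _

theorem t_mem (i : Fin 3) : tvec i ∈ AA 1 :=
  mem_A.2 ⟨X i, isWeightedHomogeneous_X ℂ _ i, ev_X i⟩

theorem t_zero : tvec 0 = 1 := rfl

theorem t_mul (i : Fin 3) {k k' : ℤ} {a : K} (ha : a ∈ AA k) (h : 1 + k = k') :
    tvec i * a ∈ AA k' := h ▸ A_mul (t_mem i) ha

theorem one_mem : (1 : K) ∈ AA 0 := mem_A.2 ⟨1, isWeightedHomogeneous_one ℂ _, map_one _⟩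

theorem wt_cast (d : Fin 3 →₀ ℕ) : Finsupp.weight (fun _ => (1 : ℤ)) d =
    (Finsupp.weight (1 : Fin 3 → ℕ) d : ℕ) := by
  simp [Finsupp.weight_apply, Finsupp.sum]

theorem hg_iff {n : ℕ} {b : P3} : Hg n b ↔ b.IsHomogeneous n :=
  forall_congr' fun d => forall_congr' fun _ => by rw [wt_cast, Nat.cast_inj]

theorem hg_neg {k : ℤ} {b : P3} (hk : k < 0) (h : Hg k b) : b = 0 := by
  ext d
  by_contra hd
  have h1 := h hd
  rw [wt_cast] at h1
  omega

theorem A_neg {k : ℤ} {a : K} (hk : k < 0) (h : a ∈ AA k) : a = 0 := by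
  obtain ⟨a, ha, rfl⟩ := mem_A.1 h
  rw [hg_neg hk ha, map_zero]

theorem hg_inj {k : ℤ} {b : P3} (h : Hg k b) (h0 : ev b = 0) : b = 0 := by
  rcases lt_or_ge k 0 with hk | hk
  · exact hg_neg hk h
  · lift k to ℕ using hk
    by_contra hb
    exact H925.aeval_tvec_ne_zero (hg_iff.1 h) hb h0

theorem A_fin (k : ℤ) : FiniteDimensional ℂ (AA k) := by
  have h : (weightedHomogeneousSubmodule ℂ (fun _ : Fin 3 => (1 : ℤ)) k).FG := by
    rcases lt_or_ge k 0 with hk | hk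
    · have e : weightedHomogeneousSubmodule ℂ (fun _ : Fin 3 => (1 : ℤ)) k = ⊥ :=
        (Submodule.eq_bot_iff _).2 fun b hb => hg_neg hk hb
      rw [e]
      exact Submodule.fg_bot
    · lift k to ℕ using hk
      have e : weightedHomogeneousSubmodule ℂ (fun _ : Fin 3 => (1 : ℤ)) k =
          homogeneousSubmodule (Fin 3) ℂ k := Submodule.ext fun _ => hg_iff
      rw [e]
      exact homogeneousSubmodule_fg _ _ _
  exact Module.Finite.iff_fg.2 (h.map _)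

theorem euler {k : ℤ} {a : K} (h : a ∈ AA k) (h0 : k = 0 → a = 0) :
    ∃ b : Fin 3 → K, (∀ i, b i ∈ AA (k - 1)) ∧ a = ∑ i, tvec i * b i := by
  rcases lt_trichotomy k 0 with hk | hk | hk
  · exact ⟨0, fun _ => zero_mem _, by simp [A_neg hk h]⟩
  · exact ⟨0, fun _ => zero_mem _, by simp [h0 hk]⟩
  obtain ⟨a, ha, rfl⟩ := mem_A.1 h
  lift k to ℕ using hk.le
  have hn : (k : ℂ) ≠ 0 := Nat.cast_ne_zero.2 (by omega)
  refine ⟨fun i => ev (C (k : ℂ)⁻¹ * pderiv i a), fun i => mem_A.2 ⟨_,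
    (IsWeightedHomogeneous.pderiv ha (sub_add_cancel _ _)).C_mul _, rfl⟩, ?_⟩
  have h1 : a = ∑ i, X i * (C (k : ℂ)⁻¹ * pderiv i a) := by
    simp only [mul_left_comm _ (C (k : ℂ)⁻¹)]
    rw [← Finset.mul_sum, (hg_iff.1 ha).sum_X_mul_pderiv, nsmul_eq_mul, ← mul_assoc,
      ← map_natCast (C : ℂ →+* P3), ← map_mul, inv_mul_cancel₀ hn, map_one, one_mul]
  conv_lhs => rw [h1]
  simp only [map_sum, map_mul, ev_X]

theorem comp_X (i : Fin 3) (k : ℤ) (y : P3) :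
    weightedHomogeneousComponent (fun _ => (1 : ℤ)) k (X i * y) =
      X i * weightedHomogeneousComponent (fun _ => (1 : ℤ)) (k - 1) y := by
  let _ := weightedGradedAlgebra ℂ (fun _ : Fin 3 => (1 : ℤ))
  have h := DirectSum.coe_decompose_mul_add_of_left_mem
    (weightedHomogeneousSubmodule ℂ (fun _ : Fin 3 => (1 : ℤ))) (i := 1) (j := k - 1) (b := y)
    (isWeightedHomogeneous_X ℂ (fun _ : Fin 3 => (1 : ℤ)) i)
  rw [add_sub_cancel] at h
  exact (weightedDecomposition.decompose'_apply ℂ _ _ _).symm.trans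
    (h.trans (congrArg _ (weightedDecomposition.decompose'_apply ℂ _ _ _)))

/-- the cross product with `t` -/
def cu {R M : Type} [CommRing R] [AddCommGroup M] [Module R M] (t : Fin 3 → R) (g : Fin 3 → M) :
    Fin 3 → M := ![t 1 • g 2 - t 2 • g 1, t 2 • g 0 - t 0 • g 2, t 0 • g 1 - t 1 • g 0]

theorem koszul {k : ℤ} {s : Fin 3 → K} (h : ∀ i, s i ∈ AA k) (h0 : ∑ i, tvec i * s i = 0) :
    ∃ g : Fin 3 → K, (∀ i, g i ∈ AA (k - 1)) ∧ ∀ i, s i = cu tvec g i := by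
  choose b hb hs using fun i => mem_A.1 (h i)
  have h1 : ∑ i, X i * b i = 0 := hg_inj (k := 1 + k)
    (IsWeightedHomogeneous.sum _ _ _ fun i _ => (isWeightedHomogeneous_X ℂ _ i).mul (hb i))
    (by simp only [map_sum, map_mul, ev_X, hs, h0])
  obtain ⟨y, h2, h3, h4⟩ := H925.koszul_one b h1
  have h5 : ∀ i j l m : Fin 3, ∀ n, b n = X i * y j - X l * y m → s n =
      tvec i • ev (weightedHomogeneousComponent (fun _ => (1 : ℤ)) (k - 1) (y j)) -
        tvec l • ev (weightedHomogeneousComponent (fun _ => (1 : ℤ)) (k - 1) (y m)) := by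
    intro i j l m n hn
    rw [← hs, ← (hb n).weightedHomogeneousComponent_same, hn, map_sub, comp_X, comp_X, map_sub,
      map_mul, map_mul, ev_X, ev_X, smul_eq_mul, smul_eq_mul]
  refine ⟨fun i => ev (weightedHomogeneousComponent (fun _ => (1 : ℤ)) (k - 1) (y i)),
    fun i => mem_A.2 ⟨_, weightedHomogeneousComponent_isWeightedHomogeneous _ _, rfl⟩, fun i => ?_⟩
  fin_cases i
  · exact h5 _ _ _ _ _ h2
  · exact h5 _ _ _ _ _ h3
  · exact h5 _ _ _ _ _ h4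

theorem poly_mem (p : MvPolynomial (Fin 2) ℂ) :
    ∃ m : ℤ, ∀ k, m ≤ k → algebraMap (MvPolynomial (Fin 2) ℂ) K p ∈ AA k := by
  induction p using MvPolynomial.induction_on with
  | C a =>
    refine ⟨0, fun k hk => ?_⟩
    lift k to ℕ using hk
    refine mem_A.2 ⟨C a * X 0 ^ k, hg_iff.2 ((isHomogeneous_X_pow 0 k).C_mul a), ?_⟩
    rw [map_mul, map_pow, ev_X, t_zero, one_pow, mul_one]
    exact (ev.commutes a).trans (IsScalarTower.algebraMap_apply ℂ (MvPolynomial (Fin 2) ℂ) K a)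
  | add p q hp hq =>
    obtain ⟨m, hm⟩ := hp
    obtain ⟨m', hm'⟩ := hq
    refine ⟨max m m', fun k hk => ?_⟩
    rw [map_add]
    exact add_mem (hm k (le_of_max_le_left hk)) (hm' k (le_of_max_le_right hk))
  | mul_X p i hp =>
    obtain ⟨m, hm⟩ := hp
    refine ⟨m + 1, fun k hk => ?_⟩
    have e : algebraMap (MvPolynomial (Fin 2) ℂ) K (X i) = tvec i.succ := by
      fin_cases i <;> rfl
    rw [map_mul, e, mul_comm]
    exact t_mul _ (hm (k - 1) (by omega)) (by ring)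

variable {ι : Type}

theorem mem_F {e : ι → ℤ} {k : ℤ} {c : ι → K} : c ∈ Fr e k ↔ ∀ i, c i ∈ AA (k - e i) :=
  Submodule.mem_pi.trans (forall_congr' fun _ => ⟨fun h => h trivial, fun h _ => h⟩)

theorem clear [Finite ι] (e : ι → ℤ) (c : ι → K) : ∃ (y : K) (k : ℤ), y ≠ 0 ∧ y • c ∈ Fr e k := by
  obtain ⟨b, hb⟩ := IsLocalization.exist_integer_multiples_of_finite
    (nonZeroDivisors (MvPolynomial (Fin 2) ℂ)) c
  choose p hp using hb
  choose m hm using fun i => poly_mem (p i)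
  obtain ⟨k, hk⟩ := Finite.bddAbove_range fun i => m i + e i
  refine ⟨algebraMap (MvPolynomial (Fin 2) ℂ) K b, k,
    IsFractionRing.to_map_ne_zero_of_mem_nonZeroDivisors b.2, mem_F.2 fun i => ?_⟩
  have h := hm i (k - e i) (le_sub_iff_add_le.2 (hk ⟨i, rfl⟩))
  rwa [hp, Algebra.smul_def] at h

theorem F_smul {e : ι → ℤ} {d k : ℤ} {a : K} {c : ι → K} (ha : a ∈ AA d) (hc : c ∈ Fr e k) :
    a • c ∈ Fr e (d + k) := mem_F.2 fun i => by
  rw [add_sub_assoc]
  exact A_mul ha (mem_F.1 hc i)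

theorem F_t (i : Fin 3) {e : ι → ℤ} {k : ℤ} {c : ι → K} (hc : c ∈ Fr e (k - 1)) :
    tvec i • c ∈ Fr e k := by
  have h := F_smul (t_mem i) hc
  rwa [add_sub_cancel] at h

theorem F_cu {e : ι → ℤ} {k : ℤ} {g : Fin 3 → ι → K} (h : ∀ i, g i ∈ Fr e (k - 1)) (i : Fin 3) :
    cu tvec g i ∈ Fr e k := by
  fin_cases i <;> exact sub_mem (F_t _ (h _)) (F_t _ (h _))

theorem F_single [DecidableEq ι] (e : ι → ℤ) (j : ι) : (Pi.single j 1 : ι → K) ∈ Fr e (e j) :=
  mem_F.2 fun i => by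
    by_cases h : i = j
    · rw [h, Pi.single_eq_same, sub_self]
      exact one_mem
    · rw [Pi.single_eq_of_ne h]
      exact zero_mem _

theorem F_fin [Finite ι] (e : ι → ℤ) (k : ℤ) : FiniteDimensional ℂ (Fr e k) :=
  Module.Finite.iff_fg.2 (Submodule.fg_pi fun _ => Module.Finite.iff_fg.1 (A_fin _))

end Vale.Agent.P287Z.L.Res
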