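import Vale.Agent.P287Z.L.ResA

/-!
Free resolutions of length one of saturated families.
-/

namespace Vale.Agent.P287Z.L

open MvPolynomial Module Filter Matrix Vale.Agent.P287 Vale.Agent.P287.Theta

namespace Res

section gen

variable {R M N : Type} [CommRing R] [AddCommGroup M] [Module R M] [AddCommGroup N] [Module R N]
  {t : Fin 3 → R}

theorem map_cu (f : M →ₗ[R] N) (g : Fin 3 → M) (i : Fin 3) :
    f (cu t g i) = cu t (fun j => f (g j)) i := by
  fin_cases i <;> simp [cu]

theorem sum_cu (g : Fin 3 → M) : ∑ i, t i • cu t g i = 0 := by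
  simp only [Fin.sum_univ_three, cu, cons_val_zero, cons_val_one, cons_val]
  module

theorem cu_sub (g : Fin 3 → M) (f : M) (i : Fin 3) : cu t (fun j => g j - t j • f) i = cu t g i := by
  fin_cases i <;> simp only [cu, Fin.zero_eta, Fin.mk_one, Fin.reduceFinMk, cons_val_zero,
    cons_val_one, cons_val] <;> module

theorem cu_zero (h0 : t 0 = 1) {g : Fin 3 → M} (h : ∀ i, cu t g i = 0) (i : Fin 3) :
    g i = t i • g 0 := by
  have h1 : t 2 • g 0 - t 0 • g 2 = 0 := h 1
  have h2 : t 0 • g 1 - t 1 • g 0 = 0 := h 2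
  rw [h0, one_smul, sub_eq_zero] at h1 h2
  fin_cases i
  · exact (h0 ▸ one_smul R (g 0)).symm
  · exact h2
  · exact h1.symm

theorem cu_pi {ι : Type} (g : ι → Fin 3 → R) (i : Fin 3) (l : ι) :
    cu t (fun j l => g l j) i l = cu t (g l) i := by
  fin_cases i <;> rfl

end gen

variable {V : Type} [AddCommGroup V] [Module ℂ V] [Module K V] [IsScalarTower ℂ K V]
  {ι κ : Type} [Fintype ι] [Fintype κ] {u : ι → V} {e : ι → ℤ} {k : ℤ}

theorem mem_S {v : V} : v ∈ Sp u e k ↔ ∃ c ∈ Fr e k, Fintype.linearCombination K u c = v :=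
  Submodule.mem_map

theorem mem_Z {c : ι → K} : c ∈ Syz u e k ↔ c ∈ Fr e k ∧ Fintype.linearCombination K u c = 0 :=
  Iff.rfl

theorem gen_mem {L : ℤ → Submodule ℂ V} (h : Gen L u e) (j : ι) : u j ∈ L (e j) := by
  classical
  rw [h]
  exact mem_S.2 ⟨_, F_single e j, by simp⟩

theorem step {L : ℤ → Submodule ℂ V} (hs : Sat L) (hg : Gen L u e) {w : κ → ι → K} {d : κ → ℤ}
    (hw : Gen (Syz u e) w d) (hm : Min w d) (ih : ∀ c ∈ Syz w d (k - 1), c = 0) :
    ∀ c ∈ Syz w d k, c = 0 := by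
  intro c hc
  set ρ := Fintype.linearCombination K w
  set π := Fintype.linearCombination K u
  obtain ⟨hc1, hc2⟩ := mem_Z.1 hc
  choose b hb hcb using fun j => euler (mem_F.1 hc1 j) fun h => hm k c hc j (by omega)
  have h1 : ∀ i, (fun j => b j i) ∈ Fr d (k - 1) := fun i => mem_F.2 fun j => by
    rw [sub_right_comm]
    exact hb j i
  have h2 : c = ∑ i, tvec i • fun j => b j i := funext fun j => by
    rw [hcb, Finset.sum_apply]
    rfl
  have h3 : ∀ i, ρ (fun j => b j i) ∈ Syz u e (k - 1) := fun i => by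
    rw [hw]
    exact mem_S.2 ⟨_, h1 i, rfl⟩
  have h4 : ∑ i, tvec i • ρ (fun j => b j i) = 0 := by
    rw [← hc2, h2, map_sum]
    simp only [map_smul, ρ]
  choose g hg1 hg2 using fun l => koszul (fun i => mem_F.1 (mem_Z.1 (h3 i)).1 l) (by
    have := congrFun h4 l
    rwa [Finset.sum_apply] at this)
  have h5 : ∀ i, (fun l => g l i) ∈ Fr e (k - 1 - 1) := fun i => mem_F.2 fun l => by
    rw [sub_right_comm]
    exact hg1 l i
  have h6 : ∀ i, ρ (fun j => b j i) = cu tvec (fun j l => g l j) i := fun i => funext fun l => by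
    rw [cu_pi, hg2]
  have h7 := cu_zero t_zero (g := fun j => π fun l => g l j) fun i => by
    rw [← map_cu π, ← h6]
    exact (mem_Z.1 (h3 i)).2
  have h8 : π (fun l => g l 0) ∈ L (k - 1 - 1 - 1) := hs _ _ fun i => by
    rw [← h7 i, sub_add_cancel, hg]
    exact mem_S.2 ⟨_, h5 i, rfl⟩
  rw [hg] at h8
  obtain ⟨f, hf, hf'⟩ := mem_S.1 h8
  have h9 : ∀ i, (fun l => g l i) - tvec i • f ∈ Sp w d (k - 1 - 1) := fun i => by
    rw [← hw]
    refine mem_Z.2 ⟨sub_mem (h5 i) (F_t i hf), ?_⟩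
    rw [map_sub, map_smul, hf']
    exact sub_eq_zero.2 (h7 i)
  choose a ha ha' using fun i => mem_S.1 (h9 i)
  have h10 : ∀ i, (fun j => b j i) = cu tvec a i := fun i => sub_eq_zero.1 (ih _ (mem_Z.2
    ⟨sub_mem (h1 i) (F_cu ha i), by
      rw [map_sub, map_cu, funext ha', cu_sub]
      exact sub_eq_zero.2 (h6 i)⟩))
  rw [h2, ← sum_cu (t := tvec) a]
  exact Finset.sum_congr rfl fun i _ => congrArg _ (h10 i)

theorem syz_zero {L : ℤ → Submodule ℂ V} (hs : Sat L) (hg : Gen L u e) {w : κ → ι → K}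
    {d : κ → ℤ} (hw : Gen (Syz u e) w d) (hm : Min w d) (k : ℤ) : ∀ c ∈ Syz w d k, c = 0 := by
  obtain ⟨m, hm'⟩ := Finite.bddBelow_range d
  have h0 : ∀ k < m, ∀ c ∈ Syz w d k, c = 0 := fun k hk c hc => funext fun j =>
    A_neg (by have := hm' ⟨j, rfl⟩; omega) (mem_F.1 (mem_Z.1 hc).1 j)
  rcases lt_or_ge k m with hk | hk
  · exact h0 k hk
  · induction k, hk using Int.leInduction with
    | base => exact step hs hg hw hm (h0 _ (by omega))
    | succ k _ ih => exact step hs hg hw hm (by rwa [add_sub_cancel_right])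

theorem fg_F {n : ℕ} (e : Fin n → ℤ) : FG (Fr e) := by
  refine ⟨n, fun i => Pi.single i 1, e, fun k => Submodule.ext fun c => ?_⟩
  have h : ∀ c : Fin n → K, Fintype.linearCombination K (fun i => Pi.single i 1) c = c :=
    fun c => (pi_eq_sum_univ' c).symm
  rw [mem_S]
  exact ⟨fun hc => ⟨c, hc, h c⟩, fun ⟨c', hc, h'⟩ => by rwa [← h', h]⟩

theorem rank_nul (u : ι → V) (e : ι → ℤ) (k : ℤ) :
    finrank ℂ (Sp u e k) + finrank ℂ (Syz u e k) = finrank ℂ (Fr e k) := by
  have := F_fin e k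
  have h := LinearMap.finrank_range_add_finrank_ker
    (((Fintype.linearCombination K u).restrictScalars ℂ).domRestrict (Fr e k))
  rwa [LinearMap.range_domRestrict, LinearMap.ker_domRestrict, ← Submodule.finrank_map_subtype_eq,
    Submodule.map_comap_subtype] at h

end Res

open Res

/-- **RES** -/
theorem res (hN : stNOETH) (hM : stMG) : stRES := by
  intro V _ _ _ _ L n₀ u e hs hg
  obtain ⟨n₁, w, d, hw, hm⟩ := hM _ (Syz u e) (hN _ (Fr e) (Syz u e) (fg_F e)
    (fun d k a ha c hc => mem_Z.2 ⟨F_smul ha (mem_Z.1 hc).1, by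
      rw [map_smul, (mem_Z.1 hc).2, smul_zero]⟩) fun k => inf_le_left)
  choose S hS hS' using fun i j => mem_A.1 (mem_F.1 (mem_Z.1 (gen_mem hw j)).1 i)
  have h : (fun j i => ev (Matrix.of S i j)) = w := funext fun j => funext fun i => hS' i j
  refine ⟨n₁, Matrix.of S, d, hg, hS, ?_, h ▸ hw⟩
  rw [h]
  refine Fintype.linearIndependent_iff.2 fun c hc => ?_
  obtain ⟨y, k, hy, hk⟩ := clear d c
  have h1 := syz_zero hs hg hw hm k _ (mem_Z.2 ⟨hk, by
    rw [map_smul, Fintype.linearCombination_apply, hc, smul_zero]⟩)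
  exact congrFun ((smul_eq_zero.1 h1).resolve_left hy)

/-- **RSD** -/
theorem rsd : stRSD := by
  intro V _ _ _ _ L n₀ n₁ u e S d h
  set w : Fin n₁ → Fin n₀ → K := fun j i => ev (S i j)
  have hi : Function.Injective (Fintype.linearCombination K w) :=
    linearIndependent_iff_injective_fintypeLinearCombination.1 h.li
  refine ⟨fun k => ?_, fun hF => ?_⟩
  · rw [← rank_nul u e k, h.gen, h.syz]
    congr 1
    exact (Submodule.equivMapOfInjective
      ((Fintype.linearCombination K w).restrictScalars ℂ) hi (Fr d k)).finrank_eq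
  · have h1 : LinearMap.range (Fintype.linearCombination K u) = ⊤ :=
      LinearMap.range_eq_top.2 fun v => by
        obtain ⟨k, y, hy, hv⟩ := hF v
        rw [h.gen] at hv
        obtain ⟨c, -, hc⟩ := mem_S.1 hv
        exact ⟨y⁻¹ • c, by rw [map_smul, hc, inv_smul_smul₀ hy]⟩
    have h2 : LinearMap.ker (Fintype.linearCombination K u) =
        LinearMap.range (Fintype.linearCombination K w) := by
      refine le_antisymm (fun c hc => ?_) ?_
      · obtain ⟨y, k, hy, hk⟩ := clear e c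
        have h3 : y • c ∈ Syz u e k := mem_Z.2 ⟨hk, by
          rw [map_smul, LinearMap.mem_ker.1 hc, smul_zero]⟩
        rw [h.syz] at h3
        obtain ⟨a, -, ha⟩ := mem_S.1 h3
        exact ⟨y⁻¹ • a, by rw [map_smul, ha, inv_smul_smul₀ hy]⟩
      · rw [Fintype.range_linearCombination, Submodule.span_le]
        rintro _ ⟨j, rfl⟩
        exact (mem_Z.1 (gen_mem h.syz j)).2
    have h3 := LinearMap.finrank_range_add_finrank_ker (Fintype.linearCombination K u)
    rwa [h1, h2, LinearMap.finrank_range_of_inj hi, finrank_top, finrank_fin_fun,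
      finrank_fin_fun] at h3

end Vale.Agent.P287Z.L
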