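import Vale.Agent.P287Z.L.Basic

/-!
Products of vectors and the reversal in the even Clifford algebra.
-/

namespace Vale.Agent.P287Z.L.SndH

open Module Matrix Vale.Agent.P287 Vale.Agent.P287.Theta
open CliffordAlgebra (ι reverse evenOdd)

variable {G : Matrix (Fin 4) (Fin 4) K}

theorem two_ne : (2 : K) ≠ 0 := haveI := charZero_K; two_ne_zero

theorem inc_inj : Function.Injective (inc G) := Subtype.val_injective

theorem inc_mem (x : BB G) : inc G x ∈ evenOdd (qf4 G) 0 :=
  Subtype.property (x : ↥(CliffordAlgebra.even (qf4 G)))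

theorem inc_mm (u v : Fin 4 → K) : inc G (mm G u v) = ι (qf4 G) u * ι (qf4 G) v := rfl

theorem inc_tau (x : BB G) : inc G (tau G x) = reverse (inc G x) := rfl

theorem q_eq (v : Fin 4 → K) : qf4 G v = v ⬝ᵥ G *ᵥ v := Matrix.toLinearMap₂'_apply' G v v

theorem be_comm (hG : G.IsSymm) (u v : Fin 4 → K) : u ⬝ᵥ G *ᵥ v = v ⬝ᵥ G *ᵥ u := by
  rw [dotProduct_mulVec, ← mulVec_transpose, hG.eq, dotProduct_comm]

theorem ι_sq (v : Fin 4 → K) :
    ι (qf4 G) v * ι (qf4 G) v = (v ⬝ᵥ G *ᵥ v) • (1 : CliffordAlgebra (qf4 G)) := by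
  rw [CliffordAlgebra.ι_sq_scalar, q_eq, Algebra.algebraMap_eq_smul_one]

theorem mm_self (v : Fin 4 → K) : mm G v v = (v ⬝ᵥ G *ᵥ v) • (1 : BB G) :=
  inc_inj (by rw [inc_mm, ι_sq, map_smul, map_one])

theorem mm_swap (hG : G.IsSymm) (u v : Fin 4 → K) :
    mm G u v + mm G v u = (2 * (u ⬝ᵥ G *ᵥ v)) • (1 : BB G) := by
  have h := mm_self (G := G) (u + v)
  simp only [map_add, LinearMap.add_apply, mm_self, mulVec_add, dotProduct_add, add_dotProduct,
    add_smul, be_comm hG v u] at h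
  rw [two_mul, add_smul]
  linear_combination (norm := abel1) h

theorem mm_mid (a b c : Fin 4 → K) : mm G a b * mm G b c = (b ⬝ᵥ G *ᵥ b) • mm G a c :=
  inc_inj (by
    rw [map_mul, map_smul, inc_mm, inc_mm, inc_mm, mul_assoc, ← mul_assoc (ι _ b), ι_sq,
      smul_mul_assoc, one_mul, mul_smul_comm])

theorem mm_mid' (hG : G.IsSymm) (a b c d : Fin 4 → K) :
    mm G a b * mm G c d + mm G a c * mm G b d = (2 * (b ⬝ᵥ G *ᵥ c)) • mm G a d := by
  have h := congrArg (inc G) (mm_swap hG b c)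
  rw [map_add, map_smul, map_one, inc_mm, inc_mm] at h
  refine inc_inj ?_
  rw [map_add, map_mul, map_mul, map_smul, inc_mm, inc_mm, inc_mm, inc_mm, inc_mm]
  calc _ = ι (qf4 G) a * (ι (qf4 G) b * ι (qf4 G) c + ι (qf4 G) c * ι (qf4 G) b) * ι (qf4 G) d := by
        noncomm_ring
    _ = _ := by rw [h, mul_smul_comm, mul_one, smul_mul_assoc]

theorem wd_eq (hG : G.IsSymm) (u v : Fin 4 → K) :
    wd G u v = mm G u v - (u ⬝ᵥ G *ᵥ v) • (1 : BB G) := by
  have h : wd G u v = (2⁻¹ : K) • (mm G u v - mm G v u) := rfl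
  rw [h, eq_sub_of_add_eq' (mm_swap hG u v), sub_sub_eq_add_sub, ← two_smul K, smul_sub, smul_smul,
    smul_smul, ← mul_assoc, inv_mul_cancel₀ two_ne, one_smul, one_mul]

/-- the reversal as a linear map -/
noncomputable def tauL (G : Matrix (Fin 4) (Fin 4) K) : BB G →ₗ[K] BB G where
  toFun := tau G
  map_add' x y := inc_inj (by rw [inc_tau, map_add, map_add, map_add, inc_tau, inc_tau])
  map_smul' c x := inc_inj (by rw [inc_tau, map_smul, map_smul, map_smul, inc_tau]; rfl)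

theorem tau_add (x y : BB G) : tau G (x + y) = tau G x + tau G y := map_add (tauL G) x y

theorem tau_smul (c : K) (x : BB G) : tau G (c • x) = c • tau G x := map_smul (tauL G) c x

theorem tau_mul (x y : BB G) : tau G (x * y) = tau G y * tau G x :=
  inc_inj (by
    rw [inc_tau, map_mul (inc G), map_mul (inc G), CliffordAlgebra.reverse.map_mul, inc_tau,
      inc_tau])

theorem tau_tau (x : BB G) : tau G (tau G x) = x :=
  inc_inj (by rw [inc_tau, inc_tau, CliffordAlgebra.reverse_reverse])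

theorem tau_one : tau G 1 = 1 :=
  inc_inj (by rw [inc_tau, map_one, CliffordAlgebra.reverse.map_one])

theorem tau_mm (u v : Fin 4 → K) : tau G (mm G u v) = mm G v u :=
  inc_inj (by
    rw [inc_tau, inc_mm, inc_mm, CliffordAlgebra.reverse.map_mul, CliffordAlgebra.reverse_ι,
      CliffordAlgebra.reverse_ι])

theorem nondeg (hd : G.det ≠ 0) {u : Fin 4 → K} (h : ∀ v, v ⬝ᵥ G *ᵥ u = 0) : u = 0 :=
  Matrix.eq_zero_of_mulVec_eq_zero hd (funext fun i => by
    simpa using h (Pi.single i 1))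

theorem ex_aniso (hG : G.IsSymm) (hd : G.det ≠ 0) : ∃ v : Fin 4 → K, v ⬝ᵥ G *ᵥ v ≠ 0 := by
  by_contra h
  push Not at h
  have h1 : (Pi.single 0 1 : Fin 4 → K) = 0 := nondeg hd fun v => by
    have h2 := h (v + Pi.single 0 1)
    rw [mulVec_add, dotProduct_add, add_dotProduct, add_dotProduct, h, h,
      be_comm hG (Pi.single 0 1) v, zero_add, add_zero, ← two_mul] at h2
    exact (mul_eq_zero.1 h2).resolve_left two_ne
  simpa using congrFun h1 0

theorem lam_del_mm (hG : G.IsSymm) (A : Alg G) (u v : Fin 4 → K) :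
    lam G (del G * mm G u v) = u ⬝ᵥ G *ᵥ v := by
  have h := A.lam_del_wd u v
  rw [wd_eq hG, mul_sub, map_sub, mul_smul_comm, mul_one, map_smul, A.lam_del, smul_eq_mul,
    mul_one] at h
  exact sub_eq_zero.1 h

theorem det_eq_of {F V W : Type} [Field F] [AddCommGroup V] [Module F V] [AddCommGroup W]
    [Module F W] (e : V ≃ₗ[F] W) {f : V →ₗ[F] V} {g : W →ₗ[F] W} (h : ∀ x, e (f x) = g (e x)) :
    LinearMap.det f = LinearMap.det g := by
  rw [← LinearMap.det_conj f e]
  congr 1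
  ext x
  simp [h]

end Vale.Agent.P287Z.L.SndH
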