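import Vale.Agent.P287Z.L.Basic

/-!
Matrix factorizations over a domain; saturation of ideals of forms.
-/

namespace Vale.Agent.P287Z.L.Sym

open MvPolynomial Module Filter Matrix Vale.Agent.P287 Vale.Agent.P287.Theta

section Gen

variable {R : Type*} [CommRing R] {n : ℕ}

lemma mul_swap [IsDomain R] {f : R} (hf : f ≠ 0) {A B : Matrix (Fin n) (Fin n) R}
    (h : A * B = f • (1 : Matrix (Fin n) (Fin n) R)) :
    B * A = f • (1 : Matrix (Fin n) (Fin n) R) := by
  have h1 : A.det ≠ 0 := by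
    intro h0
    have := congrArg Matrix.det h
    rw [Matrix.det_mul, h0, zero_mul, Matrix.det_smul, Matrix.det_one, mul_one] at this
    exact pow_ne_zero _ hf this.symm
  have h2 : A.det • (B * A) = A.det • (f • (1 : Matrix (Fin n) (Fin n) R)) := by
    calc A.det • (B * A) = A.adjugate * (A * B) * A := by
          rw [← Matrix.mul_assoc, Matrix.adjugate_mul, Matrix.smul_mul, Matrix.one_mul,
            Matrix.smul_mul]
      _ = _ := by
          rw [h, Matrix.mul_smul, Matrix.mul_one, Matrix.smul_mul, Matrix.adjugate_mul,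
            smul_comm]
  ext i j
  have := congrFun (congrFun h2 i) j
  simp only [Matrix.smul_apply, smul_eq_mul] at this ⊢
  exact mul_left_cancel₀ h1 this

lemma det_rank_one (g : R) (c a : Fin n → R) :
    g * (g • (1 : Matrix (Fin n) (Fin n) R) - vecMulVec c a).det = g ^ n * (g - a ⬝ᵥ c) := by
  have h := congrArg (Polynomial.eval g) (Matrix.charpoly_mul_comm'
    (Matrix.replicateCol Unit c) (Matrix.replicateRow Unit a))
  rw [Polynomial.eval_mul, Polynomial.eval_mul, Matrix.eval_charpoly, Matrix.eval_charpoly,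
    ← Matrix.vecMulVec_eq, Matrix.det_unique (A := _ - Matrix.replicateRow Unit a * _)] at h
  simpa [Matrix.scalar_apply, Matrix.smul_one_eq_diagonal] using h

lemma det_step [IsDomain R] {f g : R} (hf : Prime f) (hg : ¬ f ∣ g)
    {A B Y : Matrix (Fin n) (Fin n) R} {c a : Fin n → R}
    (h1 : A * B = f • (1 : Matrix (Fin n) (Fin n) R))
    (h2 : A * Y = g • (1 : Matrix (Fin n) (Fin n) R) - vecMulVec c a)
    (h3 : f ∣ g - a ⬝ᵥ c) (h4 : ∀ j, f ∣ (a ᵥ* A) j) : Associated A.det f := by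
  have hd : A.det ∣ f ^ n := by
    have := congrArg Matrix.det h1
    rw [Matrix.det_mul, Matrix.det_smul, Matrix.det_one, mul_one, Fintype.card_fin] at this
    exact ⟨_, this.symm⟩
  obtain ⟨j, -, hj⟩ := (dvd_prime_pow hf n).1 hd
  have key : ∀ (Y' : Matrix (Fin n) (Fin n) R) (c' : Fin n → R),
      A * Y' = g • (1 : Matrix (Fin n) (Fin n) R) - vecMulVec c' a → f ^ j ∣ g - a ⬝ᵥ c' := by
    intro Y' c' h
    refine hf.pow_dvd_of_dvd_mul_left j (a := g ^ n) (fun h0 => hg (hf.dvd_of_dvd_pow h0)) ?_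
    rw [← det_rank_one, ← h, Matrix.det_mul]
    exact (hj.symm.dvd.mul_right _).mul_left _
  rcases j with _ | _ | j
  · exfalso
    rw [pow_zero, associated_one_iff_isUnit] at hj
    have h5 : a ⬝ᵥ c = (a ᵥ* A) ⬝ᵥ (A⁻¹ *ᵥ c) := by
      rw [← Matrix.dotProduct_mulVec, Matrix.mulVec_mulVec, Matrix.mul_nonsing_inv _ hj,
        Matrix.one_mulVec]
    have h6 : f ∣ a ⬝ᵥ c := by
      rw [h5]
      exact Finset.dvd_sum fun i _ => (h4 i).mul_right _
    exact hg (by simpa using dvd_add h3 h6)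
  · simpa using hj
  · exfalso
    have h5 := key Y c h2
    have h6 : ∀ r, f ∣ a r := by
      intro r
      have h7 := key (Y + B * vecMulVec (Pi.single r 1) a) (c - f • Pi.single r 1) (by
        rw [Matrix.mul_add, h2, ← Matrix.mul_assoc, h1, Matrix.smul_mul, Matrix.one_mul,
          Matrix.sub_vecMulVec, Matrix.smul_vecMulVec]
        abel)
      have h8 := dvd_sub h7 h5
      have h9 : g - a ⬝ᵥ (c - f • Pi.single r 1) - (g - a ⬝ᵥ c) = f * a r := by
        simp [dotProduct_sub]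
      rw [h9, pow_succ', pow_succ'] at h8
      exact (Dvd.intro _ rfl).trans ((mul_dvd_mul_iff_left hf.ne_zero).1 h8)
    have h7 : f ∣ a ⬝ᵥ c := Finset.dvd_sum fun i _ => (h6 i).mul_right _
    exact hg (by simpa using dvd_add h3 h7)

lemma symm_of [IsDomain R] {f : R} (hf : f ≠ 0) {A B : Matrix (Fin n) (Fin n) R}
    (hB : B.IsSymm) (h : B * A = f • (1 : Matrix (Fin n) (Fin n) R)) : A.IsSymm := by
  have h1 : Aᵀ * B = f • (1 : Matrix (Fin n) (Fin n) R) := by
    have := congrArg Matrix.transpose h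
    rwa [Matrix.transpose_mul, hB.eq, Matrix.transpose_smul, Matrix.transpose_one] at this
  have h2 : f • Aᵀ = f • A := by
    calc f • Aᵀ = Aᵀ * (B * A) := by rw [h, Matrix.mul_smul, Matrix.mul_one]
      _ = f • A := by rw [← Matrix.mul_assoc, h1, Matrix.smul_mul, Matrix.one_mul]
  ext i j
  have := congrFun (congrFun h2 i) j
  simp only [Matrix.smul_apply, smul_eq_mul] at this
  exact mul_left_cancel₀ hf this

lemma exists_quot {f : R} {A : Matrix (Fin n) (Fin n) R} (h : ∀ i j, f ∣ A i j) :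
    ∃ T : Matrix (Fin n) (Fin n) R, A = f • T := by
  choose T hT using h
  exact ⟨Matrix.of T, by ext i j; simpa using hT i j⟩

end Gen

/-- the saturation of an ideal -/
def sat (I : Ideal P3) : Ideal P3 where
  carrier := {x | ∀ j : Fin 3, ∃ N : ℕ, X j ^ N * x ∈ I}
  add_mem' := fun {a b} ha hb j => by
    obtain ⟨N, hN⟩ := ha j
    obtain ⟨M, hM⟩ := hb j
    refine ⟨N + M, ?_⟩
    have : X j ^ (N + M) * (a + b) = X j ^ M * (X j ^ N * a) + X j ^ N * (X j ^ M * b) := by ring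
    rw [this]
    exact I.add_mem (I.mul_mem_left _ hN) (I.mul_mem_left _ hM)
  zero_mem' := fun j => ⟨0, by simp⟩
  smul_mem' := fun c x hx j => by
    obtain ⟨N, hN⟩ := hx j
    refine ⟨N, ?_⟩
    rw [smul_eq_mul, mul_left_comm]
    exact I.mul_mem_left _ hN

lemma mem_sat {I : Ideal P3} {x : P3} : x ∈ sat I ↔ ∀ j : Fin 3, ∃ N : ℕ, X j ^ N * x ∈ I :=
  Iff.rfl

lemma le_sat {I : Ideal P3} {x : P3} (h : x ∈ I) : x ∈ sat I := fun _ => ⟨0, by simpa using h⟩

lemma sat_X {I : Ideal P3} {x : P3} (h : ∀ j, X j * x ∈ sat I) : x ∈ sat I := fun j => by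
  obtain ⟨N, hN⟩ := h j j
  exact ⟨N + 1, by rwa [pow_succ, mul_assoc]⟩

lemma sat_hc {I : Ideal P3} (hI : ∀ x ∈ I, ∀ k, hc k x ∈ I) {x : P3} (h : x ∈ sat I) (k : ℤ) :
    hc k x ∈ sat I := fun j => by
  obtain ⟨N, hN⟩ := h j
  refine ⟨N, ?_⟩
  have := hI _ hN (k + N * 1)
  rwa [((hg_X j).pow N).hc_mul, add_sub_cancel_right] at this

lemma sat_unif {I : Ideal P3} {n : ℕ} {α : Fin n → P3} (h : ∀ i, α i ∈ sat I) :
    ∃ N : ℕ, ∀ i j, X j ^ N * α i ∈ I := by
  choose N hN using h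
  refine ⟨∑ i, ∑ j, N i j, fun i j => ?_⟩
  have h1 : N i j ≤ ∑ i, ∑ j, N i j :=
    (Finset.single_le_sum (f := fun j => N i j) (fun _ _ => Nat.zero_le _)
      (Finset.mem_univ j)).trans (Finset.single_le_sum (f := fun i => ∑ j, N i j)
        (fun _ _ => Nat.zero_le _) (Finset.mem_univ i))
  obtain ⟨M, hM⟩ := Nat.exists_eq_add_of_le h1
  rw [hM, add_comm, pow_add, mul_assoc]
  exact I.mul_mem_left _ (hN i j)

lemma mem_of_hc {I : Ideal P3} {x : P3} (h : ∀ k, hc k x ∈ I) : x ∈ I := by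
  rw [← sum_weightedHomogeneousComponent (w := fun _ : Fin 3 => (1 : ℤ)) x]
  exact finsum_induction (· ∈ I) I.zero_mem (fun _ _ => I.add_mem) h

/-- complete intersections are saturated -/
lemma sat_two {f g x : P3} (hf : Hg 6 f) (hp : Prime f) (hg : ¬ f ∣ g)
    (h : x ∈ sat (Ideal.span {g, f})) : x ∈ Ideal.span {g, f} := by
  refine mem_span_of_locally (d := 6) (hg_nat.1 hf) (by norm_num) hp hg fun A hA => ?_
  have h1 : lin A⁻¹ (X 0) ∈ ((Ideal.span {g, f}).colon {x}).radical := by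
    rw [lin_X]
    refine Ideal.sum_mem _ fun j _ => Ideal.mul_mem_left _ _ ?_
    obtain ⟨N, hN⟩ := h j
    exact ⟨N, Submodule.mem_colon_singleton.2 hN⟩
  obtain ⟨N, hN⟩ := h1
  refine ⟨N, ?_⟩
  have h2 := lin_mem_span (A := A) (Submodule.mem_colon_singleton.1 hN)
  rwa [smul_eq_mul, map_mul, map_pow, lin_lin, Matrix.nonsing_inv_mul _ hA, lin_one] at h2

/-- local membership at all points -/
lemma sat_of_loc {I : Ideal P3} {x : P3}
    (h : ∀ p : Fin 3 → ℂ, p ≠ 0 → ∃ b, eval p b ≠ 0 ∧ b * x ∈ I) : x ∈ sat I := fun j => by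
  have h1 : (X j : P3) ∈ (I.colon {x}).radical := by
    rw [← MvPolynomial.vanishingIdeal_zeroLocus_eq_radical (K := ℂ),
      MvPolynomial.mem_vanishingIdeal_iff]
    intro p hp
    by_cases h0 : p = 0
    · simp [h0]
    · obtain ⟨b, hb, hb'⟩ := h p h0
      have := hp b (Submodule.mem_colon_singleton.2 hb')
      rw [← H925.eval_eq_aeval] at this
      exact absurd this hb
  obtain ⟨N, hN⟩ := h1
  exact ⟨N, Submodule.mem_colon_singleton.1 hN⟩

lemma dvd_hc {f x : P3} {e : ℤ} (hf : Hg e f) (h : f ∣ x) (k : ℤ) : f ∣ hc k x := by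
  obtain ⟨q, rfl⟩ := h
  rw [hf.hc_mul]
  exact Dvd.intro _ rfl

lemma hc_dot {n : ℕ} {α : Fin n → P3} {d : Fin n → ℤ} {s : ℤ} (hα : ∀ i, Hg (s + d i) (α i))
    (c : Fin n → P3) (k : ℤ) :
    hc (k + s) (α ⬝ᵥ c) = α ⬝ᵥ fun i => hc (k - d i) (c i) := by
  simp only [dotProduct, map_sum]
  refine Finset.sum_congr rfl fun i _ => ?_
  rw [(hα i).hc_mul, show k + s - (s + d i) = k - d i by ring]

/-- homogeneous coefficients -/
lemma hom_comb {n : ℕ} {α : Fin n → P3} {d : Fin n → ℤ} {s k : ℤ} {f x : P3} (hf : Hg 6 f)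
    (hα : ∀ i, Hg (s + d i) (α i)) (hx : Hg (k + s) x) {c : Fin n → P3} (h : f ∣ x - α ⬝ᵥ c) :
    ∃ (c' : Fin n → P3) (q : P3), (∀ i, Hg (k - d i) (c' i)) ∧ Hg (k + s - 6) q ∧
      x = α ⬝ᵥ c' + f * q := by
  obtain ⟨q, hq⟩ := h
  refine ⟨fun i => hc (k - d i) (c i), hc (k + s - 6) q, fun i => hg_hc _ _, hg_hc _ _, ?_⟩
  rw [← hc_dot hα, ← hf.hc_mul, ← hq, ← map_add, add_sub_cancel, hx.hc_self]

lemma hc_zero (x : P3) : hc 0 x = C (constantCoeff x) := by
  classical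
  obtain ⟨c, h⟩ := (hg_hc 0 x).eq_C
  have h1 := congrArg (coeff 0) h
  rw [coeff_weightedHomogeneousComponent] at h1
  rw [h, constantCoeff_eq]
  simp at h1
  rw [h1]

lemma Hg.cc {k : ℤ} {x : P3} (hx : Hg k x) (h : constantCoeff x ≠ 0) : k = 0 := by
  have := hg_iff.1 hx 0 h
  simpa using this.symm

/-- `α` generates `J` modulo `f` -/
def GenM (f : P3) (s : ℤ) (J : Ideal P3) (n : ℕ) (d : Fin n → ℤ) (α : Fin n → P3) : Prop :=
  (∀ i, Hg (s + d i) (α i)) ∧ (∀ i, α i ∈ J) ∧ ∀ x ∈ J, ∃ c, f ∣ x - α ⬝ᵥ c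

lemma exists_gen (f : P3) (s : ℤ) {J : Ideal P3} (hJ : ∀ x ∈ J, ∀ k, hc k x ∈ J) :
    ∃ n d α, GenM f s J n d α := by
  classical
  have h1 : Ideal.span {x | x ∈ J ∧ ∃ k, Hg k x} = J := by
    refine le_antisymm (Ideal.span_le.2 fun x hx => hx.1) fun x hx => mem_of_hc fun k => ?_
    exact Ideal.subset_span ⟨hJ x hx k, k, hg_hc k x⟩
  obtain ⟨T, hT, hT'⟩ := (Submodule.fg_span_iff_fg_span_finset_subset (R := P3)
    {x | x ∈ J ∧ ∃ k, Hg k x}).1 (IsNoetherian.noetherian _)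
  choose k hk using fun x : T => (hT x.2).2
  refine ⟨T.card, fun i => k (T.equivFin.symm i) - s, fun i => (T.equivFin.symm i : P3),
    fun i => (hk _).cast (by ring), fun i => (hT (T.equivFin.symm i).2).1, fun x hx => ?_⟩
  have h2 : x ∈ Ideal.span (Set.range fun i => (T.equivFin.symm i : P3)) := by
    rw [← h1] at hx
    have h3 : x ∈ Submodule.span P3 (T : Set P3) := hT' ▸ hx
    refine Submodule.span_mono (fun y hy => ?_) h3
    exact ⟨T.equivFin ⟨y, hy⟩, by simp⟩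
  obtain ⟨c, hc'⟩ := Ideal.mem_span_range_iff_exists_fun.1 h2
  refine ⟨c, ?_⟩
  rw [dotProduct_comm, dotProduct, hc', sub_self]
  exact dvd_zero _

lemma exists_min {f : P3} (hf : Hg 6 f) (s : ℤ) {J : Ideal P3} (hJ : ∀ x ∈ J, ∀ k, hc k x ∈ J) :
    ∃ n d α, GenM f s J n d α ∧ ∀ c, f ∣ α ⬝ᵥ c → ∀ i, constantCoeff (c i) = 0 := by
  classical
  have hex := exists_gen f s hJ
  obtain ⟨d, α, hα⟩ := Nat.find_spec hex
  refine ⟨_, d, α, hα, fun c hc' i => ?_⟩
  by_contra h0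
  have hmin := fun m => Nat.find_min hex (m := m)
  generalize Nat.find hex = n at d α hα c hc' i h0 hmin
  obtain _ | n := n
  · exact i.elim0
  refine hmin n (Nat.lt_succ_self n) ⟨fun j => d (i.succAbove j), fun j => α (i.succAbove j),
    fun j => hα.1 _, fun j => hα.2.1 _, fun x hx => ?_⟩
  obtain ⟨e, he⟩ := hα.2.2 x hx
  have h1 := dvd_hc hf hc' (d i + s)
  rw [hc_dot hα.1, dotProduct, Fin.sum_univ_succAbove _ i, sub_self, hc_zero] at h1
  rw [dotProduct, Fin.sum_univ_succAbove _ i] at he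
  refine ⟨fun j => e (i.succAbove j) - C (constantCoeff (c i))⁻¹ * e i *
    hc (d i - d (i.succAbove j)) (c (i.succAbove j)), ?_⟩
  have h2 := dvd_add he (h1.mul_left (C (constantCoeff (c i))⁻¹ * e i))
  have h3 : (C (constantCoeff (c i))⁻¹ * C (constantCoeff (c i)) : P3) = 1 := by
    rw [← map_mul, inv_mul_cancel₀ h0, map_one]
  refine h2.trans (dvd_of_eq ?_)
  simp only [dotProduct, mul_sub, Finset.sum_sub_distrib, mul_add, Finset.mul_sum]
  have h4 : ∀ j, α (i.succAbove j) * (C (constantCoeff (c i))⁻¹ * e i *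
      hc (d i - d (i.succAbove j)) (c (i.succAbove j))) = C (constantCoeff (c i))⁻¹ * e i *
      (α (i.succAbove j) * hc (d i - d (i.succAbove j)) (c (i.succAbove j))) := fun j => by ring
  simp only [h4]
  linear_combination (α i * e i) * h3

end Vale.Agent.P287Z.L.Sym
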