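import Vale.Agent.P287Z.L.SymA

/-!
The symmetric presentation of a self-dual module on a plane sextic.
-/

namespace Vale.Agent.P287Z.L.Sym

open MvPolynomial Module Filter Matrix Vale.Agent.P287 Vale.Agent.P287.Theta

/-- the ideal of the values of the discriminant module -/
structure Dat (f γ : P3) (I : Ideal P3) : Prop where
  hf : Hg 6 f
  pf : Prime f
  nd : ¬ f ∣ γ
  fI : f ∈ I
  γI : γ ∈ I
  hom : ∀ x ∈ I, ∀ k, hc k x ∈ I
  mul : ∀ x ∈ I, ∀ y ∈ I, x * y ∈ Ideal.span {γ, f}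
  perf : ∀ p : Fin 3 → ℂ, p ≠ 0 → ∃ a ∈ I, ∃ b, eval p b ≠ 0 ∧ f ∣ γ * b - a * a

variable {f γ : P3} {I : Ideal P3} {n : ℕ} {d : Fin n → ℤ} {α : Fin n → P3} {l m s : ℤ}

lemma exists_lam (D : Dat f γ I) (hγ : Hg (6 + 2 * m + l) γ)
    (hα : GenM f (6 + m + l) (sat I) n d α) :
    ∃ Λ : Matrix (Fin n) (Fin n) P3, Λ.IsSymm ∧ (∀ i j, Hg (6 + l + d i + d j) (Λ i j)) ∧
      ∀ i j, f ∣ γ * Λ i j - α i * α j := by
  have h : ∀ i j, ∃ x, Hg (6 + l + d i + d j) x ∧ f ∣ γ * x - α i * α j := by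
    intro i j
    have h1 : α i * α j ∈ Ideal.span {γ, f} := by
      refine sat_two D.hf D.pf D.nd fun r => ?_
      obtain ⟨N, hN⟩ := hα.2.1 i r
      obtain ⟨M, hM⟩ := hα.2.1 j r
      refine ⟨N + M, ?_⟩
      have := D.mul _ hN _ hM
      rwa [mul_mul_mul_comm, ← pow_add] at this
    obtain ⟨x, y, hxy⟩ := Ideal.mem_span_pair.1 h1
    have h2 : f ∣ γ * x - α i * α j := ⟨-y, by rw [← hxy]; ring⟩
    have h3 := dvd_hc D.hf h2 (6 + m + l + d i + (6 + m + l + d j))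
    rw [map_sub, hγ.hc_mul, ((hα.1 i).mul (hα.1 j)).hc_self] at h3
    exact ⟨_, (hg_hc _ x).cast (by ring), h3⟩
  choose x h1 h2 using h
  refine ⟨Matrix.of fun i j => x (min i j) (max i j), ?_, fun i j => ?_, fun i j => ?_⟩
  · ext i j
    simp [min_comm, max_comm]
  · rcases le_total i j with h | h
    · simpa [h] using h1 i j
    · simpa [h] using (h1 j i).cast (by ring)
  · rcases le_total i j with h | h
    · simpa [h] using h2 i j
    · simpa [h, mul_comm (α i)] using h2 j i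

/-- the family of the values of the forms in an ideal -/
noncomputable def famI (J : Ideal P3) (s k : ℤ) : Submodule ℂ K :=
  (weightedHomogeneousSubmodule ℂ (fun _ : Fin 3 => (1 : ℤ)) (k + s) ⊓
    J.restrictScalars ℂ).map ev.toLinearMap

lemma mem_famI {J : Ideal P3} {k : ℤ} {y : K} :
    y ∈ famI J s k ↔ ∃ x, (Hg (k + s) x ∧ x ∈ J) ∧ ev x = y := Iff.rfl

lemma famI_sat : Sat (famI (sat I) s) := by
  intro k v hv
  choose x hx hx' using fun i => mem_famI.1 (hv i)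
  have h0 : ev (x 0) = v := by rw [hx' 0, tvec_zero, one_smul]
  have h1 : ∀ i, X 0 * x i = X i * x 0 := fun i =>
    ((hg_X 0).mul (hx i).1).inj ((hg_X i).mul (hx 0).1) (by
      rw [map_mul, map_mul, ev_X, ev_X, h0, hx', tvec_zero, one_mul, smul_eq_mul])
  obtain ⟨z, hz⟩ : X 0 ∣ x 0 := ((hprime_X 0).1.dvd_or_dvd ⟨_, (h1 1).symm⟩).resolve_left
    (H925.X_not_dvd_X (by decide))
  refine mem_famI.2 ⟨z, ⟨((hg_X 0).quot (X_ne_zero 0) (hz ▸ (hx 0).1)).cast (by ring),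
    sat_X fun i => ?_⟩, ?_⟩
  · have h2 : x i = X i * z := mul_left_cancel₀ (X_ne_zero 0) (by rw [h1, hz]; ring)
    exact h2 ▸ (hx i).2
  · rw [← h0, hz, map_mul, ev_X, tvec_zero, one_mul]

lemma mem_Fr' {ι : Type} {e : ι → ℤ} {k : ℤ} {c : ι → K} :
    c ∈ Fr e k ↔ ∀ i, c i ∈ AA (k - e i) := by
  simp [Fr, Submodule.mem_pi]

lemma mem_Sp' {V : Type} [AddCommGroup V] [Module ℂ V] [Module K V] [IsScalarTower ℂ K V]
    {ι : Type} [Fintype ι] {u : ι → V} {e : ι → ℤ} {k : ℤ} {v : V} :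
    v ∈ Sp u e k ↔ ∃ c : ι → K, (∀ i, c i ∈ AA (k - e i)) ∧ ∑ i, c i • u i = v := by
  simp [Sp, mem_Fr', Fintype.linearCombination_apply]

lemma mem_Syz' {V : Type} [AddCommGroup V] [Module ℂ V] [Module K V] [IsScalarTower ℂ K V]
    {ι : Type} [Fintype ι] {u : ι → V} {e : ι → ℤ} {k : ℤ} {c : ι → K} :
    c ∈ Syz u e k ↔ (∀ i, c i ∈ AA (k - e i)) ∧ ∑ i, c i • u i = 0 := by
  simp [Syz, mem_Fr', Fintype.linearCombination_apply]

lemma famI_gen {J : Ideal P3} (hf : Hg 6 f) (fJ : f ∈ J) (hα : GenM f s J n d α) :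
    Gen (famI J s) (Fin.cons (ev f) fun i => ev (α i) : Fin (n + 1) → K)
      (Fin.cons (6 - s) d : Fin (n + 1) → ℤ) := by
  intro k
  ext y
  rw [mem_famI, mem_Sp']
  constructor
  · rintro ⟨x, ⟨h1, h2⟩, rfl⟩
    obtain ⟨c, hc'⟩ := hα.2.2 x h2
    obtain ⟨c', q, h3, h4, h5⟩ := hom_comb hf hα.1 h1 hc'
    refine ⟨Fin.cons (ev q) fun i => ev (c' i), fun i => ?_, ?_⟩
    · refine Fin.cases ?_ (fun i => ?_) i
      · simpa using (h4.cast (j := k - (6 - s)) (by ring)).mem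
      · simpa using (h3 i).mem
    · rw [h5, Fin.sum_univ_succ]
      simp [dotProduct, mul_comm, add_comm]
  · rintro ⟨c, h1, rfl⟩
    choose b hb hb' using fun i => mem_AA.1 (h1 i)
    refine ⟨b 0 * f + ∑ i, b i.succ * α i, ⟨((hb 0).mul hf).cast (by simp; ring) |>.add
      (hg_sum _ fun i _ => ((hb i.succ).mul (hα.1 i)).cast (by simp)), J.add_mem
        (J.mul_mem_left _ fJ) (J.sum_mem fun i _ => J.mul_mem_left _ (hα.2.1 i))⟩, ?_⟩
    rw [Fin.sum_univ_succ]
    simp [hb']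

lemma square_of {n₁ : ℕ} {S : Matrix (Fin (n + 1)) (Fin n₁) K} {B : Matrix (Fin n₁) (Fin n) K}
    {x : K} {a : Fin n → K} (hx : x ≠ 0) (li : LinearIndependent K fun j i => S i j)
    (hcol : ∀ j, S 0 j * x + ∑ i : Fin n, S i.succ j * a i = 0)
    (hB : S.submatrix Fin.succ id * B = x • (1 : Matrix (Fin n) (Fin n) K)) : n₁ = n := by
  refine le_antisymm ?_ ?_
  · have h2 : LinearIndependent K fun j (i : Fin n) => S i.succ j := by
      rw [Fintype.linearIndependent_iff]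
      intro y hy
      have h3 : ∀ i : Fin n, ∑ j, y j * S i.succ j = 0 := fun i => by
        simpa using congrFun hy i
      refine Fintype.linearIndependent_iff.1 li y (funext fun i => ?_)
      refine Fin.cases ?_ (fun i => ?_) i
      · have h4 : ∑ j, y j * (S 0 j * x + ∑ i : Fin n, S i.succ j * a i) =
            (∑ j, y j * S 0 j) * x + ∑ i : Fin n, (∑ j, y j * S i.succ j) * a i := by
          simp only [mul_add, Finset.sum_add_distrib, Finset.sum_mul, Finset.mul_sum, mul_assoc]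
          rw [Finset.sum_comm]
        simpa [hcol, h3, hx] using h4.symm
      · simpa using h3 i
    simpa using h2.fintype_card_le_finrank
  · have h3 : S.submatrix Fin.succ id * (x⁻¹ • B) = 1 := by
      rw [Matrix.mul_smul, hB, smul_smul, inv_mul_cancel₀ hx, one_smul]
    have h4 := Matrix.rank_mul_le_left (S.submatrix Fin.succ id) (x⁻¹ • B)
    rw [h3, Matrix.rank_one, Fintype.card_fin] at h4
    exact h4.trans (Matrix.rank_le_width _)

section Res

variable {n₁ : ℕ} {S : Matrix (Fin (n + 1)) (Fin n₁) P3} {e : Fin n₁ → ℤ}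
  {L : ℤ → Submodule ℂ K}

lemma res_col (H : Rs L (Fin.cons (ev f) fun i => ev (α i) : Fin (n + 1) → K)
    (Fin.cons (6 - s) d : Fin (n + 1) → ℤ) S e) (j : Fin n₁) :
    ev (S 0 j) * ev f + ∑ i : Fin n, ev (S i.succ j) * ev (α i) = 0 := by
  have h1 : (fun i => ev (S i j)) ∈ Sp (fun j i => ev (S i j)) e (e j) := by
    refine mem_Sp'.2 ⟨Pi.single j 1, fun i => ?_, by simp [Pi.single_apply]⟩
    by_cases h : i = j
    · subst h; simpa using AA_one
    · simp [Pi.single_eq_of_ne h]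
  rw [← H.syz, mem_Syz', Fin.sum_univ_succ] at h1
  simpa using h1.2

lemma res_lift (hf : Hg 6 f) (f0 : f ≠ 0) (hα : ∀ i, Hg (s + d i) (α i))
    (H : Rs L (Fin.cons (ev f) fun i => ev (α i) : Fin (n + 1) → K)
      (Fin.cons (6 - s) d : Fin (n + 1) → ℤ) S e) (k : ℤ) (c : Fin n → P3)
    (h1 : ∀ i, Hg (k - d i) (c i)) (h : f ∣ α ⬝ᵥ c) : ∃ y, S.submatrix Fin.succ id *ᵥ y = c := by
  obtain ⟨q, hq⟩ := h
  have h0 : Hg (k + s) (α ⬝ᵥ c) := hg_sum _ fun i _ => ((hα i).mul (h1 i)).cast (by ring)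
  have h2 : Hg (k + s - 6) q := hf.quot f0 (hq ▸ h0)
  have h3 : (Fin.cons (-ev q) fun i => ev (c i) : Fin (n + 1) → K) ∈
      Sp (fun j i => ev (S i j)) e k := by
    rw [← H.syz, mem_Syz']
    refine ⟨fun i => ?_, ?_⟩
    · refine Fin.cases ?_ (fun i => ?_) i
      · simpa using (h2.cast (j := k - (6 - s)) (by ring)).mem
      · simpa using (h1 i).mem
    · have h4 := congrArg ev hq
      rw [Fin.sum_univ_succ]
      simp only [dotProduct, map_sum, map_mul, mul_comm (ev (α _))] at h4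
      simp only [Fin.cons_zero, Fin.cons_succ, smul_eq_mul]
      linear_combination h4
  obtain ⟨y, h4, h5⟩ := mem_Sp'.1 h3
  choose z hz hz' using fun j => mem_AA.1 (h4 j)
  refine ⟨z, funext fun i => ?_⟩
  have h7 : Hg (k - d i) (∑ j, S i.succ j * z j) := hg_sum _ fun j _ =>
    ((H.deg i.succ j).mul (hz j)).cast (by simp)
  refine h7.inj (h1 i) ?_
  have h6 := congrFun h5 i.succ
  simpa [hz', mul_comm] using h6

end Res

lemma res_step (hR : stRES) (hf : Hg 6 f) (f0 : f ≠ 0) (fI : f ∈ I)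
    (hα : GenM f s (sat I) n d α) :
    ∃ (e : Fin n → ℤ) (φ : Matrix (Fin n) (Fin n) P3), (∀ i j, Hg (e j - d i) (φ i j)) ∧
      (∀ j, f ∣ (α ᵥ* φ) j) ∧ (∃ B, φ * B = f • (1 : Matrix (Fin n) (Fin n) P3)) ∧
        ∀ k c, (∀ i, Hg (k - d i) (c i)) → f ∣ α ⬝ᵥ c → ∃ y, φ *ᵥ y = c := by
  obtain ⟨n₁, S, e, H⟩ := hR K _ _ _ _ famI_sat (famI_gen hf (le_sat fI) hα)
  have hdeg : ∀ (i : Fin n) j, Hg (e j - d i) (S i.succ j) := fun i j => H.deg i.succ j
  have hcol := res_col H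
  have hb := res_lift hf f0 hα.1 H
  have ha : ∀ j, f ∣ (α ᵥ* S.submatrix Fin.succ id) j := by
    intro j
    have h1 : Hg (e j + s) (S 0 j * f + ∑ i : Fin n, S i.succ j * α i) :=
      (((H.deg 0 j).mul hf).cast (by simp; ring)).add
        (hg_sum _ fun i _ => ((hdeg i j).mul (hα.1 i)).cast (by ring))
    have h2 := h1.eq_zero_of_ev (by simpa using hcol j)
    refine ⟨-S 0 j, ?_⟩
    simp only [Matrix.vecMul, dotProduct, Matrix.submatrix_apply, id, mul_comm (α _)]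
    linear_combination h2
  obtain ⟨B, hB⟩ : ∃ B : Matrix (Fin n₁) (Fin n) P3,
      S.submatrix Fin.succ id * B = f • (1 : Matrix (Fin n) (Fin n) P3) := by
    choose y hy using fun j => hb (6 + d j) (Pi.single j f) (fun i => by
      by_cases h : i = j
      · subst h; simpa using hf
      · simpa [Pi.single_eq_of_ne h] using hg_zero _) (by simp)
    refine ⟨Matrix.of fun i j => y j i, Matrix.ext fun i j => ?_⟩
    have := congrFun (hy j) i
    simpa [Matrix.mul_apply, Matrix.mulVec, dotProduct, Matrix.one_apply, Pi.single_apply]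
      using this
  obtain rfl : n₁ = n := square_of (S := S.map ev) (B := B.map ev) (hf.ev_ne f0) H.li hcol (by
    rw [Matrix.submatrix_map, ← Matrix.map_mul, hB]
    refine Matrix.ext fun i j => ?_
    by_cases h : i = j <;> simp [h])
  exact ⟨e, S.submatrix Fin.succ id, hdeg, ha, ⟨B, hB⟩, hb⟩

end Vale.Agent.P287Z.L.Sym
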