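import Vale.Agent.P287Z.L.SymB

/-!
Duality: the minimal presentation can be chosen symmetric.
-/

namespace Vale.Agent.P287Z.L.Sym

open MvPolynomial Module Filter Matrix Vale.Agent.P287 Vale.Agent.P287.Theta

variable {f γ : P3} {I : Ideal P3} {n : ℕ} {d e : Fin n → ℤ} {α c : Fin n → P3} {l m s : ℤ}
  {φ B Y Λ T : Matrix (Fin n) (Fin n) P3}

lemma exists_Y {q : P3} (hγ : Hg (6 + 2 * m + l) γ) (hα : ∀ i, Hg (6 + m + l + d i) (α i))
    (hc' : ∀ i, Hg (m - d i) (c i)) (hq : γ = α ⬝ᵥ c + f * q)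
    (hb : ∀ k c, (∀ i, Hg (k - d i) (c i)) → f ∣ α ⬝ᵥ c → ∃ y, φ *ᵥ y = c) :
    ∃ Y, φ * Y = γ • (1 : Matrix (Fin n) (Fin n) P3) - vecMulVec c α := by
  choose y hy using fun j => hb (6 + 2 * m + l + d j) (Pi.single j γ - α j • c) (fun i => by
    refine Hg.sub ?_ (((hα j).mul (hc' i)).cast (by ring))
    by_cases h : i = j
    · subst h; simpa using hγ
    · simpa [Pi.single_eq_of_ne h] using hg_zero _) ⟨α j * q, by
      rw [dotProduct_sub, dotProduct_single, dotProduct_smul, smul_eq_mul]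
      linear_combination α j * hq⟩
  refine ⟨Matrix.of fun i j => y j i, Matrix.ext fun i j => ?_⟩
  have := congrFun (hy j) i
  simpa [Matrix.mul_apply, Matrix.mulVec, dotProduct, Matrix.one_apply, Pi.single_apply,
    Matrix.vecMulVec_apply, mul_comm] using this

lemma dual_mem (D : Dat f γ I) (hα : GenM f s (sat I) n d α) {a' : Fin n → P3}
    (h : ∀ j i, f ∣ γ * B j i - a' j * α i) (j : Fin n) : a' j ∈ sat I := by
  refine sat_of_loc fun p hp => ?_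
  obtain ⟨a, ha, b, hb, h1⟩ := D.perf p hp
  obtain ⟨x, hx⟩ := hα.2.2 a (le_sat ha)
  have h2 : f ∣ γ * (B *ᵥ x) j - a' j * (α ⬝ᵥ x) := by
    simp only [Matrix.mulVec, dotProduct, Finset.mul_sum, ← Finset.sum_sub_distrib]
    refine Finset.dvd_sum fun i _ => ?_
    rw [← mul_assoc, ← mul_assoc, ← sub_mul]
    exact (h j i).mul_right _
  have h3 : f ∣ γ * (b * a' j - a * (B *ᵥ x) j) := by
    refine (dvd_add (dvd_sub (h1.mul_left (a' j)) (h2.mul_left a))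
      (hx.mul_left (a * a' j))).trans (dvd_of_eq ?_)
    ring
  obtain ⟨z, hz⟩ := (D.pf.dvd_or_dvd h3).resolve_left D.nd
  refine ⟨b, hb, ?_⟩
  rw [sub_eq_iff_eq_add.1 hz]
  exact I.add_mem (I.mul_mem_right _ D.fI) (I.mul_mem_right _ ha)

lemma exists_C (D : Dat f γ I) (hα : GenM f s (sat I) n d α) {a' : Fin n → P3}
    (h : ∀ j i, f ∣ γ * B j i - a' j * α i) (hΛ : ∀ i j, f ∣ γ * Λ i j - α i * α j) :
    ∃ Z W : Matrix (Fin n) (Fin n) P3, B = Z * Λ + f • W := by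
  choose z hz using fun j => hα.2.2 _ (dual_mem D hα h j)
  obtain ⟨W, hW⟩ := exists_quot (f := f) (A := B - Matrix.of z * Λ) fun j i => by
    refine (D.pf.dvd_or_dvd (a := γ) ?_).resolve_left D.nd
    have h1 : f ∣ ∑ r, z j r * (γ * Λ r i - α r * α i) :=
      Finset.dvd_sum fun r _ => (hΛ r i).mul_left _
    refine (dvd_sub (dvd_add (h j i) ((hz j).mul_left (α i))) h1).trans (dvd_of_eq ?_)
    simp only [Matrix.sub_apply, Matrix.mul_apply, Matrix.of_apply, dotProduct, mul_sub,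
      Finset.sum_sub_distrib, Finset.mul_sum]
    have h2 : ∀ r, z j r * (γ * Λ r i) = γ * (z j r * Λ r i) := fun r => by ring
    have h3 : ∀ r, z j r * (α r * α i) = α i * (α r * z j r) := fun r => by ring
    simp only [h2, h3]
    ring
  exact ⟨Matrix.of z, W, by rw [← hW]; abel⟩

lemma exists_T (D : Dat f γ I) (ha : ∀ j, f ∣ (α ᵥ* φ) j)
    (hΛ : ∀ i j, f ∣ γ * Λ i j - α i * α j) : ∃ T, Λ * φ = f • T := by
  refine exists_quot fun i j => (D.pf.dvd_or_dvd (a := γ) ?_).resolve_left D.nd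
  have h1 : f ∣ ∑ r, (γ * Λ i r - α i * α r) * φ r j :=
    Finset.dvd_sum fun r _ => (hΛ i r).mul_right _
  refine (dvd_add h1 ((ha j).mul_left (α i))).trans (dvd_of_eq ?_)
  simp only [Matrix.mul_apply, Matrix.vecMul, dotProduct, sub_mul, Finset.sum_sub_distrib,
    Finset.mul_sum, mul_assoc]
  ring

lemma det_T (f0 : f ≠ 0) {Z W : Matrix (Fin n) (Fin n) P3}
    (hB : B * φ = f • (1 : Matrix (Fin n) (Fin n) P3)) (hZ : B = Z * Λ + f • W)
    (hT : Λ * φ = f • T) (hcc : ∀ i j, constantCoeff (φ i j) = 0) :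
    constantCoeff T.det ≠ 0 := by
  have h1 : Z * T + W * φ = 1 := by
    rw [hZ, Matrix.add_mul, Matrix.mul_assoc, hT, Matrix.mul_smul, Matrix.smul_mul,
      ← smul_add] at hB
    refine Matrix.ext fun i j => mul_left_cancel₀ f0 ?_
    exact congrFun (congrFun hB i) j
  have h2 : φ.map constantCoeff = 0 := Matrix.ext hcc
  have h3 := congrArg (fun A : Matrix (Fin n) (Fin n) P3 =>
    ((constantCoeff (σ := Fin 3) (R := ℂ)).mapMatrix A).det) h1
  simp only [map_add, map_mul, map_one, Matrix.det_one] at h3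
  rw [RingHom.mapMatrix_apply _ φ, h2, Matrix.mul_zero, add_zero, Matrix.det_mul,
    ← RingHom.map_det, ← RingHom.map_det] at h3
  exact right_ne_zero_of_mul_eq_one h3

lemma finish (D : Dat f γ I) (hγ : Hg (6 + 2 * m + l) γ)
    (hα : GenM f (6 + m + l) (sat I) n d α)
    (hmin : ∀ c, f ∣ α ⬝ᵥ c → ∀ i, constantCoeff (c i) = 0) (hs : Λ.IsSymm)
    (hd : ∀ i j, Hg (6 + l + d i + d j) (Λ i j)) (hΛ : ∀ i j, f ∣ γ * Λ i j - α i * α j)
    (hφ : ∀ i j, Hg (e j - d i) (φ i j)) (ha : ∀ j, f ∣ (α ᵥ* φ) j)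
    (hB : φ * B = f • (1 : Matrix (Fin n) (Fin n) P3))
    (hb : ∀ k c, (∀ i, Hg (k - d i) (c i)) → f ∣ α ⬝ᵥ c → ∃ y, φ *ᵥ y = c) :
    ∃ ψ, SM f l d ψ ∧ ψ * Λ = f • (1 : Matrix (Fin n) (Fin n) P3) := by
  have f0 := D.pf.ne_zero
  obtain ⟨c₀, hc₀⟩ := hα.2.2 γ (le_sat D.γI)
  obtain ⟨c, q, hc', -, hq⟩ := hom_comb (k := m) D.hf hα.1 (hγ.cast (by ring)) hc₀
  obtain ⟨Y, hY⟩ := exists_Y hγ hα.1 hc' hq hb
  have hB' := mul_swap f0 hB
  have h1 : ∀ j i, f ∣ γ * B j i - (B *ᵥ c) j * α i := by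
    intro j i
    have h2 : f • Y = γ • B - vecMulVec (B *ᵥ c) α := by
      calc f • Y = B * φ * Y := by rw [hB', Matrix.smul_mul, Matrix.one_mul]
        _ = _ := by
          rw [Matrix.mul_assoc, hY, Matrix.mul_sub, Matrix.mul_smul, Matrix.mul_one,
            Matrix.mul_vecMulVec]
    exact ⟨Y j i, (congrFun (congrFun h2 j) i).symm⟩
  obtain ⟨Z, W, hZ⟩ := exists_C D hα h1 hΛ
  obtain ⟨T, hT⟩ := exists_T D ha hΛ
  have hcc : ∀ i j, constantCoeff (φ i j) = 0 := fun i j => hmin (fun i => φ i j) (ha j) i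
  have h3 := det_T f0 hB' hZ hT hcc
  have hTd : ∀ i j, Hg (l + e j - -d i) (T i j) := by
    intro i j
    have h4 : Hg (6 + l + d i + e j) ((Λ * φ) i j) :=
      hg_sum _ fun r _ => ((hd i r).mul (hφ r j)).cast (by ring)
    rw [hT] at h4
    exact (D.hf.quot f0 h4).cast (by ring)
  have h5 := hg_det T (fun i => -d i) (fun j => l + e j) hTd
  have h6 := Hg.cc h5 h3
  obtain ⟨t, ht⟩ := (h5.cast h6).eq_C
  have t0 : t ≠ 0 := by simpa [ht] using h3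
  have tt : (C t⁻¹ * C t : P3) = 1 := by rw [← map_mul, inv_mul_cancel₀ t0, map_one]
  have h7 : Λ * (φ * ((C t⁻¹ : P3) • T.adjugate)) = f • (1 : Matrix (Fin n) (Fin n) P3) := by
    rw [← Matrix.mul_assoc, hT, Matrix.smul_mul, Matrix.mul_smul, Matrix.mul_adjugate, ht,
      smul_smul (C t⁻¹ : P3), tt, one_smul]
  have h8 : ∀ i j, Hg (-l - d i - d j) ((φ * ((C t⁻¹ : P3) • T.adjugate)) i j) := fun i j =>
    hg_sum _ fun r _ => ((hφ i r).mul ((hg_adj T (fun i => -d i) (fun j => l + e j) hTd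
      r j).C_mul t⁻¹)).cast (by rw [h6]; ring)
  refine ⟨φ * ((C t⁻¹ : P3) • T.adjugate), ⟨symm_of f0 hs h7, h8, fun i j h => ?_, ?_⟩,
    mul_swap f0 h7⟩
  · obtain ⟨x, hx⟩ := ((h8 i j).cast h).eq_C
    have h9 : constantCoeff ((φ * ((C t⁻¹ : P3) • T.adjugate)) i j) = 0 := by
      simp [Matrix.mul_apply, hcc]
    rw [hx, constantCoeff_C] at h9
    rw [hx, h9, map_zero]
  · obtain ⟨u, hu⟩ := (det_step D.pf D.nd hB hY ⟨q, by rw [hq]; ring⟩ ha).symm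
    obtain ⟨r, hr, hr'⟩ := MvPolynomial.isUnit_iff_eq_C_of_isReduced.1 u.isUnit
    have h9 : φ * ((C t⁻¹ : P3) • T.adjugate) * T = φ := by
      rw [Matrix.mul_assoc, Matrix.smul_mul, Matrix.adjugate_mul, ht, smul_smul, tt, one_smul,
        Matrix.mul_one]
    have h10 := congrArg Matrix.det h9
    rw [Matrix.det_mul, ht, ← hu, hr'] at h10
    refine ⟨t⁻¹ * r, mul_ne_zero (inv_ne_zero t0) hr.ne_zero, ?_⟩
    rw [map_mul]
    linear_combination (C t⁻¹ : P3) * h10 - (φ * ((C t⁻¹ : P3) • T.adjugate)).det * tt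

theorem core (hR : stRES) (D : Dat f γ I) (hγ : Hg (6 + 2 * m + l) γ) :
    ∃ (n : ℕ) (d : Fin n → ℤ) (ψ Λ : Matrix (Fin n) (Fin n) P3) (α : Fin n → P3),
      SM f l d ψ ∧ Λ.IsSymm ∧ ψ * Λ = f • (1 : Matrix (Fin n) (Fin n) P3) ∧
        (∀ i j, Hg (6 + l + d i + d j) (Λ i j)) ∧ (∀ i j, f ∣ γ * Λ i j - α i * α j) ∧
          GenM f (6 + m + l) (sat I) n d α := by
  obtain ⟨n, d, α, hα, hmin⟩ := exists_min D.hf (6 + m + l) (J := sat I)
    fun x hx k => sat_hc D.hom hx k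
  obtain ⟨Λ, h1, h2, h3⟩ := exists_lam D hγ hα
  obtain ⟨e, φ, h4, h5, ⟨B, h6⟩, h7⟩ := res_step hR D.hf D.pf.ne_zero D.fI hα
  obtain ⟨ψ, h8, h9⟩ := finish D hγ hα hmin h1 h2 h3 h4 h5 h6 h7
  exact ⟨n, d, ψ, Λ, α, h8, h1, h9, h2, h3, hα⟩

end Vale.Agent.P287Z.L.Sym
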