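import Vale.Agent.P287Z.L.Noe2

/-!
Linear algebra for the second exterior power.
-/

namespace Vale.Agent.P287Z.L.Wdg

open Module Matrix

section dim

variable {R A B ι κ : Type} [Field R] [AddCommGroup A] [Module R A] [AddCommGroup B] [Module R B]

theorem fr_map (f : A →ₗ[R] B) (p : Submodule R A) [FiniteDimensional R p] :
    finrank R (p.map f) + finrank R (p ⊓ LinearMap.ker f : Submodule R A) = finrank R p := by
  rw [← LinearMap.finrank_range_add_finrank_ker (f.domRestrict p), LinearMap.range_domRestrict,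
    LinearMap.ker_domRestrict,
    ← (Submodule.comapSubtypeEquivOfLe (inf_le_left : p ⊓ LinearMap.ker f ≤ p)).finrank_eq,
    Submodule.comap_inf, Submodule.comap_subtype_self, top_inf_eq]

/-- matrices with entries in given subspaces -/
def Mt (p : ι → κ → Submodule R A) : Submodule R (Matrix ι κ A) where
  carrier := {M | ∀ i j, M i j ∈ p i j}
  add_mem' h h' i j := add_mem (h i j) (h' i j)
  zero_mem' _ _ := zero_mem _
  smul_mem' c _ h i j := Submodule.smul_mem _ c (h i j)

/-- the entries -/
def mtE (p : ι → κ → Submodule R A) : Mt p ≃ₗ[R] ∀ q : ι × κ, p q.1 q.2 where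
  toFun x q := ⟨x.1 q.1 q.2, x.2 _ _⟩
  invFun x := ⟨of fun i j => x (i, j), fun i j => (x (i, j)).2⟩
  map_add' _ _ := rfl
  map_smul' _ _ := rfl
  left_inv _ := rfl
  right_inv _ := rfl

/-- the coordinates -/
def piE (p : ι → Submodule R A) : Submodule.pi Set.univ p ≃ₗ[R] ∀ i, p i where
  toFun x i := ⟨x.1 i, x.2 i trivial⟩
  invFun x := ⟨fun i => x i, fun i _ => (x i).2⟩
  map_add' _ _ := rfl
  map_smul' _ _ := rfl
  left_inv _ := rfl
  right_inv _ := rfl

variable (R A ι) in
/-- symmetric matrices -/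
def Sm : Submodule R (Matrix ι ι A) where
  carrier := {M | Mᵀ = M}
  add_mem' h h' := (transpose_add _ _).trans (congrArg₂ _ h h')
  zero_mem' := transpose_zero
  smul_mem' c _ h := (transpose_smul _ _).trans (congrArg (c • ·) h)

variable (R A ι) in
/-- antisymmetric matrices -/
def As : Submodule R (Matrix ι ι A) where
  carrier := {M | Mᵀ = -M}
  add_mem' h h' := (transpose_add _ _).trans ((congrArg₂ _ h h').trans (neg_add _ _).symm)
  zero_mem' := transpose_zero.trans neg_zero.symm
  smul_mem' c _ h := (transpose_smul _ _).trans ((congrArg (c • ·) h).trans (smul_neg _ _))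

variable [Fintype ι] [Fintype κ]

instance fin_mt (p : ι → κ → Submodule R A) [∀ i j, FiniteDimensional R (p i j)] :
    FiniteDimensional R (Mt p) := (mtE p).symm.finiteDimensional

theorem fr_mt (p : ι → κ → Submodule R A) [∀ i j, FiniteDimensional R (p i j)] :
    finrank R (Mt p) = ∑ i, ∑ j, finrank R (p i j) := by
  rw [(mtE p).finrank_eq, Module.finrank_pi_fintype, Fintype.sum_prod_type]

theorem fr_pi (p : ι → Submodule R A) [∀ i, FiniteDimensional R (p i)] :
    finrank R (Submodule.pi Set.univ p) = ∑ i, finrank R (p i) := by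
  rw [(piE p).finrank_eq, Module.finrank_pi_fintype]

variable [LinearOrder ι]

variable (R A ι) in
/-- the change of sign above the diagonal -/
def flip : Matrix ι ι A →ₗ[R] Matrix ι ι A where
  toFun M := of fun i j => if i < j then -M i j else M i j
  map_add' M N := by
    ext i j
    simp only [of_apply, Matrix.add_apply]
    split_ifs
    · exact neg_add _ _
    · rfl
  map_smul' c M := by
    ext i j
    simp only [of_apply, Matrix.smul_apply, RingHom.id_apply]
    split_ifs
    · exact (smul_neg _ _).symm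
    · rfl

omit [Fintype ι] in
theorem flip_apply (M : Matrix ι ι A) (i j : ι) :
    flip R A ι M i j = if i < j then -M i j else M i j := rfl

omit [Fintype ι] in
theorem flip_flip (M : Matrix ι ι A) : flip R A ι (flip R A ι M) = M := by
  ext i j
  simp only [flip_apply]
  split_ifs
  · exact neg_neg _
  · rfl

theorem dims [CharZero R] (p : ι → ι → Submodule R A) [∀ i j, FiniteDimensional R (p i j)]
    (h : ∀ i j, p i j = p j i) :
    finrank R (Mt p ⊓ As R A ι : Submodule R _) + finrank R (Mt p ⊓ Sm R A ι : Submodule R _) =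
      ∑ i, ∑ j, finrank R (p i j) ∧
    ∑ i, finrank R (p i i) + finrank R (Mt p ⊓ As R A ι : Submodule R _) =
      finrank R (Mt p ⊓ Sm R A ι : Submodule R _) := by
  constructor
  · have k := fr_map (LinearMap.id - (transposeLinearEquiv ι ι R A).toLinearMap) (Mt p)
    rw [fr_mt] at k
    rw [← k]
    refine congrArg₂ (fun a b : Submodule R (Matrix ι ι A) => finrank R a + finrank R b) ?_ ?_
    · apply le_antisymm
      · refine fun T hT => ⟨(2⁻¹ : R) • T, Submodule.smul_mem _ _ hT.1, ?_⟩
        have h1 : Tᵀ = -T := hT.2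
        show (2⁻¹ : R) • T - ((2⁻¹ : R) • T)ᵀ = T
        rw [transpose_smul, h1]
        module
      · rintro _ ⟨T, hT, rfl⟩
        refine ⟨fun i j => sub_mem (hT i j) (h i j ▸ hT j i), ?_⟩
        show (T - Tᵀ)ᵀ = -(T - Tᵀ)
        rw [transpose_sub, transpose_transpose, neg_sub]
    · ext T
      exact and_congr_right' (eq_comm.trans sub_eq_zero.symm)
  · have : FiniteDimensional R (Mt p ⊓ Sm R A ι : Submodule R _) :=
      Submodule.finiteDimensional_inf_left _ _
    rw [← fr_map (diagLinearMap ι R A) (Mt p ⊓ Sm R A ι), ← fr_pi, (Submodule.equivMapOfInjective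
      (flip R A ι) (Function.LeftInverse.injective flip_flip) _).finrank_eq]
    refine congrArg₂ (fun (a : Submodule R (ι → A)) (b : Submodule R (Matrix ι ι A)) =>
      finrank R a + finrank R b) ?_ ?_
    · apply le_antisymm
      · refine fun c hc => ⟨diagonal c, ⟨fun i j => ?_, diagonal_transpose c⟩, diag_diagonal c⟩
        rw [diagonal_apply]
        split_ifs with k
        · exact k ▸ hc i trivial
        · exact zero_mem _
      · rintro _ ⟨T, hT, rfl⟩ i _
        exact hT.1 i i
    · have k0 : ∀ T ∈ Mt p, flip R A ι T ∈ Mt p := fun T hT i j => by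
        rw [flip_apply]
        split_ifs
        · exact neg_mem (hT i j)
        · exact hT i j
      refine le_antisymm ?_ fun T hT => ⟨flip R A ι T, ⟨k0 T hT.1.1, ?_⟩, flip_flip T⟩
      · rintro _ ⟨T, hT, rfl⟩
        have h1 : ∀ i j, T j i = -T i j := fun i j => congrFun (congrFun hT.2 i) j
        have h2 : ∀ i, T i i = 0 := fun i => by
          have := h1 i i
          rw [eq_neg_iff_add_eq_zero, ← two_smul R, smul_eq_zero] at this
          exact this.resolve_left two_ne_zero
        refine ⟨⟨k0 T hT.1, Matrix.ext fun i j => ?_⟩, funext fun i => ?_⟩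
        · rw [transpose_apply, flip_apply, flip_apply]
          rcases lt_trichotomy i j with k | rfl | k
          · rw [if_pos k, if_neg k.not_gt, h1]
          · rfl
          · rw [if_pos k, if_neg k.not_gt, h1, neg_neg]
        · show flip R A ι T i i = 0
          rw [flip_apply, if_neg (lt_irrefl i), h2]
      · have h1 : ∀ i j, T j i = T i j := fun i j => congrFun (congrFun hT.1.2 i) j
        have h2 : ∀ i, T i i = 0 := fun i => congrFun hT.2 i
        refine Matrix.ext fun i j => ?_
        rw [transpose_apply, Matrix.neg_apply, flip_apply, flip_apply]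
        rcases lt_trichotomy i j with k | rfl | k
        · rw [if_pos k, if_neg k.not_gt, h1, neg_neg]
        · rw [if_neg (lt_irrefl i), h2, neg_zero]
        · rw [if_pos k, if_neg k.not_gt, h1]

end dim

section alg

variable {F W : Type} [Field F] [AddCommGroup W] [Module F W]
variable {ι κ : Type} [Fintype ι] [Fintype κ]

/-- the value of a matrix of coefficients -/
def th (ω : (Fin 4 → F) →ₗ[F] (Fin 4 → F) →ₗ[F] W) (u : ι → Fin 4 → F) : Matrix ι ι F →ₗ[F] W where
  toFun T := ∑ a, ∑ b, T a b • ω (u a) (u b)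
  map_add' T T' := by simp only [Matrix.add_apply, add_smul, Finset.sum_add_distrib]
  map_smul' c T := by
    simp only [Matrix.smul_apply, smul_eq_mul, mul_smul, Finset.smul_sum, RingHom.id_apply]

variable {ω : (Fin 4 → F) →ₗ[F] (Fin 4 → F) →ₗ[F] W}

theorem th_apply (u : ι → Fin 4 → F) (T : Matrix ι ι F) :
    th ω u T = ∑ a, ∑ b, T a b • ω (u a) (u b) := rfl

theorem om_sum (u : ι → Fin 4 → F) (c c' : ι → F) :
    ω (∑ a, c a • u a) (∑ a, c' a • u a) = th ω u (vecMulVec c c') := by
  simp only [th_apply, map_sum, map_smul, LinearMap.sum_apply, LinearMap.smul_apply,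
    vecMulVec_apply, Finset.smul_sum, smul_smul]
  rw [Finset.sum_comm]
  simp only [mul_comm]

theorem th_mul (u : ι → Fin 4 → F) (P : Matrix ι κ F) (T : Matrix κ κ F) :
    th ω (fun a => ∑ i, P i a • u i) T = th ω u (P * T * Pᵀ) := by
  have k : P * T * Pᵀ = ∑ a, ∑ b, T a b • vecMulVec (fun i => P i a) fun i => P i b := by
    ext i j
    simp only [mul_apply, transpose_apply, Matrix.sum_apply, Matrix.smul_apply,
      vecMulVec_apply, smul_eq_mul, Finset.sum_mul]
    rw [Finset.sum_comm]
    exact Finset.sum_congr rfl fun a _ => Finset.sum_congr rfl fun b _ => by ring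
  rw [k, th_apply, map_sum (th ω u)]
  refine Finset.sum_congr rfl fun a _ => ?_
  rw [map_sum (th ω u)]
  exact Finset.sum_congr rfl fun b _ => by rw [om_sum, map_smul]

theorem om_swap (h0 : ∀ v, ω v v = 0) (v w : Fin 4 → F) : ω w v = -ω v w := by
  have := h0 (v + w)
  simp only [map_add, LinearMap.add_apply, h0, zero_add, add_zero] at this
  exact eq_neg_of_add_eq_zero_left this

theorem th_tr (h0 : ∀ v, ω v v = 0) (u : ι → Fin 4 → F) (T : Matrix ι ι F) :
    th ω u Tᵀ = -th ω u T := by
  rw [th_apply, th_apply, Finset.sum_comm, ← Finset.sum_neg_distrib]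
  refine Finset.sum_congr rfl fun a _ => ?_
  rw [← Finset.sum_neg_distrib]
  exact Finset.sum_congr rfl fun b _ => by rw [om_swap h0, smul_neg, transpose_apply]

theorem inj4 [CharZero F] (h6 : finrank F W = 6) (h0 : ∀ v, ω v v = 0)
    (hs : Submodule.span F {y | ∃ v w, y = ω v w} = ⊤) {B : Matrix (Fin 4) (Fin 4) F}
    (hB : Bᵀ = -B) (h : th ω (fun i => Pi.single i 1) B = 0) : B = 0 := by
  set a : Fin 4 → Fin 4 → W := fun i j => ω (Pi.single i 1) (Pi.single j 1) with ha
  have a0 : ∀ i, a i i = 0 := fun i => h0 _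
  have a1 : ∀ i j, a j i = -a i j := fun i j => om_swap h0 _ _
  have key : ∀ B : Matrix (Fin 4) (Fin 4) F, th ω (fun i => Pi.single i 1) B =
      ∑ q, ![B 0 1 - B 1 0, B 0 2 - B 2 0, B 0 3 - B 3 0, B 1 2 - B 2 1, B 1 3 - B 3 1,
        B 2 3 - B 3 2] q • ![a 0 1, a 0 2, a 0 3, a 1 2, a 1 3, a 2 3] q := fun B => by
    show ∑ i, ∑ j, B i j • a i j = _
    simp only [Fin.sum_univ_four, Fin.sum_univ_six, a0, a1 0 1, a1 0 2, a1 0 3, a1 1 2, a1 1 3,
      a1 2 3, cons_val]
    module
  have li : LinearIndependent F ![a 0 1, a 0 2, a 0 3, a 1 2, a 1 3, a 2 3] := by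
    refine linearIndependent_of_top_le_span_of_card_eq_finrank ?_ (by rw [h6, Fintype.card_fin])
    rw [← hs, Submodule.span_le]
    rintro _ ⟨v, w, rfl⟩
    rw [pi_eq_sum_univ' v, pi_eq_sum_univ' w, om_sum, key]
    exact sum_mem fun q _ => Submodule.smul_mem _ _ (Submodule.subset_span ⟨q, rfl⟩)
  have k := Fintype.linearIndependent_iff.1 li _ ((key B).symm.trans h)
  have b1 : ∀ i j, B j i = -B i j := fun i j => congrFun (congrFun hB i) j
  have b2 : ∀ i j, B i j - B j i = 0 → B i j = 0 ∧ B j i = 0 := fun i j k => by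
    have := b1 i j
    constructor
    · linear_combination 2⁻¹ * k + 2⁻¹ * this
    · linear_combination 2⁻¹ * this - 2⁻¹ * k
  have c0 := fun i => (b2 i i (sub_self _)).1
  have c1 := b2 0 1 (k 0)
  have c2 := b2 0 2 (k 1)
  have c3 := b2 0 3 (k 2)
  have c4 := b2 1 2 (k 3)
  have c5 := b2 1 3 (k 4)
  have c6 := b2 2 3 (k 5)
  ext i j
  fin_cases i <;> fin_cases j <;> simp [c0, c1, c2, c3, c4, c5, c6]

theorem ker_th [CharZero F] (h6 : finrank F W = 6) (h0 : ∀ v, ω v v = 0)
    (hs : Submodule.span F {y | ∃ v w, y = ω v w} = ⊤) (u : ι → Fin 4 → F) {T : Matrix ι ι F}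
    (hT : Tᵀ = -T) : th ω u T = 0 ↔ (of u)ᵀ * T * of u = 0 := by
  have k : th ω u T = th ω (fun i => Pi.single i 1) ((of u)ᵀ * T * of u) := by
    rw [← transpose_transpose (of u), transpose_transpose (of u)ᵀ, ← th_mul]
    exact congrArg (fun v => th ω v T) (funext fun a => pi_eq_sum_univ' (u a))
  refine ⟨fun h => inj4 h6 h0 hs ?_ (k ▸ h), fun h => by rw [k, h, map_zero]⟩
  rw [transpose_mul, transpose_mul, hT, transpose_transpose, Matrix.neg_mul, Matrix.mul_neg,
    Matrix.mul_assoc]

theorem two_sided {α β : Type} [Fintype α] [Fintype β] {π : Matrix α ι F} {P : Matrix β ι F}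
    (h : ∀ v, π *ᵥ v = 0 → P *ᵥ v = 0) {T : Matrix ι ι F} (hT : π * T * πᵀ = 0) :
    P * T * Pᵀ = 0 := by
  have k : ∀ {γ : Type} (M : Matrix ι γ F), π * M = 0 → P * M = 0 := fun M hM =>
    Matrix.ext fun i j => congrFun (h (fun a => M a j) (funext fun l => congrFun (congrFun hM l) j)) i
  have k1 := k _ ((Matrix.mul_assoc _ _ _).symm.trans hT)
  have k2 := congrArg transpose k1
  rw [← Matrix.mul_assoc, transpose_mul, transpose_transpose, transpose_zero] at k2
  have k3 := congrArg transpose (k _ k2)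
  rwa [transpose_mul, transpose_transpose, transpose_zero] at k3

variable [DecidableEq ι] [DecidableEq κ] {S : Matrix ι κ F} {r : Matrix κ ι F} {y : F}

omit [DecidableEq κ] in
theorem lift_as [CharZero F] {T : Matrix ι ι F} (hT : Tᵀ = -T)
    (hP : (y • (1 : Matrix ι ι F) - S * r) * T * (y • (1 : Matrix ι ι F) - S * r)ᵀ = 0) :
    S * (y • (r * T) - (2⁻¹ : F) • (r * T * rᵀ * Sᵀ)) -
      (S * (y • (r * T) - (2⁻¹ : F) • (r * T * rᵀ * Sᵀ)))ᵀ = (y * y) • T := by
  simp only [Matrix.mul_sub, Matrix.sub_mul, transpose_sub, transpose_smul, transpose_mul,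
    transpose_transpose, transpose_one, hT, Matrix.mul_smul, Matrix.smul_mul, Matrix.mul_assoc,
    Matrix.neg_mul, Matrix.mul_neg, Matrix.one_mul, Matrix.mul_one] at hP ⊢
  linear_combination (norm := module) -hP

omit [DecidableEq ι] in
theorem canc (h : r * S = y • (1 : Matrix κ κ F)) (hy : y ≠ 0) {α : Type} {Z : Matrix α κ F}
    (hZ : Z * Sᵀ = 0) : Z = 0 := by
  have k : Z * Sᵀ * rᵀ = y • Z := by
    rw [Matrix.mul_assoc, ← transpose_mul, h, transpose_smul, transpose_one, Matrix.mul_smul,
      Matrix.mul_one]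
  rw [hZ, Matrix.zero_mul] at k
  exact (smul_eq_zero.1 k.symm).resolve_left hy

omit [DecidableEq ι] in
theorem lift_sm (h : r * S = y • (1 : Matrix κ κ F)) {Y : Matrix κ ι F} (hY : (S * Y)ᵀ = S * Y) :
    r * Yᵀ * Sᵀ = y • Y := by
  rw [Matrix.mul_assoc, ← transpose_mul, hY, ← Matrix.mul_assoc, h, Matrix.smul_mul,
    Matrix.one_mul]

omit [DecidableEq ι] in
theorem sm_of (h : r * S = y • (1 : Matrix κ κ F)) (hy : y ≠ 0) {Z : Matrix κ κ F}
    (hZ : (S * (Z * Sᵀ))ᵀ = S * (Z * Sᵀ)) : Zᵀ = Z := by
  have k : (S * (Zᵀ - Z)) * Sᵀ = 0 := by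
    rw [transpose_mul, transpose_mul, transpose_transpose] at hZ
    rw [Matrix.mul_sub, Matrix.sub_mul, hZ, Matrix.mul_assoc, sub_self]
  have k1 := congrArg transpose (canc h hy k)
  rw [transpose_mul, transpose_zero] at k1
  have k2 := canc h hy k1
  rw [transpose_sub, transpose_transpose, sub_eq_zero] at k2
  exact k2.symm

end alg

end Vale.Agent.P287Z.L.Wdg
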