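import Vale.Agent.P287Z.L.Wdg0

/-!
Families of matrices.
-/

namespace Vale.Agent.P287Z.L.Wdg

open MvPolynomial Module Filter Matrix Vale.Agent.P287 Vale.Agent.P287.Theta Noe

variable {ι κ : Type} [Fintype ι] [Fintype κ]

/-- matrices of forms -/
noncomputable abbrev MM (α : ι → ℤ) (β : κ → ℤ) (k : ℤ) : Submodule ℂ (Matrix ι κ K) :=
  Mt fun i j => AA (k - (α i + β j))

theorem mulA {α β : Type} {M : Matrix α ι K} {N : Matrix ι β K} {f : α → ι → ℤ} {g : ι → β → ℤ}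
    {h : α → β → ℤ} (hM : ∀ i j, M i j ∈ AA (f i j)) (hN : ∀ j l, N j l ∈ AA (g j l))
    (e : ∀ i j l, f i j + g j l = h i l) (i : α) (l : β) : (M * N) i l ∈ AA (h i l) := by
  rw [mul_apply]
  exact sum_mem fun j _ => AA_cast (AA_mul (hM i j) (hN j l)) (e i j l)

omit [Fintype ι] [Fintype κ] in
theorem smulM {α : ι → ℤ} {β : κ → ℤ} {d k : ℤ} {a : K} (ha : a ∈ AA d) {M : Matrix ι κ K}
    (hM : M ∈ MM α β k) : a • M ∈ MM α β (d + k) := fun i j =>
  AA_cast (AA_mul ha (hM i j)) (by ring)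

omit [Fintype ι] in
theorem smulA (a : K) {M : Matrix ι ι K} (hM : M ∈ As ℂ K ι) : a • M ∈ As ℂ K ι :=
  (As K K ι).smul_mem a hM

section
variable {V W : Type} [AddCommGroup V] [Module ℂ V] [Module K V] [IsScalarTower ℂ K V]
  [AddCommGroup W] [Module ℂ W] [Module K W] [IsScalarTower ℂ K W]

theorem fg_of {L : ℤ → Submodule ℂ V} {u : ι → V} {e : ι → ℤ} (h : Gen L u e) : FG L := by
  let σ := (Fintype.equivFin ι).symm
  refine ⟨_, u ∘ σ, e ∘ σ, fun k => (h k).trans (Submodule.ext fun v => ?_)⟩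
  rw [sp, sp]
  refine ⟨fun ⟨c, c1, c2⟩ => ⟨c ∘ σ, fun i => c1 _, c2 ▸ σ.sum_comp fun i => c i • u i⟩,
    fun ⟨c, c1, c2⟩ => ⟨c ∘ σ.symm, fun i => by simpa using c1 (σ.symm i), ?_⟩⟩
  rw [← c2, ← σ.sum_comp]
  simp

theorem fg_map {L : ℤ → Submodule ℂ V} (h : FG L) (f : V →ₗ[K] W) :
    FG fun k => (L k).map (f.restrictScalars ℂ) := by
  obtain ⟨n, u, e, h⟩ := h
  refine ⟨n, fun i => f (u i), e, fun k => Submodule.ext fun w => ?_⟩
  simp only [h k, Submodule.mem_map, sp, LinearMap.restrictScalars_apply]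
  refine ⟨?_, fun ⟨c, c1, c2⟩ => ⟨_, ⟨c, c1, rfl⟩, by simpa using c2⟩⟩
  rintro ⟨_, ⟨c, c1, rfl⟩, rfl⟩
  exact ⟨c, c1, by simp⟩

theorem sat_of {L : ℤ → Submodule ℂ V} (h : Refl L) : Sat L := fun k v hv => h k v fun _ hg =>
  let ⟨i, hi⟩ := exists_ug_coord hg.1
  ⟨1, _, hi, add_comm k 1 ▸ hv i⟩

end

theorem fg_MM (α : ι → ℤ) (β : κ → ℤ) : FG (MM α β) := by
  classical
  refine fg_of (u := fun q : ι × κ => single q.1 q.2 (1 : K)) (e := fun q => α q.1 + β q.2)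
    fun k => Submodule.ext fun M => ?_
  have k1 : ∀ c : ι × κ → K, ∑ q, c q • single q.1 q.2 (1 : K) = of fun i j => c (i, j) := fun c => by
    rw [matrix_eq_sum_single (of fun i j => c (i, j)), Fintype.sum_prod_type]
    simp
  rw [sp]
  refine ⟨fun h => ⟨fun q => M q.1 q.2, fun q => h _ _, k1 _⟩, ?_⟩
  rintro ⟨c, c1, rfl⟩ i j
  rw [k1]
  exact c1 (i, j)

theorem ev1 (f : ι → ℤ) : ∀ᶠ k : ℤ in atTop, 2 * ((∑ i, finrank ℂ (AA (k - f i)) : ℕ) : ℤ) =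
    Fintype.card ι * (k ^ 2 + 3 * k + 2) - (2 * k + 3) * ∑ i, f i + ∑ i, f i ^ 2 := by
  filter_upwards [eventually_all.2 fun i => eventually_ge_atTop (f i)] with k hk
  rw [Nat.cast_sum, Finset.mul_sum, Finset.mul_sum, ← nsmul_eq_mul, ← Finset.card_univ,
    ← Finset.sum_const, ← Finset.sum_sub_distrib, ← Finset.sum_add_distrib]
  exact Finset.sum_congr rfl fun i _ => by
    rw [finrank_AA (by linarith [hk i])]
    ring

theorem ev2 (α : ι → ℤ) (β : κ → ℤ) : ∀ᶠ k : ℤ in atTop,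
    2 * ((∑ i, ∑ j, finrank ℂ (AA (k - (α i + β j))) : ℕ) : ℤ) =
    Fintype.card ι * Fintype.card κ * (k ^ 2 + 3 * k + 2) -
      (2 * k + 3) * (Fintype.card κ * ∑ i, α i + Fintype.card ι * ∑ j, β j) +
      (Fintype.card κ * ∑ i, α i ^ 2 + 2 * ((∑ i, α i) * ∑ j, β j) +
        Fintype.card ι * ∑ j, β j ^ 2) := by
  filter_upwards [ev1 fun q : ι × κ => α q.1 + β q.2] with k hk
  simp only [Fintype.sum_prod_type] at hk
  rw [hk]
  simp only [add_sq, Finset.sum_add_distrib, Finset.sum_const, Finset.card_univ, nsmul_eq_mul,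
    ← Finset.mul_sum, ← Finset.sum_mul, Fintype.card_prod, Nat.cast_mul]
  ring

theorem loc [DecidableEq κ] {S : Matrix ι κ P3} {e : ι → ℤ} {d : κ → ℤ}
    (hS : ∀ i j, Hg (d j - e i) (S i j)) {p : Fin 3 → ℂ} (hp : p ≠ 0)
    (hi : Function.Injective (S.map (eval p)).mulVec) :
    ∃ (D : ℤ) (y : K) (r : Matrix κ ι K), U1 p D y ∧ (∀ j a, r j a ∈ AA (D + e a - d j)) ∧
      r * S.map ev = y • (1 : Matrix κ κ K) := by
  classical
  obtain ⟨g, hg⟩ := (toLin' (S.map (eval p))).exists_leftInverse_of_injective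
    (LinearMap.ker_eq_bot.2 hi)
  have h1 : LinearMap.toMatrix' g * S.map (eval p) = 1 := by
    rw [← LinearMap.toMatrix'_toLin' (S.map (eval p)), ← LinearMap.toMatrix'_comp, hg,
      LinearMap.toMatrix'_id]
  obtain ⟨i, h2⟩ := Function.ne_iff.1 hp
  obtain ⟨m, hm⟩ := Finite.exists_le fun q : κ × ι => d q.1 - e q.2
  let R : Matrix κ ι P3 := of fun j a =>
    C (LinearMap.toMatrix' g j a) * (C (p i)⁻¹ * X i) ^ (m + e a - d j).toNat
  have h3 : ∀ j a, Hg (m + e a - d j) (R j a) := fun j a =>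
    ((((hg_X i).C_mul _).pow _).cast (by have : d j - e a ≤ m := hm (j, a); omega)).C_mul _
  have h4 : R.map (eval p) = LinearMap.toMatrix' g := by
    ext j a
    simp [R, inv_mul_cancel₀ h2]
  have h5 : ∀ j l, Hg (m + d l - d j) ((R * S) j l) := fun j l => by
    rw [mul_apply]
    exact hg_sum _ fun a _ => ((h3 j a).mul (hS a l)).cast (by ring)
  refine ⟨_, _, ((R * S).adjugate * R).map ev, ⟨_, hg_det _ d (fun l => m + d l) h5, rfl, ?_⟩,
    fun j a => Hg.mem ?_, ?_⟩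
  · rw [RingHom.map_det, RingHom.mapMatrix_apply, Matrix.map_mul, h4, h1, det_one]
    exact one_ne_zero
  · rw [mul_apply]
    exact hg_sum _ fun l _ =>
      ((hg_adj _ d (fun l => m + d l) h5 j l).mul (h3 l a)).cast (by ring)
  · rw [← Matrix.map_mul, Matrix.mul_assoc, adjugate_mul]
    ext j l
    by_cases h : j = l <;> simp [h, one_apply]

section
variable {W : Type} [AddCommGroup W] [Module ℂ W] [Module K W] [IsScalarTower ℂ K W]
  {ω : (Fin 4 → K) →ₗ[K] (Fin 4 → K) →ₗ[K] W} {U : ℤ → Submodule ℂ (Fin 4 → K)}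
  {u : ι → Fin 4 → K} {e : ι → ℤ}

omit [IsScalarTower ℂ K W] in
theorem th_mem (hU : Fam U) (hu : ∀ a, u a ∈ U (e a)) {k : ℤ} {T : Matrix ι ι K}
    (hT : T ∈ MM e e k) : th ω u T ∈ bil ω U U k := by
  refine sum_mem fun a _ => sum_mem fun b _ => Submodule.subset_span
    ⟨_, _, T a b • u a, u b, ?_, hU _ _ _ (hT a b) _ (hu a), hu b, ?_⟩
  · ring
  · rw [map_smul, LinearMap.smul_apply]

theorem om_mem (h0 : ∀ v, ω v v = 0) {i j : ℤ} {v w : Fin 4 → K} (hv : v ∈ Sp u e i)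
    (hw : w ∈ Sp u e j) :
    ω v w ∈ (MM e e (i + j) ⊓ As ℂ K ι).map ((th ω u).restrictScalars ℂ) := by
  obtain ⟨c, c1, rfl⟩ := sp.1 hv
  obtain ⟨c', c2, rfl⟩ := sp.1 hw
  refine ⟨(2⁻¹ : ℂ) • (vecMulVec c c' - (vecMulVec c c')ᵀ), Submodule.smul_mem _ _
    ⟨fun a b => sub_mem (AA_cast (AA_mul (c1 a) (c2 b)) (by ring))
      (AA_cast (AA_mul (c1 b) (c2 a)) (by ring)), ?_⟩, ?_⟩
  · show (_ - _ᵀ)ᵀ = -(_ - _ᵀ)
    rw [transpose_sub, transpose_transpose, neg_sub]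
  · rw [map_smul, map_sub, LinearMap.restrictScalars_apply, LinearMap.restrictScalars_apply,
      th_tr h0, om_sum]
    module

theorem bil_loc (h0 : ∀ v, ω v v = 0) {D : ℤ} {y : K}
    (h : ∀ k, ∀ v ∈ U k, y • v ∈ Sp u e (D + k)) {k : ℤ} {x : W} (hx : x ∈ bil ω U U k) :
    (y * y) • x ∈ (MM e e (D + D + k) ⊓ As ℂ K ι).map ((th ω u).restrictScalars ℂ) := by
  induction hx using Submodule.span_induction with
  | mem x hx =>
    obtain ⟨i, j, v, w, rfl, hv, hw, rfl⟩ := hx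
    have k := om_mem h0 (h i v hv) (h j w hw)
    rwa [map_smul, map_smul, LinearMap.smul_apply, smul_smul,
      show D + i + (D + j) = D + D + (i + j) by ring] at k
  | zero => rw [smul_zero]; exact zero_mem _
  | add x y _ _ hx hy => rw [smul_add]; exact add_mem hx hy
  | smul c x _ hx => rw [smul_comm]; exact Submodule.smul_mem _ _ hx

theorem pi_mul (u : ι → Fin 4 → K) (v : ι → K) : (of u)ᵀ *ᵥ v = ∑ a, v a • u a := by
  rw [mulVec_transpose, vecMul_eq_sum]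
  rfl

theorem hull_loc (h6 : finrank K W = 6) (h0 : ∀ v, ω v v = 0)
    (hs : Submodule.span K {y | ∃ v w, y = ω v w} = ⊤) (hU : Fam U) (hb : Fam (bil ω U U))
    {p : Fin 3 → ℂ} (h : LB U p u e) (k : ℤ) (v : W) (hv : v ∈ hull (bil ω U U) k) :
    LocP (bil ω U U) p k v := by
  classical
  obtain ⟨D, y, y1, y2⟩ := h.loc
  have k1 : ∀ g, HPrime g → ∃ d z, Ug g d z ∧ ∃ T ∈ MM e e (D + D + (d + k)) ⊓ As ℂ K ι,
      th ω u T = z • (y * y) • v := fun g hg =>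
    let ⟨d, z, z1, z2⟩ := mh hb hv hg
    let ⟨T, t1, t2⟩ := bil_loc h0 y2 z2
    ⟨d, z, z1, T, t1, t2.trans (smul_comm _ _ _)⟩
  obtain ⟨d, z, z1, T, t1, t2⟩ := k1 _ (hprime_X 0)
  have t3 : th ω u (z⁻¹ • T) = (y * y) • v := by rw [map_smul, t2, inv_smul_smul₀ z1.ne]
  refine ⟨_, _, y1.mul y1, t3 ▸ th_mem hU h.mem fun a b => ra fun g hg => ?_⟩
  obtain ⟨d', z', z2, T', t4, t5⟩ := k1 g hg
  have t6 := two_sided (P := 1) (fun c hc => by
    rw [pi_mul] at hc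
    rw [one_mulVec]
    exact funext (Fintype.linearIndependent_iff.1 h.li c hc))
    ((ker_th h6 h0 hs u (sub_mem (smulA z' (smulA z⁻¹ t1.2)) t4.2 :)).1
      (by rw [map_sub, map_smul, t3, t5, sub_self]))
  rw [transpose_one, Matrix.mul_one, Matrix.one_mul, sub_eq_zero] at t6
  exact ⟨d', z', z2, AA_cast (congrFun (congrFun t6 a) b ▸ t4.1 a b :) (by ring)⟩

end

end Vale.Agent.P287Z.L.Wdg
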